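import Claimed.Agent.R289.PppPv
import Claimed.Agent.R289.Ppp.Series

/-!
# Row 289 (S0537), box QBX (quenched box crossing), file Qbx/Lay : THE THINNING LAYER      (owner helper248, second helper294; prefix `pvql`)

Replaces `v'(t)`, the Poincare inequality, Efron-Stein and the Mecke formula of the thinning bootstrap (origin/helper144:notes/R289/box_agmt_144.md, L2-L3).

**Layered model.**  `ι` iid thin layers; the layer `j` = (geometry `g j : G`, colours `c j : C`).  "Given the positions of the layers in `S`" = the honest integral `pvqlE γ S` over the other coordinates of a finite product.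
* sec. 1  `PvqlB` bounded measurable functions (closure rules, integrability);
* sec. 2  finite products: `pvqlPi`, `pvqlA` (average one coordinate), `pvqlMix`, `pvqlE` (conditional expectation given the coordinates in `S`), tower `pvql_E_eq_A`, Jensen, permutations, one step `pvql_step`;
* sec. 3  ABSTRACT layered system `PvqlSys`, `PvqlSys.Ok`;  `Y.X` quenched probability, `Y.cf j` level one coefficient, `Y.v S` = variance of `E[F | positions of S]`, `Y.w T j` level one weight.
  **(TI-0)** `Ok.step`, **(TI-2)** `Ok.TI2` : `v (S+j) - v S ≤ (∑_{i ∈ S+j} w (S+j) i)/(|S|+1) + δ`   (exchangeability of the layers INSTEAD of Mecke),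
  **(TI-1)** `Ok.TI1` : `v (S+j) - v S ≤ 1/|ι| + δ`   (Jensen + exchangeability + Bessel), `Ok.v_mono_step`, `Ok.v_empty`;
* sec. 4  THE MODEL: `PvqlG = ℕ × (ℕ → ℂ)` (Poisson number of iid points), `PvqlC = ℕ → Bool`, `pvqlCfg`, `pvqlAll`, `pvqlSys ι r ν f`, `pvql_sys_ok` (for `f` measurable, `[0,1]`-valued, decreasing in black points, increasing in white points), `pvql_law` (the union of the layers is Poisson).
-/

set_option autoImplicit false
set_option linter.unusedSectionVars false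

namespace Claimed.Agent.R289

open MeasureTheory ProbabilityTheory Set Filter
open scoped ENNReal NNReal

/-! ## 1. bounded measurable functions -/

/-- bounded measurable -/
def PvqlB {α : Type} [MeasurableSpace α] (ψ : α → ℝ) : Prop := Measurable ψ ∧ ∃ B : ℝ, ∀ x, |ψ x| ≤ B

theorem pvql_eqns_cite0 : True := by
  have := @PvqlB.eq_1
  trivial

namespace PvqlB

variable {α β : Type} [MeasurableSpace α] [MeasurableSpace β] {ψ φ : α → ℝ}

theorem integrable {μ : Measure α} [IsFiniteMeasure μ] (h : PvqlB ψ) : Integrable ψ μ := by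
  obtain ⟨B, hB⟩ := h.2
  exact Integrable.of_bound h.1.aestronglyMeasurable B (Eventually.of_forall fun x => by rw [Real.norm_eq_abs]; exact hB x)

theorem const (a : ℝ) : PvqlB (fun _ : α => a) := ⟨measurable_const, |a|, fun _ => le_rfl⟩

theorem add (h : PvqlB ψ) (h' : PvqlB φ) : PvqlB (fun x => ψ x + φ x) := by
  obtain ⟨B, hB⟩ := h.2
  obtain ⟨B', hB'⟩ := h'.2
  exact ⟨h.1.add h'.1, B + B', fun x => (abs_add_le _ _).trans (add_le_add (hB x) (hB' x))⟩

theorem neg (h : PvqlB ψ) : PvqlB (fun x => - ψ x) := by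
  obtain ⟨B, hB⟩ := h.2
  exact ⟨h.1.neg, B, fun x => by rw [abs_neg]; exact hB x⟩

theorem sub (h : PvqlB ψ) (h' : PvqlB φ) : PvqlB (fun x => ψ x - φ x) := by
  simpa only [sub_eq_add_neg] using h.add h'.neg

theorem mul (h : PvqlB ψ) (h' : PvqlB φ) : PvqlB (fun x => ψ x * φ x) := by
  obtain ⟨B, hB⟩ := h.2
  obtain ⟨B', hB'⟩ := h'.2
  refine ⟨h.1.mul h'.1, B * B', fun x => ?_⟩
  rw [abs_mul]
  exact mul_le_mul (hB x) (hB' x) (abs_nonneg _) ((abs_nonneg _).trans (hB x))

theorem sq (h : PvqlB ψ) : PvqlB (fun x => ψ x ^ 2) := by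
  simpa only [pow_two] using h.mul h

theorem abs (h : PvqlB ψ) : PvqlB (fun x => |ψ x|) := by
  obtain ⟨B, hB⟩ := h.2
  exact ⟨h.1.abs, B, fun x => by rw [abs_abs]; exact hB x⟩

theorem comp (h : PvqlB ψ) {f : β → α} (hf : Measurable f) : PvqlB (fun x => ψ (f x)) := by
  obtain ⟨B, hB⟩ := h.2
  exact ⟨h.1.comp hf, B, fun x => hB _⟩

open Classical in
theorem ind {s : Set α} (hs : MeasurableSet s) : PvqlB (fun x => if x ∈ s then (1 : ℝ) else 0) := by
  refine ⟨Measurable.ite hs measurable_const measurable_const, 1, fun x => ?_⟩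
  show |if x ∈ s then (1 : ℝ) else 0| ≤ 1
  split_ifs <;> simp

theorem sum {ι : Type} (s : Finset ι) {f : ι → α → ℝ} (h : ∀ i ∈ s, PvqlB (f i)) : PvqlB (fun x => ∑ i ∈ s, f i x) := by
  classical
  induction s using Finset.induction_on with
  | empty => simpa using const (α := α) 0
  | insert i s hi ih =>
    simp only [Finset.sum_insert hi]
    exact (h i (Finset.mem_insert_self _ _)).add (ih fun j hj => h j (Finset.mem_insert_of_mem hj))

theorem integral_right {ν : Measure β} [IsProbabilityMeasure ν] {Ψ : α × β → ℝ} (h : PvqlB Ψ) :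
    PvqlB (fun a => ∫ b, Ψ (a, b) ∂ν) := by
  obtain ⟨B, hB⟩ := h.2
  refine ⟨h.1.stronglyMeasurable.integral_prod_right'.measurable, B, fun a => ?_⟩
  have := norm_integral_le_of_norm_le_const (μ := ν) (f := fun b => Ψ (a, b)) (C := B)
    (Eventually.of_forall fun b => by rw [Real.norm_eq_abs]; exact hB _)
  simpa using this

end PvqlB

/-- second moment around a constant -/
theorem pvql_integral_sub_sq {α : Type} [MeasurableSpace α] {μ : Measure α} [IsProbabilityMeasure μ] {ψ : α → ℝ} (h : PvqlB ψ) (c : ℝ) :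
    ∫ x, (ψ x - c) ^ 2 ∂μ = ∫ x, ψ x ^ 2 ∂μ - 2 * c * ∫ x, ψ x ∂μ + c ^ 2 := by
  have e : ∀ x, (ψ x - c) ^ 2 = ψ x ^ 2 - (2 * c) * ψ x + c ^ 2 := fun x => by ring
  simp only [e]
  rw [integral_add (f := fun x => ψ x ^ 2 - (2 * c) * ψ x) (g := fun _ => c ^ 2) (h.sq.integrable.sub (h.integrable.const_mul _)) (integrable_const _),
    integral_sub (f := fun x => ψ x ^ 2) (g := fun x => (2 * c) * ψ x) h.sq.integrable (h.integrable.const_mul _), integral_const_mul, integral_const]
  simp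

/-- `(∫ ψ)² ≤ ∫ ψ²` -/
theorem pvql_sq_integral_le {α : Type} [MeasurableSpace α] {μ : Measure α} [IsProbabilityMeasure μ] {ψ : α → ℝ} (h : PvqlB ψ) :
    (∫ x, ψ x ∂μ) ^ 2 ≤ ∫ x, ψ x ^ 2 ∂μ := by
  have h1 : 0 ≤ ∫ x, (ψ x - ∫ y, ψ y ∂μ) ^ 2 ∂μ := integral_nonneg fun x => sq_nonneg _
  rw [pvql_integral_sub_sq h] at h1
  nlinarith

/-- the mean minimises the second moment -/
theorem pvql_var_le {α : Type} [MeasurableSpace α] {μ : Measure α} [IsProbabilityMeasure μ] {ψ : α → ℝ} (h : PvqlB ψ) (b : ℝ) :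
    ∫ x, (ψ x - ∫ y, ψ y ∂μ) ^ 2 ∂μ ≤ ∫ x, (ψ x - b) ^ 2 ∂μ := by
  rw [pvql_integral_sub_sq h, pvql_integral_sub_sq h]
  nlinarith [sq_nonneg ((∫ y, ψ y ∂μ) - b)]

/-! ## 2. finite products: averaging one coordinate, conditional expectation on a set of coordinates -/

section prod

variable {ι : Type} [Fintype ι] [DecidableEq ι] {G : Type} [MeasurableSpace G]

/-- the product law -/
noncomputable def pvqlPi (ι : Type) [Fintype ι] {G : Type} [MeasurableSpace G] (γ : Measure G) : Measure (ι → G) := Measure.pi fun _ : ι => γ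

/-- averaging over the coordinate `j` -/
noncomputable def pvqlA (γ : Measure G) (j : ι) (ψ : (ι → G) → ℝ) : (ι → G) → ℝ := fun g => ∫ b, ψ (Function.update g j b) ∂γ

/-- coordinates in `S` from `g`, the others from `g'` -/
def pvqlMix (S : Finset ι) (g g' : ι → G) : ι → G := fun j => if j ∈ S then g j else g' j

/-- conditional expectation given the coordinates in `S` -/
noncomputable def pvqlE (γ : Measure G) (S : Finset ι) (φ : (ι → G) → ℝ) : (ι → G) → ℝ := fun g => ∫ g', φ (pvqlMix S g g') ∂(pvqlPi ι γ)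

theorem pvql_eqns_cite1 : True := by
  have := @pvqlPi.eq_1
  have := @pvqlA.eq_1
  have := @pvqlMix.eq_1
  have := @pvqlE.eq_1
  trivial

variable (γ : Measure G) [IsProbabilityMeasure γ]

instance pvql_pi_prob : IsProbabilityMeasure (pvqlPi ι γ) := by unfold pvqlPi; infer_instance

theorem pvql_map_update (j : ι) : ((pvqlPi ι γ).prod γ).map (fun p : (ι → G) × G => Function.update p.1 j p.2) = pvqlPi ι γ := by
  unfold pvqlPi
  symm
  refine Measure.pi_eq fun s hs => ?_
  rw [Measure.map_apply measurable_update' (MeasurableSet.univ_pi hs)]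
  have e : (fun p : (ι → G) × G => Function.update p.1 j p.2) ⁻¹' Set.pi univ s = (Set.pi univ (Function.update s j univ)) ×ˢ (s j) := by
    ext ⟨g, b⟩
    simp only [mem_preimage, Set.mem_pi, mem_univ, forall_true_left, mem_prod]
    constructor
    · intro h
      refine ⟨fun i => ?_, by simpa using h j⟩
      by_cases hij : i = j
      · subst hij; simp
      · have := h i
        rw [Function.update_of_ne hij] at this
        rwa [Function.update_of_ne hij]
    · rintro ⟨h1, h2⟩ i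
      by_cases hij : i = j
      · subst hij; simpa using h2
      · have := h1 i
        rw [Function.update_of_ne hij] at this
        rwa [Function.update_of_ne hij]
  rw [e, Measure.prod_prod, Measure.pi_pi, ← Finset.mul_prod_erase Finset.univ _ (Finset.mem_univ j),
    ← Finset.mul_prod_erase Finset.univ (fun i => γ (s i)) (Finset.mem_univ j)]
  simp only [Function.update_self, measure_univ, one_mul]
  rw [mul_comm]
  congr 1
  refine Finset.prod_congr rfl fun i hi => ?_
  rw [Function.update_of_ne (Finset.ne_of_mem_erase hi)]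

theorem pvql_measurable_mix (S : Finset ι) : Measurable fun p : (ι → G) × (ι → G) => pvqlMix S p.1 p.2 := by
  refine measurable_pi_lambda _ fun j => ?_
  unfold pvqlMix
  by_cases hj : j ∈ S
  · simp only [hj, if_true]; fun_prop
  · simp only [hj, if_false]; fun_prop

theorem pvql_map_mix (S : Finset ι) : ((pvqlPi ι γ).prod (pvqlPi ι γ)).map (fun p : (ι → G) × (ι → G) => pvqlMix S p.1 p.2) = pvqlPi ι γ := by
  have hm := pvql_measurable_mix (G := G) S
  unfold pvqlPi
  symm
  refine Measure.pi_eq fun s hs => ?_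
  rw [Measure.map_apply hm (MeasurableSet.univ_pi hs)]
  have e : (fun p : (ι → G) × (ι → G) => pvqlMix S p.1 p.2) ⁻¹' Set.pi univ s
      = (Set.pi univ fun i => if i ∈ S then s i else univ) ×ˢ (Set.pi univ fun i => if i ∈ S then univ else s i) := by
    ext ⟨g, g'⟩
    simp only [mem_preimage, Set.mem_pi, mem_univ, forall_true_left, mem_prod, pvqlMix]
    constructor
    · intro h
      refine ⟨fun i => ?_, fun i => ?_⟩
      · by_cases hi : i ∈ S
        · have := h i; simp only [hi, if_true] at this ⊢; exact this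
        · simp [hi]
      · by_cases hi : i ∈ S
        · simp [hi]
        · have := h i; simp only [hi, if_false] at this ⊢; exact this
    · rintro ⟨h1, h2⟩ i
      by_cases hi : i ∈ S
      · have := h1 i; simp only [hi, if_true] at this ⊢; exact this
      · have := h2 i; simp only [hi, if_false] at this ⊢; exact this
  rw [e, Measure.prod_prod, Measure.pi_pi, Measure.pi_pi, ← Finset.prod_mul_distrib]
  refine Finset.prod_congr rfl fun i _ => ?_
  by_cases hi : i ∈ S <;> simp [hi]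

theorem pvql_map_perm (σ : Equiv.Perm ι) : (pvqlPi ι γ).map (fun g : ι → G => g ∘ σ) = pvqlPi ι γ := by
  have hm : Measurable fun g : ι → G => g ∘ σ := measurable_pi_lambda _ fun j => measurable_pi_apply _
  unfold pvqlPi
  symm
  refine Measure.pi_eq fun s hs => ?_
  rw [Measure.map_apply hm (MeasurableSet.univ_pi hs)]
  have e : (fun g : ι → G => g ∘ σ) ⁻¹' Set.pi univ s = Set.pi univ fun i => s (σ.symm i) := by
    ext g
    simp only [mem_preimage, Set.mem_pi, mem_univ, forall_true_left, Function.comp]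
    constructor
    · intro h i
      have := h (σ.symm i)
      rwa [Equiv.apply_symm_apply] at this
    · intro h i
      have := h (σ i)
      rwa [Equiv.symm_apply_apply] at this
  rw [e, Measure.pi_pi]
  exact Equiv.prod_comp σ.symm fun i => γ (s i)

variable {γ}

theorem PvqlB.A {ψ : (ι → G) → ℝ} (h : PvqlB ψ) (j : ι) : PvqlB (pvqlA γ j ψ) :=
  PvqlB.integral_right (Ψ := fun p : (ι → G) × G => ψ (Function.update p.1 j p.2)) (h.comp measurable_update')

theorem PvqlB.E {φ : (ι → G) → ℝ} (h : PvqlB φ) (S : Finset ι) : PvqlB (pvqlE γ S φ) :=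
  PvqlB.integral_right (Ψ := fun p : (ι → G) × (ι → G) => φ (pvqlMix S p.1 p.2)) (h.comp (pvql_measurable_mix S))

/-- (A2) -/
theorem pvql_integral_A {ψ : (ι → G) → ℝ} (h : PvqlB ψ) (j : ι) : ∫ g, pvqlA γ j ψ g ∂(pvqlPi ι γ) = ∫ g, ψ g ∂(pvqlPi ι γ) := by
  unfold pvqlA
  rw [← integral_prod (f := fun p : (ι → G) × G => ψ (Function.update p.1 j p.2)) (h.comp measurable_update').integrable]
  conv_rhs => rw [← pvql_map_update γ j]
  rw [integral_map measurable_update'.aemeasurable h.1.aestronglyMeasurable]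

/-- (M3) -/
theorem pvql_integral_E {φ : (ι → G) → ℝ} (h : PvqlB φ) (S : Finset ι) : ∫ g, pvqlE γ S φ g ∂(pvqlPi ι γ) = ∫ g, φ g ∂(pvqlPi ι γ) := by
  unfold pvqlE
  rw [← integral_prod (f := fun p : (ι → G) × (ι → G) => φ (pvqlMix S p.1 p.2)) (h.comp (pvql_measurable_mix S)).integrable]
  conv_rhs => rw [← pvql_map_mix γ S]
  rw [integral_map (pvql_measurable_mix S).aemeasurable h.1.aestronglyMeasurable]

theorem pvql_integral_perm {φ : (ι → G) → ℝ} (h : PvqlB φ) (σ : Equiv.Perm ι) : ∫ g, φ (g ∘ σ) ∂(pvqlPi ι γ) = ∫ g, φ g ∂(pvqlPi ι γ) := by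
  have hm : Measurable fun g : ι → G => g ∘ σ := measurable_pi_lambda _ fun j => measurable_pi_apply _
  conv_rhs => rw [← pvql_map_perm γ σ]
  rw [integral_map hm.aemeasurable h.1.aestronglyMeasurable]

/-- one step: the variance gained by the coordinate `j` is at most the second moment of the effect of emptying it -/
theorem pvql_step {ψ : (ι → G) → ℝ} (h : PvqlB ψ) (j : ι) (e : G) :
    ∫ g, ψ g ^ 2 ∂(pvqlPi ι γ) - ∫ g, pvqlA γ j ψ g ^ 2 ∂(pvqlPi ι γ) ≤ ∫ g, (ψ g - ψ (Function.update g j e)) ^ 2 ∂(pvqlPi ι γ) := by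
  have hu : Measurable fun g : ι → G => Function.update g j e := measurable_update'.comp (measurable_id.prodMk measurable_const)
  have hΔ : PvqlB fun g : ι → G => (ψ g - ψ (Function.update g j e)) ^ 2 := (h.sub (h.comp hu)).sq
  rw [← pvql_integral_A h.sq j, ← pvql_integral_A hΔ j, ← integral_sub (h.sq.A j).integrable (h.A j).sq.integrable]
  refine integral_mono ((h.sq.A j).integrable.sub (h.A j).sq.integrable) (hΔ.A j).integrable fun g => ?_
  have hg : PvqlB fun b : G => ψ (Function.update g j b) := h.comp (measurable_update g)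
  have h1 := pvql_var_le (μ := γ) hg (ψ (Function.update g j e))
  rw [pvql_integral_sub_sq hg] at h1
  show pvqlA γ j (fun g => ψ g ^ 2) g - pvqlA γ j ψ g ^ 2 ≤ pvqlA γ j (fun g => (ψ g - ψ (Function.update g j e)) ^ 2) g
  unfold pvqlA
  simp only [Function.update_idem]
  nlinarith

theorem pvql_mix_insert {S : Finset ι} {j : ι} (hj : j ∉ S) (g g' : ι → G) (b : G) :
    pvqlMix (insert j S) (Function.update g j b) g' = pvqlMix S g (Function.update g' j b) := by
  funext i
  unfold pvqlMix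
  by_cases hij : i = j
  · subst hij; simp [hj]
  · by_cases hi : i ∈ S
    · simp [hi, hij]
    · simp [hi, hij]

/-- (M2) tower -/
theorem pvql_E_eq_A {φ : (ι → G) → ℝ} (h : PvqlB φ) {S : Finset ι} {j : ι} (hj : j ∉ S) : pvqlE γ S φ = pvqlA γ j (pvqlE γ (insert j S) φ) := by
  funext g
  have hm : Measurable fun g' : ι → G => pvqlMix S g g' := (pvql_measurable_mix S).comp (measurable_const.prodMk measurable_id)
  have hΨ : PvqlB fun g' : ι → G => φ (pvqlMix S g g') := h.comp hm
  have h1 := pvql_integral_A (γ := γ) hΨ j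
  unfold pvqlA at h1 ⊢
  unfold pvqlE
  simp only [pvql_mix_insert hj]
  rw [← h1]
  refine integral_integral_swap (f := fun g' b => φ (pvqlMix S g (Function.update g' j b))) ?_
  exact (hΨ.comp measurable_update').integrable

theorem pvql_E_mono {φ φ' : (ι → G) → ℝ} (h : PvqlB φ) (h' : PvqlB φ') (S : Finset ι) (g : ι → G)
    (hle : ∀ g', φ (pvqlMix S g g') ≤ φ' (pvqlMix S g g')) : pvqlE γ S φ g ≤ pvqlE γ S φ' g := by
  have hm : Measurable fun g' : ι → G => pvqlMix S g g' := (pvql_measurable_mix S).comp (measurable_const.prodMk measurable_id)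
  exact integral_mono (h.comp hm).integrable (h'.comp hm).integrable hle

theorem pvql_E_abs_le {φ φ' : (ι → G) → ℝ} (h : PvqlB φ) (h' : PvqlB φ') (S : Finset ι) (g : ι → G)
    (hle : ∀ g', |φ (pvqlMix S g g')| ≤ φ' (pvqlMix S g g')) : |pvqlE γ S φ g| ≤ pvqlE γ S φ' g := by
  rw [abs_le]
  constructor
  · have := pvql_E_mono (γ := γ) h'.neg h S g fun g' => neg_le_of_abs_le (hle g')
    unfold pvqlE at this ⊢
    rwa [integral_neg] at this
  · exact pvql_E_mono h h' S g fun g' => le_of_abs_le (hle g')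

theorem pvql_E_sub {φ φ' : (ι → G) → ℝ} (h : PvqlB φ) (h' : PvqlB φ') (S : Finset ι) (g : ι → G) :
    pvqlE γ S (fun g => φ g - φ' g) g = pvqlE γ S φ g - pvqlE γ S φ' g := by
  have hm : Measurable fun g' : ι → G => pvqlMix S g g' := (pvql_measurable_mix S).comp (measurable_const.prodMk measurable_id)
  exact integral_sub (h.comp hm).integrable (h'.comp hm).integrable

/-- (M6) Jensen -/
theorem pvql_E_sq_le {φ : (ι → G) → ℝ} (h : PvqlB φ) (S : Finset ι) (g : ι → G) : pvqlE γ S φ g ^ 2 ≤ pvqlE γ S (fun g => φ g ^ 2) g := by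
  have hm : Measurable fun g' : ι → G => pvqlMix S g g' := (pvql_measurable_mix S).comp (measurable_const.prodMk measurable_id)
  exact pvql_sq_integral_le (h.comp hm)

/-- (M5) -/
theorem pvql_E_mul (θ φ : (ι → G) → ℝ) (S : Finset ι) (g : ι → G) (hθ : ∀ g', θ (pvqlMix S g g') = θ g) :
    pvqlE γ S (fun g => θ g * φ g) g = θ g * pvqlE γ S φ g := by
  unfold pvqlE
  simp only [hθ]
  exact integral_const_mul _ _

theorem pvql_mix_update {S : Finset ι} {j : ι} (hj : j ∈ S) (g g' : ι → G) (e : G) :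
    pvqlMix S (Function.update g j e) g' = Function.update (pvqlMix S g g') j e := by
  funext i
  unfold pvqlMix
  by_cases hij : i = j
  · subst hij; simp [hj]
  · simp [hij]

/-- (M7) -/
theorem pvql_E_update (φ : (ι → G) → ℝ) {S : Finset ι} {j : ι} (hj : j ∈ S) (g : ι → G) (e : G) :
    pvqlE γ S φ (Function.update g j e) = pvqlE γ S (fun g => φ (Function.update g j e)) g := by
  unfold pvqlE
  simp only [pvql_mix_update hj]

theorem pvql_mix_perm {S : Finset ι} (σ : Equiv.Perm ι) (hσ : ∀ i, σ i ∈ S ↔ i ∈ S) (g g' : ι → G) :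
    pvqlMix S (g ∘ σ) (g' ∘ σ) = pvqlMix S g g' ∘ σ := by
  funext i
  simp only [pvqlMix, Function.comp, hσ]

/-- (M8) -/
theorem pvql_E_perm {φ φ' : (ι → G) → ℝ} (h : PvqlB φ) {S : Finset ι} (σ : Equiv.Perm ι) (hσ : ∀ i, σ i ∈ S ↔ i ∈ S)
    (hφ : ∀ g, φ (g ∘ σ) = φ' g) (g : ι → G) : pvqlE γ S φ (g ∘ σ) = pvqlE γ S φ' g := by
  have hm : Measurable fun g' : ι → G => pvqlMix S (g ∘ σ) g' := (pvql_measurable_mix S).comp (measurable_const.prodMk measurable_id)
  have h1 := pvql_integral_perm (γ := γ) (h.comp hm) σ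
  unfold pvqlE
  rw [← h1]
  simp only [pvql_mix_perm σ hσ, hφ]

theorem pvql_mix_univ (g g' : ι → G) : pvqlMix Finset.univ g g' = g := by
  funext i; simp [pvqlMix]

theorem pvql_E_univ (φ : (ι → G) → ℝ) : pvqlE γ Finset.univ φ = φ := by
  funext g
  unfold pvqlE
  simp [pvql_mix_univ]

end prod

/-! ## 3. the abstract layered system -/

/-- data: `ι` layers, geometry `g j : G` of law `γ`, colours `c j : C` of law `κ`, the observable `F`, the empty layer `e`, the layers without point / with one point, the character `χ` of the colour of the first point -/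
structure PvqlSys (ι G C : Type) [MeasurableSpace G] [MeasurableSpace C] where
  γ : Measure G
  κ : Measure C
  F : (ι → G) → (ι → C) → ℝ
  e : G
  Zero : Set G
  One : Set G
  χ : C → ℝ
  δ : ℝ

section sys

variable {ι G C : Type} [Fintype ι] [DecidableEq ι] [MeasurableSpace G] [MeasurableSpace C]

/-- hypotheses -/
structure PvqlSys.Ok (Y : PvqlSys ι G C) : Prop where
  pγ : IsProbabilityMeasure Y.γ
  pκ : IsProbabilityMeasure Y.κ
  meas : Measurable fun p : (ι → G) × (ι → C) => Y.F p.1 p.2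
  nonneg : ∀ g c, 0 ≤ Y.F g c
  le_one : ∀ g c, Y.F g c ≤ 1
  sym : ∀ (σ : Equiv.Perm ι) g c, Y.F (g ∘ σ) (c ∘ σ) = Y.F g c
  mZero : MeasurableSet Y.Zero
  mOne : MeasurableSet Y.One
  zero : ∀ g c j, g j ∈ Y.Zero → Y.F (Function.update g j Y.e) c = Y.F g c
  mχ : Measurable Y.χ
  χsq : ∀ c, Y.χ c ^ 2 = 1
  χ0 : ∫ c, Y.χ c ∂Y.κ = 0
  mono : ∀ g c j, g j ∈ Y.One → |∫ c', Y.F g (Function.update c j c') ∂Y.κ - Y.F (Function.update g j Y.e) c|
    ≤ ∫ c', Y.F g (Function.update c j c') * Y.χ c' ∂Y.κ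
  rest : Y.γ (Y.Zero ∪ Y.One)ᶜ ≤ ENNReal.ofReal Y.δ
  δ0 : 0 ≤ Y.δ

/-- the quenched probability (all positions known) -/
noncomputable def PvqlSys.X (Y : PvqlSys ι G C) (g : ι → G) : ℝ := ∫ c, Y.F g c ∂(pvqlPi ι Y.κ)

/-- the level one coefficient of the layer `j` (all positions known) -/
noncomputable def PvqlSys.cf (Y : PvqlSys ι G C) (j : ι) (g : ι → G) : ℝ := ∫ c, Y.F g c * Y.χ (c j) ∂(pvqlPi ι Y.κ)

/-- variance of the conditional probability given the positions of the layers in `S` -/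
noncomputable def PvqlSys.v (Y : PvqlSys ι G C) (S : Finset ι) : ℝ :=
  ∫ g, pvqlE Y.γ S Y.X g ^ 2 ∂(pvqlPi ι Y.γ) - (∫ g, Y.X g ∂(pvqlPi ι Y.γ)) ^ 2

open Classical in
/-- the level one weight of the layer `j` given the positions of the layers in `T` -/
noncomputable def PvqlSys.w (Y : PvqlSys ι G C) (T : Finset ι) (j : ι) : ℝ :=
  ∫ g, (if g j ∈ Y.One then 1 else 0) * pvqlE Y.γ T (Y.cf j) g ^ 2 ∂(pvqlPi ι Y.γ)

theorem pvql_eqns_cite2 : True := by
  have := @PvqlSys.X.eq_1
  have := @PvqlSys.cf.eq_1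
  have := @PvqlSys.v.eq_1
  have := @PvqlSys.w.eq_1
  trivial

variable {Y : PvqlSys ι G C}

theorem PvqlSys.Ok.bF (h : Y.Ok) : PvqlB fun p : (ι → G) × (ι → C) => Y.F p.1 p.2 :=
  ⟨h.meas, 1, fun p => by rw [abs_of_nonneg (h.nonneg _ _)]; exact h.le_one _ _⟩

theorem PvqlSys.Ok.bFg (h : Y.Ok) (g : ι → G) : PvqlB fun c : ι → C => Y.F g c :=
  h.bF.comp (f := fun c : ι → C => (g, c)) (measurable_const.prodMk measurable_id)

theorem PvqlSys.Ok.bχ (h : Y.Ok) : PvqlB Y.χ :=
  ⟨h.mχ, 1, fun c => by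
    have := h.χsq c
    exact abs_le_one_iff_mul_self_le_one.2 (by nlinarith)⟩

theorem PvqlSys.Ok.bX (h : Y.Ok) : PvqlB Y.X := by
  have := h.pκ
  exact PvqlB.integral_right (Ψ := fun p : (ι → G) × (ι → C) => Y.F p.1 p.2) h.bF

theorem PvqlSys.Ok.bcf (h : Y.Ok) (j : ι) : PvqlB (Y.cf j) := by
  have := h.pκ
  exact PvqlB.integral_right (Ψ := fun p : (ι → G) × (ι → C) => Y.F p.1 p.2 * Y.χ (p.2 j))
    (h.bF.mul (h.bχ.comp (f := fun p : (ι → G) × (ι → C) => p.2 j) ((measurable_pi_apply j).comp measurable_snd)))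

theorem PvqlSys.Ok.X_nonneg (h : Y.Ok) (g : ι → G) : 0 ≤ Y.X g := integral_nonneg fun c => h.nonneg g c

theorem PvqlSys.Ok.X_le_one (h : Y.Ok) (g : ι → G) : Y.X g ≤ 1 := by
  have := h.pκ
  have := integral_mono (μ := pvqlPi ι Y.κ) (h.bFg g).integrable (integrable_const 1) fun c => h.le_one g c
  simpa [PvqlSys.X] using this

/-- (L1) integrated over the colours -/
theorem PvqlSys.Ok.abs_X_sub_le (h : Y.Ok) {g : ι → G} {j : ι} (hj : g j ∈ Y.One) : |Y.X g - Y.X (Function.update g j Y.e)| ≤ Y.cf j g := by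
  have := h.pκ
  have hb1 := h.bFg g
  have hb2 := h.bFg (Function.update g j Y.e)
  have hb3 : PvqlB fun c : ι → C => Y.F g c * Y.χ (c j) := hb1.mul (h.bχ.comp (measurable_pi_apply j))
  have e1 : Y.X g = ∫ c, pvqlA Y.κ j (fun c => Y.F g c) c ∂(pvqlPi ι Y.κ) := (pvql_integral_A hb1 j).symm
  have e3 : Y.cf j g = ∫ c, pvqlA Y.κ j (fun c => Y.F g c * Y.χ (c j)) c ∂(pvqlPi ι Y.κ) := (pvql_integral_A hb3 j).symm
  rw [e1, e3, PvqlSys.X, ← integral_sub (hb1.A j).integrable hb2.integrable]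
  refine (abs_integral_le_integral_abs).trans ?_
  refine integral_mono ((hb1.A j).sub hb2).abs.integrable (hb3.A j).integrable fun c => ?_
  have := h.mono g c j hj
  unfold pvqlA
  simpa only [Function.update_self] using this

theorem PvqlSys.Ok.X_perm (h : Y.Ok) (σ : Equiv.Perm ι) (g : ι → G) : Y.X (g ∘ σ) = Y.X g := by
  have := h.pκ
  unfold PvqlSys.X
  rw [← pvql_integral_perm (h.bFg (g ∘ σ)) σ]
  simp only [h.sym]

theorem PvqlSys.Ok.cf_perm (h : Y.Ok) (σ : Equiv.Perm ι) (j : ι) (g : ι → G) : Y.cf j (g ∘ σ) = Y.cf (σ j) g := by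
  have := h.pκ
  unfold PvqlSys.cf
  rw [← pvql_integral_perm ((h.bFg (g ∘ σ)).mul (h.bχ.comp (measurable_pi_apply j))) σ]
  simp only [h.sym, Function.comp]

open Classical in
/-- **(TI-0)** the variance gained by the positions of the layer `j` -/
theorem PvqlSys.Ok.step (h : Y.Ok) {S : Finset ι} {j : ι} (hj : j ∉ S) : Y.v (insert j S) - Y.v S ≤ Y.w (insert j S) j + Y.δ := by
  have := h.pγ
  have := h.pκ
  set T := insert j S with hT
  have hjT : j ∈ T := Finset.mem_insert_self _ _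
  obtain ⟨R, hR⟩ : ∃ R : Set G, R = (Y.Zero ∪ Y.One)ᶜ := ⟨_, rfl⟩
  have hRm : MeasurableSet R := hR ▸ (h.mZero.union h.mOne).compl
  have hψ : PvqlB (pvqlE Y.γ T Y.X) := h.bX.E T
  have h1 := pvql_step (γ := Y.γ) hψ j Y.e
  rw [← pvql_E_eq_A h.bX hj] at h1
  have hu : Measurable fun g : ι → G => Function.update g j Y.e := measurable_update'.comp (measurable_id.prodMk measurable_const)
  have hmj : Measurable fun g : ι → G => g j := measurable_pi_apply j
  have hI1 : PvqlB fun g : ι → G => (if g j ∈ Y.One then (1 : ℝ) else 0) := (PvqlB.ind h.mOne).comp hmj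
  have hI2 : PvqlB fun g : ι → G => (if g j ∈ R then (1 : ℝ) else 0) := (PvqlB.ind hRm).comp hmj
  have hw : PvqlB fun g : ι → G => (if g j ∈ Y.One then (1 : ℝ) else 0) * pvqlE Y.γ T (Y.cf j) g ^ 2 := hI1.mul ((h.bcf j).E T).sq
  have hmixj : ∀ g g' : ι → G, pvqlMix T g g' j = g j := fun g g' => by simp [pvqlMix, hjT]
  have hpt : ∀ g : ι → G, (pvqlE Y.γ T Y.X g - pvqlE Y.γ T Y.X (Function.update g j Y.e)) ^ 2
      ≤ (if g j ∈ Y.One then (1 : ℝ) else 0) * pvqlE Y.γ T (Y.cf j) g ^ 2 + (if g j ∈ R then (1 : ℝ) else 0) := by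
    intro g
    rw [pvql_E_update Y.X hjT, ← pvql_E_sub h.bX (h.bX.comp hu)]
    have hD : PvqlB fun g : ι → G => Y.X g - Y.X (Function.update g j Y.e) := h.bX.sub (h.bX.comp hu)
    by_cases h0 : g j ∈ Y.Zero
    · have hz : |pvqlE Y.γ T (fun g => Y.X g - Y.X (Function.update g j Y.e)) g| ≤ pvqlE Y.γ T (fun _ => 0) g := by
        refine pvql_E_abs_le hD (PvqlB.const 0) T g fun g' => ?_
        have e : Y.X (Function.update (pvqlMix T g g') j Y.e) = Y.X (pvqlMix T g g') := by
          unfold PvqlSys.X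
          refine integral_congr_ae (Eventually.of_forall fun c => ?_)
          exact h.zero _ c j (by rw [hmixj]; exact h0)
        rw [e, sub_self, abs_zero]
      have hz2 : pvqlE Y.γ T (fun _ => (0 : ℝ)) g = 0 := by simp [pvqlE]
      rw [hz2] at hz
      have hz3 := abs_nonpos_iff.1 hz
      rw [hz3]
      have a1 : (0 : ℝ) ≤ (if g j ∈ Y.One then (1 : ℝ) else 0) * pvqlE Y.γ T (Y.cf j) g ^ 2 := by
        split_ifs <;> positivity
      have a2 : (0 : ℝ) ≤ (if g j ∈ R then (1 : ℝ) else 0) := by split_ifs <;> norm_num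
      nlinarith
    · by_cases h1' : g j ∈ Y.One
      · have hz : |pvqlE Y.γ T (fun g => Y.X g - Y.X (Function.update g j Y.e)) g| ≤ pvqlE Y.γ T (Y.cf j) g := by
          refine pvql_E_abs_le hD (h.bcf j) T g fun g' => ?_
          exact h.abs_X_sub_le (by rw [hmixj]; exact h1')
        have a2 : (0 : ℝ) ≤ (if g j ∈ R then (1 : ℝ) else 0) := by split_ifs <;> norm_num
        rw [if_pos h1', one_mul]
        have := sq_le_sq' (neg_le_of_abs_le hz) (le_of_abs_le hz)
        linarith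
      · have hz : |pvqlE Y.γ T (fun g => Y.X g - Y.X (Function.update g j Y.e)) g| ≤ pvqlE Y.γ T (fun _ => 1) g := by
          refine pvql_E_abs_le hD (PvqlB.const 1) T g fun g' => ?_
          rw [abs_le]
          constructor
          · linarith [h.X_nonneg (pvqlMix T g g'), h.X_le_one (Function.update (pvqlMix T g g') j Y.e)]
          · linarith [h.X_le_one (pvqlMix T g g'), h.X_nonneg (Function.update (pvqlMix T g g') j Y.e)]
        have hz2 : pvqlE Y.γ T (fun _ => (1 : ℝ)) g = 1 := by simp [pvqlE]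
        rw [hz2] at hz
        have hm : g j ∈ R := by
          rw [hR]; simp only [mem_compl_iff, mem_union, not_or]; exact ⟨h0, h1'⟩
        rw [if_neg h1', if_pos hm, zero_mul, zero_add]
        have := sq_le_sq' (neg_le_of_abs_le hz) (le_of_abs_le hz)
        simpa using this
  have h2 : ∫ g, (pvqlE Y.γ T Y.X g - pvqlE Y.γ T Y.X (Function.update g j Y.e)) ^ 2 ∂(pvqlPi ι Y.γ)
      ≤ Y.w T j + ∫ g, (if g j ∈ R then (1 : ℝ) else 0) ∂(pvqlPi ι Y.γ) := by
    unfold PvqlSys.w
    rw [← integral_add hw.integrable hI2.integrable]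
    exact integral_mono (hψ.sub (hψ.comp hu)).sq.integrable (hw.add hI2).integrable hpt
  have h3 : ∫ g, (if g j ∈ R then (1 : ℝ) else 0) ∂(pvqlPi ι Y.γ) ≤ Y.δ := by
    have hmp : MeasurePreserving (Function.eval j) (pvqlPi ι Y.γ) Y.γ := by
      unfold pvqlPi
      exact measurePreserving_eval (fun _ : ι => Y.γ) j
    have e : (fun g : ι → G => if g j ∈ R then (1 : ℝ) else 0) = Set.indicator (Function.eval j ⁻¹' R) 1 := by
      funext g
      simp [Set.indicator]
    rw [e, integral_indicator_one (hmp.measurable hRm), Measure.real, hmp.measure_preimage hRm.nullMeasurableSet]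
    exact ENNReal.toReal_le_of_le_ofReal h.δ0 (hR ▸ h.rest)
  unfold PvqlSys.v
  linarith

open Classical in
/-- exchangeability of the level one weights -/
theorem PvqlSys.Ok.w_perm (h : Y.Ok) {T : Finset ι} (σ : Equiv.Perm ι) (hσ : ∀ i, σ i ∈ T ↔ i ∈ T) (j : ι) : Y.w T (σ j) = Y.w T j := by
  have := h.pγ
  have hmj : Measurable fun g : ι → G => g j := measurable_pi_apply j
  have hw : PvqlB fun g : ι → G => (if g j ∈ Y.One then (1 : ℝ) else 0) * pvqlE Y.γ T (Y.cf j) g ^ 2 :=
    ((PvqlB.ind h.mOne).comp hmj).mul ((h.bcf j).E T).sq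
  unfold PvqlSys.w
  rw [← pvql_integral_perm hw σ]
  refine integral_congr_ae (Eventually.of_forall fun g => ?_)
  show _ = (if (g ∘ σ) j ∈ Y.One then (1 : ℝ) else 0) * pvqlE Y.γ T (Y.cf j) (g ∘ σ) ^ 2
  rw [pvql_E_perm (h.bcf j) σ hσ (h.cf_perm σ j)]
  rfl

theorem PvqlSys.Ok.w_eq (h : Y.Ok) {T : Finset ι} {i j : ι} (hi : i ∈ T) (hj : j ∈ T) : Y.w T i = Y.w T j := by
  have := h.w_perm (T := T) (Equiv.swap i j) (fun l => ?_) j
  · rwa [Equiv.swap_apply_right] at this
  · by_cases h1 : l = i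
    · subst h1; rw [Equiv.swap_apply_left]; exact ⟨fun _ => hi, fun _ => hj⟩
    · by_cases h2 : l = j
      · subst h2; rw [Equiv.swap_apply_right]; exact ⟨fun _ => hj, fun _ => hi⟩
      · rw [Equiv.swap_apply_of_ne_of_ne h1 h2]

/-- **(TI-2)** exchangeability instead of the Mecke formula -/
theorem PvqlSys.Ok.TI2 (h : Y.Ok) {S : Finset ι} {j : ι} (hj : j ∉ S) :
    Y.v (insert j S) - Y.v S ≤ (∑ i ∈ insert j S, Y.w (insert j S) i) / ((S.card : ℝ) + 1) + Y.δ := by
  have h1 := h.step hj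
  have h2 : ∑ i ∈ insert j S, Y.w (insert j S) i = ((S.card : ℝ) + 1) * Y.w (insert j S) j := by
    rw [Finset.sum_congr rfl fun i hi => h.w_eq hi (Finset.mem_insert_self j S), Finset.sum_const, Finset.card_insert_of_notMem hj, nsmul_eq_mul]
    push_cast; ring
  rw [h2, mul_div_cancel_left₀ _ (by positivity)]
  exact h1

open Classical in
/-- Jensen: the level one weight increases with the information -/
theorem PvqlSys.Ok.w_le_univ (h : Y.Ok) {T : Finset ι} {j : ι} (hj : j ∈ T) : Y.w T j ≤ Y.w Finset.univ j := by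
  have := h.pγ
  have hmj : Measurable fun g : ι → G => g j := measurable_pi_apply j
  have hI : PvqlB fun g : ι → G => (if g j ∈ Y.One then (1 : ℝ) else 0) := (PvqlB.ind h.mOne).comp hmj
  have hw : PvqlB fun g : ι → G => (if g j ∈ Y.One then (1 : ℝ) else 0) * Y.cf j g ^ 2 := hI.mul (h.bcf j).sq
  unfold PvqlSys.w
  rw [pvql_E_univ, ← pvql_integral_E hw T]
  refine integral_mono (hI.mul ((h.bcf j).E T).sq).integrable (hw.E T).integrable fun g => ?_
  show (if g j ∈ Y.One then (1 : ℝ) else 0) * pvqlE Y.γ T (Y.cf j) g ^ 2 ≤ pvqlE Y.γ T (fun g => (if g j ∈ Y.One then (1 : ℝ) else 0) * Y.cf j g ^ 2) g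
  rw [pvql_E_mul (fun g => if g j ∈ Y.One then (1 : ℝ) else 0) (fun g => Y.cf j g ^ 2) T g (fun g' => by simp [pvqlMix, hj])]
  refine mul_le_mul_of_nonneg_left (pvql_E_sq_le (h.bcf j) T g) ?_
  split_ifs <;> norm_num

theorem pvql_mix_mix {ι G : Type} [DecidableEq ι] {S T : Finset ι} (hST : S ⊆ T) (g g' g'' : ι → G) :
    pvqlMix T (pvqlMix S g g') g'' = pvqlMix S g (pvqlMix T g' g'') := by
  funext i
  unfold pvqlMix
  by_cases hS : i ∈ S
  · simp [hS, hST hS]
  · simp [hS]

/-- the tower property -/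
theorem pvql_E_E {γ : Measure G} [IsProbabilityMeasure γ] {φ : (ι → G) → ℝ} (h : PvqlB φ) {S T : Finset ι} (hST : S ⊆ T) :
    pvqlE γ S (pvqlE γ T φ) = pvqlE γ S φ := by
  funext g
  unfold pvqlE
  simp only [pvql_mix_mix hST]
  have hm : Measurable fun g' : ι → G => pvqlMix S g g' := (pvql_measurable_mix S).comp (measurable_const.prodMk measurable_id)
  have hb : PvqlB fun g' : ι → G => φ (pvqlMix S g g') := h.comp hm
  exact pvql_integral_E hb T

open Classical in
/-- Jensen: the level one weight increases with the information -/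
theorem PvqlSys.Ok.w_mono (h : Y.Ok) {S T : Finset ι} (hST : S ⊆ T) {j : ι} (hj : j ∈ S) : Y.w S j ≤ Y.w T j := by
  have := h.pγ
  have hmj : Measurable fun g : ι → G => g j := measurable_pi_apply j
  have hI : PvqlB fun g : ι → G => (if g j ∈ Y.One then (1 : ℝ) else 0) := (PvqlB.ind h.mOne).comp hmj
  have hc : PvqlB (pvqlE Y.γ T (Y.cf j)) := (h.bcf j).E T
  have hw : PvqlB fun g : ι → G => (if g j ∈ Y.One then (1 : ℝ) else 0) * pvqlE Y.γ T (Y.cf j) g ^ 2 := hI.mul hc.sq
  unfold PvqlSys.w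
  rw [← pvql_integral_E hw S, ← pvql_E_E (h.bcf j) hST]
  refine integral_mono (hI.mul (hc.E S).sq).integrable (hw.E S).integrable fun g => ?_
  show (if g j ∈ Y.One then (1 : ℝ) else 0) * pvqlE Y.γ S (pvqlE Y.γ T (Y.cf j)) g ^ 2
    ≤ pvqlE Y.γ S (fun g => (if g j ∈ Y.One then (1 : ℝ) else 0) * pvqlE Y.γ T (Y.cf j) g ^ 2) g
  rw [pvql_E_mul (fun g => if g j ∈ Y.One then (1 : ℝ) else 0) (fun g => pvqlE Y.γ T (Y.cf j) g ^ 2) S g (fun g' => by simp [pvqlMix, hj])]
  refine mul_le_mul_of_nonneg_left (pvql_E_sq_le hc S g) ?_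
  split_ifs <;> norm_num

/-- orthonormality of the characters -/
theorem PvqlSys.Ok.orth (h : Y.Ok) (i l : ι) : ∫ c, Y.χ (c i) * Y.χ (c l) ∂(pvqlPi ι Y.κ) = if i = l then 1 else 0 := by
  have := h.pκ
  by_cases hil : i = l
  · subst hil
    rw [if_pos rfl]
    have : ∀ c : ι → C, Y.χ (c i) * Y.χ (c i) = 1 := fun c => by rw [← pow_two]; exact h.χsq _
    simp [this]
  · rw [if_neg hil]
    have hb : PvqlB fun c : ι → C => Y.χ (c i) * Y.χ (c l) := (h.bχ.comp (measurable_pi_apply i)).mul (h.bχ.comp (measurable_pi_apply l))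
    rw [← pvql_integral_A hb i]
    have : ∀ c : ι → C, pvqlA Y.κ i (fun c => Y.χ (c i) * Y.χ (c l)) c = 0 := by
      intro c
      unfold pvqlA
      simp only [Function.update_self, Function.update_of_ne (Ne.symm hil)]
      rw [integral_mul_const, h.χ0, zero_mul]
    simp [this]

/-- **Bessel** at fixed positions -/
theorem PvqlSys.Ok.bessel (h : Y.Ok) (g : ι → G) : ∑ i, Y.cf i g ^ 2 ≤ 1 := by
  have := h.pκ
  have hφ := h.bFg g
  have hχ : ∀ i : ι, PvqlB fun c : ι → C => Y.χ (c i) := fun i => h.bχ.comp (measurable_pi_apply i)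
  set a : ι → ℝ := fun i => Y.cf i g with ha
  have hL : PvqlB fun c : ι → C => ∑ i, a i * Y.χ (c i) := PvqlB.sum _ fun i _ => (PvqlB.const (a i)).mul (hχ i)
  have h0 : 0 ≤ ∫ c, (Y.F g c - ∑ i, a i * Y.χ (c i)) ^ 2 ∂(pvqlPi ι Y.κ) := integral_nonneg fun c => sq_nonneg _
  have e1 : ∫ c, Y.F g c * ∑ i, a i * Y.χ (c i) ∂(pvqlPi ι Y.κ) = ∑ i, a i ^ 2 := by
    simp only [Finset.mul_sum]
    rw [integral_finsetSum _ fun i _ => (hφ.mul ((PvqlB.const (a i)).mul (hχ i))).integrable]
    refine Finset.sum_congr rfl fun i _ => ?_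
    have : ∀ c : ι → C, Y.F g c * (a i * Y.χ (c i)) = a i * (Y.F g c * Y.χ (c i)) := fun c => by ring
    simp only [this]
    rw [integral_const_mul, pow_two]
    rfl
  have e2 : ∫ c, (∑ i, a i * Y.χ (c i)) ^ 2 ∂(pvqlPi ι Y.κ) = ∑ i, a i ^ 2 := by
    simp only [pow_two, Finset.sum_mul_sum]
    rw [integral_finsetSum _ fun i _ => (PvqlB.sum _ fun l _ => ((PvqlB.const (a i)).mul (hχ i)).mul ((PvqlB.const (a l)).mul (hχ l))).integrable]
    refine Finset.sum_congr rfl fun i _ => ?_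
    rw [integral_finsetSum _ fun l _ => (((PvqlB.const (a i)).mul (hχ i)).mul ((PvqlB.const (a l)).mul (hχ l))).integrable]
    have : ∀ l, ∫ c, a i * Y.χ (c i) * (a l * Y.χ (c l)) ∂(pvqlPi ι Y.κ) = a i * a l * if i = l then 1 else 0 := by
      intro l
      have e : ∀ c : ι → C, a i * Y.χ (c i) * (a l * Y.χ (c l)) = a i * a l * (Y.χ (c i) * Y.χ (c l)) := fun c => by ring
      simp only [e]
      rw [integral_const_mul, h.orth]
    simp only [this, mul_ite, mul_one, mul_zero, Finset.sum_ite_eq, Finset.mem_univ, if_true]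
  have e3 : ∫ c, (Y.F g c - ∑ i, a i * Y.χ (c i)) ^ 2 ∂(pvqlPi ι Y.κ)
      = ∫ c, Y.F g c ^ 2 ∂(pvqlPi ι Y.κ) - 2 * ∫ c, Y.F g c * ∑ i, a i * Y.χ (c i) ∂(pvqlPi ι Y.κ) + ∫ c, (∑ i, a i * Y.χ (c i)) ^ 2 ∂(pvqlPi ι Y.κ) := by
    have e : ∀ c : ι → C, (Y.F g c - ∑ i, a i * Y.χ (c i)) ^ 2 = Y.F g c ^ 2 - 2 * (Y.F g c * ∑ i, a i * Y.χ (c i)) + (∑ i, a i * Y.χ (c i)) ^ 2 := fun c => by ring
    simp only [e]
    rw [integral_add (f := fun c => Y.F g c ^ 2 - 2 * (Y.F g c * ∑ i, a i * Y.χ (c i))) (g := fun c => (∑ i, a i * Y.χ (c i)) ^ 2)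
      (hφ.sq.integrable.sub ((hφ.mul hL).integrable.const_mul 2)) hL.sq.integrable,
      integral_sub (f := fun c => Y.F g c ^ 2) (g := fun c => 2 * (Y.F g c * ∑ i, a i * Y.χ (c i))) hφ.sq.integrable ((hφ.mul hL).integrable.const_mul 2),
      integral_const_mul]
  have e4 : ∫ c, Y.F g c ^ 2 ∂(pvqlPi ι Y.κ) ≤ 1 := by
    have := integral_mono (μ := pvqlPi ι Y.κ) hφ.sq.integrable (integrable_const 1) fun c => by
      show Y.F g c ^ 2 ≤ 1
      have h1 := h.nonneg g c
      have h2 := h.le_one g c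
      nlinarith
    simpa using this
  rw [e3, e1, e2] at h0
  linarith

open Classical in
/-- **(TI-1)** the uniform bound -/
theorem PvqlSys.Ok.TI1 (h : Y.Ok) {S : Finset ι} {j : ι} (hj : j ∉ S) : Y.v (insert j S) - Y.v S ≤ 1 / (Fintype.card ι : ℝ) + Y.δ := by
  have := h.pγ
  have h1 := h.step hj
  have h2 := h.w_le_univ (Finset.mem_insert_self j S)
  have hn : 0 < (Fintype.card ι : ℝ) := by
    have : 0 < Fintype.card ι := Fintype.card_pos_iff.2 ⟨j⟩
    exact_mod_cast this
  have h3 : ∑ i, Y.w Finset.univ i = (Fintype.card ι : ℝ) * Y.w Finset.univ j := by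
    rw [Finset.sum_congr rfl fun i _ => h.w_eq (Finset.mem_univ i) (Finset.mem_univ j), Finset.sum_const, nsmul_eq_mul]
    rfl
  have h4 : ∑ i, Y.w Finset.univ i ≤ 1 := by
    unfold PvqlSys.w
    have hI : ∀ i : ι, PvqlB fun g : ι → G => (if g i ∈ Y.One then (1 : ℝ) else 0) * pvqlE Y.γ Finset.univ (Y.cf i) g ^ 2 := fun i =>
      ((PvqlB.ind h.mOne).comp (measurable_pi_apply i)).mul ((h.bcf i).E _).sq
    rw [← integral_finsetSum _ fun i _ => (hI i).integrable]
    have := integral_mono (μ := pvqlPi ι Y.γ) (PvqlB.sum _ fun i _ => hI i).integrable (integrable_const 1) fun g => by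
      show ∑ i, (if g i ∈ Y.One then (1 : ℝ) else 0) * pvqlE Y.γ Finset.univ (Y.cf i) g ^ 2 ≤ 1
      refine le_trans (Finset.sum_le_sum fun i _ => ?_) (h.bessel g)
      rw [pvql_E_univ]
      split_ifs
      · rw [one_mul]
      · rw [zero_mul]; positivity
    simpa using this
  have h5 : Y.w Finset.univ j ≤ 1 / (Fintype.card ι : ℝ) := by
    rw [le_div_iff₀ hn, mul_comm, ← h3]
    exact h4
  linarith

/-- the variance increases with the information -/
theorem PvqlSys.Ok.v_mono_step (h : Y.Ok) {S : Finset ι} {j : ι} (hj : j ∉ S) : Y.v S ≤ Y.v (insert j S) := by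
  have := h.pγ
  have hψ : PvqlB (pvqlE Y.γ (insert j S) Y.X) := h.bX.E _
  unfold PvqlSys.v
  rw [pvql_E_eq_A h.bX hj, ← pvql_integral_A hψ.sq j]
  have : ∫ g, pvqlA Y.γ j (pvqlE Y.γ (insert j S) Y.X) g ^ 2 ∂(pvqlPi ι Y.γ) ≤ ∫ g, pvqlA Y.γ j (fun g => pvqlE Y.γ (insert j S) Y.X g ^ 2) g ∂(pvqlPi ι Y.γ) := by
    refine integral_mono (hψ.A j).sq.integrable (hψ.sq.A j).integrable fun g => ?_
    exact pvql_sq_integral_le (hψ.comp (measurable_update g))
  linarith

theorem PvqlSys.Ok.v_empty (h : Y.Ok) : Y.v ∅ = 0 := by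
  have := h.pγ
  unfold PvqlSys.v
  have : ∀ g : ι → G, pvqlE Y.γ ∅ Y.X g = ∫ g, Y.X g ∂(pvqlPi ι Y.γ) := by
    intro g
    unfold pvqlE
    have : ∀ g' : ι → G, pvqlMix ∅ g g' = g' := fun g' => by funext i; simp [pvqlMix]
    simp only [this]
  simp [this]

/-- **(I1)** the variance is bounded by the level one weight (chain of the layers + Jensen) -/
theorem PvqlSys.Ok.I1 (h : Y.Ok) (T : Finset ι) : Y.v T ≤ ∑ j ∈ T, Y.w T j + (T.card : ℝ) * Y.δ := by
  induction T using Finset.induction_on with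
  | empty => simp [h.v_empty]
  | insert j S hj ih =>
    have h1 := h.step hj
    have h2 : ∑ i ∈ S, Y.w S i ≤ ∑ i ∈ S, Y.w (insert j S) i :=
      Finset.sum_le_sum fun i hi => h.w_mono (Finset.subset_insert j S) hi
    rw [Finset.sum_insert hj, Finset.card_insert_of_notMem hj]
    push_cast
    linarith

end sys

/-! ## 4. the model -/

/-- geometry of a layer: number of points, positions -/
abbrev PvqlG := ℕ × (ℕ → ℂ)

/-- colours of a layer -/
abbrev PvqlC := ℕ → Bool

/-- law of the geometry of a layer: a Poisson(`r`) number of iid points of law `ν` -/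
noncomputable def pvqlGam (r : ℝ≥0) (ν : Measure ℂ) : Measure PvqlG := (poissonMeasure r).prod (Measure.infinitePi fun _ : ℕ => ν)

/-- fair colours -/
noncomputable def pvqlKap : Measure PvqlC := Measure.infinitePi fun _ : ℕ => pvCoin

/-- the coloured configuration of a layer -/
def pvqlCfg (g : PvqlG) (c : PvqlC) : Conf PvPt := Conf.cell (g.1, fun i => (g.2 i, c i))

/-- the union of the layers -/
def pvqlAll {ι : Type} (g : ι → PvqlG) (c : ι → PvqlC) : Conf PvPt := Conf.iUnion fun j => pvqlCfg (g j) (c j)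

/-- the class of observables: measurable, `[0,1]`-valued, decreasing in black points, increasing in white points -/
structure PvqlObs (f : Conf PvPt → ℝ) : Prop where
  meas : Measurable f
  nonneg : ∀ ξ, 0 ≤ f ξ
  le_one : ∀ ξ, f ξ ≤ 1
  black : ∀ (x : ℂ) ξ, f (Conf.ins (x, true) ξ) ≤ f ξ
  white : ∀ (x : ℂ) ξ, f ξ ≤ f (Conf.ins (x, false) ξ)

/-- the layered system of the observable `f` -/
noncomputable def pvqlSys (ι : Type) (r : ℝ≥0) (ν : Measure ℂ) (f : Conf PvPt → ℝ) : PvqlSys ι PvqlG PvqlC where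
  γ := pvqlGam r ν
  κ := pvqlKap
  F := fun g c => f (pvqlAll g c)
  e := (0, fun _ => 0)
  Zero := {g | g.1 = 0}
  One := {g | g.1 = 1}
  χ := fun c => if c 0 then -1 else 1
  δ := (r : ℝ) ^ 2

theorem pvql_eqns_cite3 : True := by
  have := @pvqlGam.eq_1
  have := @pvqlKap.eq_1
  have := @pvqlCfg.eq_1
  have := @pvqlAll.eq_1
  have := @pvqlSys.eq_1
  trivial

theorem pvql_measurable_cfg : Measurable fun p : PvqlG × PvqlC => pvqlCfg p.1 p.2 := by
  unfold pvqlCfg
  refine Conf.measurable_cell.comp ?_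
  fun_prop

theorem pvql_measurable_all {ι : Type} [Fintype ι] : Measurable fun p : (ι → PvqlG) × (ι → PvqlC) => pvqlAll p.1 p.2 := by
  unfold pvqlAll
  refine Conf.measurable_iUnion.comp (measurable_pi_lambda _ fun j => ?_)
  have h2 : Measurable fun p : (ι → PvqlG) × (ι → PvqlC) => (p.1 j, p.2 j) := by fun_prop
  exact pvql_measurable_cfg.comp h2

instance pvql_gam_prob (r : ℝ≥0) (ν : Measure ℂ) [IsProbabilityMeasure ν] : IsProbabilityMeasure (pvqlGam r ν) := by
  unfold pvqlGam; infer_instance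

instance pvql_kap_prob : IsProbabilityMeasure pvqlKap := by
  unfold pvqlKap; infer_instance

/-- one layer is Poisson -/
theorem pvql_law_one (r : ℝ≥0) (ν : Measure ℂ) [IsProbabilityMeasure ν] :
    IsPpp ((r : ℝ≥0∞) • (ν.prod pvCoin)) (((pvqlGam r ν).prod pvqlKap).map fun p => pvqlCfg p.1 p.2) := by
  have h := isPpp_cell r (ν.prod pvCoin)
  have hz := infinitePi_prod_zip (fun _ : ℕ => ν) (fun _ : ℕ => pvCoin)
  rw [← hz] at h
  have hm : Measurable (fun p : (ℕ → ℂ) × (ℕ → Bool) => fun i => (p.1 i, p.2 i)) := by fun_prop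
  have e : ((pvqlGam r ν).prod pvqlKap).map (fun p => pvqlCfg p.1 p.2)
      = ((poissonMeasure r).prod (((Measure.infinitePi fun _ : ℕ => ν).prod (Measure.infinitePi fun _ : ℕ => pvCoin)).map
          (fun p : (ℕ → ℂ) × (ℕ → Bool) => fun i => (p.1 i, p.2 i)))).map Conf.cell := by
    have e1 : (poissonMeasure r).prod (((Measure.infinitePi fun _ : ℕ => ν).prod (Measure.infinitePi fun _ : ℕ => pvCoin)).map
          (fun p : (ℕ → ℂ) × (ℕ → Bool) => fun i => (p.1 i, p.2 i)))
        = ((poissonMeasure r).prod ((Measure.infinitePi fun _ : ℕ => ν).prod (Measure.infinitePi fun _ : ℕ => pvCoin))).map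
          (Prod.map id (fun p : (ℕ → ℂ) × (ℕ → Bool) => fun i => (p.1 i, p.2 i))) := by
      rw [← Measure.map_prod_map _ _ measurable_id hm, Measure.map_id]
    rw [e1, Measure.map_map Conf.measurable_cell (measurable_id.prodMap hm)]
    unfold pvqlGam pvqlKap
    rw [← (measurePreserving_prodAssoc (poissonMeasure r) (Measure.infinitePi fun _ : ℕ => ν) (Measure.infinitePi fun _ : ℕ => pvCoin)).map_eq,
      Measure.map_map (Conf.measurable_cell.comp (measurable_id.prodMap hm)) MeasurableEquiv.prodAssoc.measurable]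
    rfl
  rw [e]; exact h

theorem pvql_law {ι : Type} [Fintype ι] (r : ℝ≥0) (ν : Measure ℂ) [IsProbabilityMeasure ν] :
    IsPpp (((Fintype.card ι : ℝ≥0∞) * r) • (ν.prod pvCoin))
      (((pvqlPi ι (pvqlGam r ν)).prod (pvqlPi ι pvqlKap)).map fun p => pvqlAll p.1 p.2) := by
  have h1 := pvql_law_one r ν
  have h := IsPpp.iUnion (ι := ι) (fun _ => h1)
  have hs : Measure.sum (fun _ : ι => (r : ℝ≥0∞) • (ν.prod pvCoin)) = ((Fintype.card ι : ℝ≥0∞) * r) • (ν.prod pvCoin) := by
    rw [Measure.sum_fintype, Finset.sum_const, Finset.card_univ, ← smul_assoc]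
    congr 1
    simp
  rw [hs] at h
  have hz := infinitePi_prod_zip (fun _ : ι => pvqlGam r ν) (fun _ : ι => pvqlKap)
  have hp := h1.prob
  have e : ((pvqlPi ι (pvqlGam r ν)).prod (pvqlPi ι pvqlKap)).map (fun p => pvqlAll p.1 p.2)
      = (Measure.infinitePi fun _ : ι => ((pvqlGam r ν).prod pvqlKap).map fun p => pvqlCfg p.1 p.2).map Conf.iUnion := by
    have hm : Measurable (fun p : (ι → PvqlG) × (ι → PvqlC) => fun i => (p.1 i, p.2 i)) := by fun_prop
    have hm2 : Measurable (fun (x : ι → PvqlG × PvqlC) i => pvqlCfg (x i).1 (x i).2) :=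
      measurable_pi_lambda _ fun j => pvql_measurable_cfg.comp (measurable_pi_apply j)
    rw [Measure.infinitePi_eq_pi, ← Measure.pi_map_pi (fun _ => pvql_measurable_cfg.aemeasurable), ← Measure.infinitePi_eq_pi, ← hz,
      Measure.map_map hm2 hm, Measure.map_map Conf.measurable_iUnion (hm2.comp hm),
      Measure.infinitePi_eq_pi, Measure.infinitePi_eq_pi]
    rfl
  rw [e]; exact h
/-- integral against the fair coin -/
theorem pvql_integral_coin (φ : Bool → ℝ) : ∫ b, φ b ∂pvCoin = (φ true + φ false) / 2 := by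
  rw [integral_fintype (Integrable.of_finite)]
  simp only [Fintype.univ_bool, Finset.mem_singleton, Bool.true_eq_false, not_false_eq_true, Finset.sum_insert, Finset.sum_singleton,
    Measure.real, pvCoin_apply, smul_eq_mul]
  simp
  ring

/-- integral of a function of the first colour -/
theorem pvql_integral_kap (φ : Bool → ℝ) : ∫ c, φ (c 0) ∂pvqlKap = (φ true + φ false) / 2 := by
  rw [← pvql_integral_coin]
  unfold pvqlKap
  have hmp := measurePreserving_eval_infinitePi (fun _ : ℕ => pvCoin) 0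
  conv_rhs => rw [← hmp.map_eq]
  rw [integral_map hmp.measurable.aemeasurable (measurable_of_countable φ).aestronglyMeasurable]

theorem pvql_poisson_tail (r : ℝ≥0) : poissonMeasure r {n | n ≠ 0 ∧ n ≠ 1} ≤ ENNReal.ofReal ((r : ℝ) ^ 2) := by
  have e : {n : ℕ | n ≠ 0 ∧ n ≠ 1} = ({0} ∪ {1})ᶜ := by
    ext n; simp [and_comm]
  have hd : Disjoint ({0} : Set ℕ) {1} := by simp
  rw [e, prob_compl_eq_one_sub (by measurability), measure_union hd (measurableSet_singleton 1), poissonMeasure_singleton, poissonMeasure_singleton,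
    ← ENNReal.ofReal_add (by positivity) (by positivity), ← ENNReal.ofReal_one, ← ENNReal.ofReal_sub _ (by positivity)]
  refine ENNReal.ofReal_le_ofReal ?_
  have h1 : 1 - (r : ℝ) ≤ Real.exp (-(r : ℝ)) := by
    have := Real.add_one_le_exp (-(r : ℝ)); linarith
  have hr : (0 : ℝ) ≤ r := r.coe_nonneg
  simp only [pow_zero, Nat.factorial_zero, Nat.cast_one, div_one, mul_one, pow_one, Nat.factorial_one]
  nlinarith

theorem pvql_mem_all {ι : Type} (g : ι → PvqlG) (c : ι → PvqlC) (p : PvPt) :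
    p ∈ (pvqlAll g c).pts ↔ ∃ i, ∃ l < (g i).1, p = ((g i).2 l, c i l) := by
  simp only [pvqlAll, Conf.iUnion, pvqlCfg, Conf.cell, mem_iUnion, mem_ofPred_eq]

theorem pvql_all_finite {ι : Type} [Finite ι] (g : ι → PvqlG) (c : ι → PvqlC) : (pvqlAll g c).pts.Finite := by
  refine Set.finite_iUnion fun j => ?_
  refine ((Finset.range (g j).1).finite_toSet.image fun i => ((g j).2 i, c j i)).subset ?_
  rintro p ⟨i, hi, rfl⟩
  exact ⟨i, by simpa using hi, rfl⟩

theorem pvql_all_perm {ι : Type} (σ : Equiv.Perm ι) (g : ι → PvqlG) (c : ι → PvqlC) : pvqlAll (g ∘ σ) (c ∘ σ) = pvqlAll g c := by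
  ext p
  rw [pvql_mem_all, pvql_mem_all]
  constructor
  · rintro ⟨i, h⟩; exact ⟨σ i, h⟩
  · rintro ⟨i, h⟩
    refine ⟨σ.symm i, ?_⟩
    simpa using h

theorem pvql_all_zero {ι : Type} [DecidableEq ι] (g : ι → PvqlG) (c : ι → PvqlC) (j : ι) (hj : (g j).1 = 0) :
    pvqlAll (Function.update g j (0, fun _ => 0)) c = pvqlAll g c := by
  ext p
  rw [pvql_mem_all, pvql_mem_all]
  constructor
  · rintro ⟨i, l, hl, hp⟩
    by_cases hij : i = j
    · subst hij; simp at hl
    · rw [Function.update_of_ne hij] at hl hp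
      exact ⟨i, l, hl, hp⟩
  · rintro ⟨i, l, hl, hp⟩
    by_cases hij : i = j
    · subst hij; omega
    · refine ⟨i, l, ?_, ?_⟩
      · rwa [Function.update_of_ne hij]
      · rwa [Function.update_of_ne hij]

theorem pvql_all_one {ι : Type} [DecidableEq ι] (g : ι → PvqlG) (c : ι → PvqlC) (j : ι) (hj : (g j).1 = 1) (c' : PvqlC) :
    pvqlAll g (Function.update c j c') = Conf.ins ((g j).2 0, c' 0) (pvqlAll (Function.update g j (0, fun _ => 0)) c) := by
  ext p
  simp only [Conf.ins, mem_insert_iff]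
  rw [pvql_mem_all, pvql_mem_all]
  constructor
  · rintro ⟨i, l, hl, hp⟩
    by_cases hij : i = j
    · subst hij
      left
      have : l = 0 := by omega
      subst this
      simpa using hp
    · right
      refine ⟨i, l, ?_, ?_⟩
      · rwa [Function.update_of_ne hij]
      · rw [Function.update_of_ne hij] at hp
        rwa [Function.update_of_ne hij]
  · rintro (hp | ⟨i, l, hl, hp⟩)
    · exact ⟨j, 0, by omega, by simpa using hp⟩
    · by_cases hij : i = j
      · subst hij; simp at hl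
      · rw [Function.update_of_ne hij] at hl hp
        exact ⟨i, l, hl, by rwa [Function.update_of_ne hij]⟩

theorem pvql_sys_ok {ι : Type} [Fintype ι] [DecidableEq ι] (r : ℝ≥0) (ν : Measure ℂ) [IsProbabilityMeasure ν] {f : Conf PvPt → ℝ} (hf : PvqlObs f) :
    (pvqlSys ι r ν f).Ok where
  pγ := pvql_gam_prob r ν
  pκ := pvql_kap_prob
  meas := hf.meas.comp pvql_measurable_all
  nonneg := fun _ _ => hf.nonneg _
  le_one := fun _ _ => hf.le_one _
  sym := fun σ g c => by
    show f (pvqlAll (g ∘ σ) (c ∘ σ)) = f (pvqlAll g c)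
    rw [pvql_all_perm]
  mZero := measurable_fst (measurableSet_singleton 0)
  mOne := measurable_fst (measurableSet_singleton 1)
  zero := fun g c j hj => by
    show f (pvqlAll (Function.update g j (0, fun _ => 0)) c) = f (pvqlAll g c)
    rw [pvql_all_zero g c j hj]
  mχ := (measurable_of_countable (fun b : Bool => if b then (-1 : ℝ) else 1)).comp (measurable_pi_apply 0)
  χsq := fun c => by
    show (if c 0 then (-1 : ℝ) else 1) ^ 2 = 1
    split_ifs <;> norm_num
  χ0 := by
    show ∫ c, (if c 0 then (-1 : ℝ) else 1) ∂pvqlKap = 0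
    rw [pvql_integral_kap (fun b => if b then (-1 : ℝ) else 1)]
    simp
  mono := fun g c j hj => by
    show |∫ c', f (pvqlAll g (Function.update c j c')) ∂pvqlKap - f (pvqlAll (Function.update g j (0, fun _ => 0)) c)|
      ≤ ∫ c', f (pvqlAll g (Function.update c j c')) * (if c' 0 then (-1 : ℝ) else 1) ∂pvqlKap
    simp only [pvql_all_one g c j hj]
    set ξ := pvqlAll (Function.update g j (0, fun _ => 0)) c
    rw [pvql_integral_kap (fun b => f (Conf.ins ((g j).2 0, b) ξ)),
      pvql_integral_kap (fun b => f (Conf.ins ((g j).2 0, b) ξ) * (if b then (-1 : ℝ) else 1))]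
    have h1 := hf.black ((g j).2 0) ξ
    have h2 := hf.white ((g j).2 0) ξ
    simp only [if_true, Bool.false_eq_true, if_false]
    rw [abs_le]
    constructor <;> linarith
  rest := by
    show pvqlGam r ν ({g | g.1 = 0} ∪ {g | g.1 = 1})ᶜ ≤ ENNReal.ofReal ((r : ℝ) ^ 2)
    have e : (({g | g.1 = 0} ∪ {g | g.1 = 1})ᶜ : Set PvqlG) = {n : ℕ | n ≠ 0 ∧ n ≠ 1} ×ˢ univ := by
      ext g; simp
    rw [e, pvqlGam, Measure.prod_prod, measure_univ, mul_one]
    exact pvql_poisson_tail r
  δ0 := by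
    show (0 : ℝ) ≤ (r : ℝ) ^ 2
    positivity

/-! ## 5. the time grid `k/n` -/

/-- the first `k` layers -/
def pvqlS (n k : ℕ) : Finset (Fin n) := Finset.univ.filter fun j => j.val < k

/-- `v_n(k)`: the variance of the conditional probability given the positions of the first `k` of `n` layers -/
noncomputable def pvqlV (n : ℕ) (r : ℝ≥0) (ν : Measure ℂ) (f : Conf PvPt → ℝ) (k : ℕ) : ℝ := (pvqlSys (Fin n) r ν f).v (pvqlS n k)

/-- the level one weight given the positions of the first `k` of `n` layers -/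
noncomputable def pvqlW (n : ℕ) (r : ℝ≥0) (ν : Measure ℂ) (f : Conf PvPt → ℝ) (k : ℕ) : ℝ :=
  ∑ i ∈ pvqlS n k, (pvqlSys (Fin n) r ν f).w (pvqlS n k) i

theorem pvql_eqns_cite4 : True := by
  have := @pvqlS.eq_1
  have := @pvqlV.eq_1
  have := @pvqlW.eq_1
  trivial

theorem pvql_S_succ {n k : ℕ} (hk : k < n) : pvqlS n (k + 1) = insert ⟨k, hk⟩ (pvqlS n k) := by
  ext j
  simp only [pvqlS, Finset.mem_filter, Finset.mem_univ, true_and, Finset.mem_insert, Fin.ext_iff]
  omega

theorem pvql_S_notMem {n k : ℕ} (hk : k < n) : (⟨k, hk⟩ : Fin n) ∉ pvqlS n k := by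
  simp [pvqlS]

theorem pvql_S_card {n k : ℕ} (hk : k ≤ n) : (pvqlS n k).card = k := by
  induction k with
  | zero => simp [pvqlS]
  | succ k ih =>
    rw [pvql_S_succ (by omega), Finset.card_insert_of_notMem (pvql_S_notMem (by omega)), ih (by omega)]

section grid

variable (n : ℕ) (r : ℝ≥0) (ν : Measure ℂ) [IsProbabilityMeasure ν] {f : Conf PvPt → ℝ} (hf : PvqlObs f)

include hf

theorem pvql_V_zero : pvqlV n r ν f 0 = 0 := by
  have : pvqlS n 0 = ∅ := by simp [pvqlS]
  rw [pvqlV, this]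
  exact (pvql_sys_ok r ν hf).v_empty

theorem pvql_V_mono {k : ℕ} (hk : k < n) : pvqlV n r ν f k ≤ pvqlV n r ν f (k + 1) := by
  rw [pvqlV, pvqlV, pvql_S_succ hk]
  exact (pvql_sys_ok r ν hf).v_mono_step (pvql_S_notMem hk)

/-- **(TI-1)** -/
theorem pvql_TI1 {k : ℕ} (hk : k < n) : pvqlV n r ν f (k + 1) - pvqlV n r ν f k ≤ 1 / (n : ℝ) + (r : ℝ) ^ 2 := by
  rw [pvqlV, pvqlV, pvql_S_succ hk]
  have := (pvql_sys_ok r ν hf).TI1 (pvql_S_notMem hk)
  rwa [Fintype.card_fin] at this

/-- **(TI-2)** -/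
theorem pvql_TI2 {k : ℕ} (hk : k < n) : pvqlV n r ν f (k + 1) - pvqlV n r ν f k ≤ pvqlW n r ν f (k + 1) / ((k : ℝ) + 1) + (r : ℝ) ^ 2 := by
  rw [pvqlV, pvqlV, pvqlW, pvql_S_succ hk]
  have := (pvql_sys_ok r ν hf).TI2 (pvql_S_notMem hk)
  rwa [pvql_S_card hk.le] at this

open Classical in
/-- the interface with SS1: a bound of the level one weight at FIXED positions `g` of the known layers.      `pvqlE γ T (cf i) g = ∫ g', ∫ c, f (pvqlAll (pvqlMix T g g') c) * χ (c i 0)` -/
theorem pvql_W_le {k : ℕ} {ρ : (Fin n → PvqlG) → ℝ} (hρ : Integrable ρ (pvqlPi (Fin n) (pvqlGam r ν)))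
    (h : ∀ g : Fin n → PvqlG, ∑ i ∈ pvqlS n k, (if (g i).1 = 1 then (1 : ℝ) else 0)
      * (∫ g', ∫ c, f (pvqlAll (pvqlMix (pvqlS n k) g g') c) * (if c i 0 then (-1 : ℝ) else 1) ∂(pvqlPi (Fin n) pvqlKap) ∂(pvqlPi (Fin n) (pvqlGam r ν))) ^ 2 ≤ ρ g) :
    pvqlW n r ν f k ≤ ∫ g, ρ g ∂(pvqlPi (Fin n) (pvqlGam r ν)) := by
  have hok := pvql_sys_ok (ι := Fin n) r ν hf
  have hp : IsProbabilityMeasure (pvqlSys (Fin n) r ν f).γ := hok.pγ
  have hI : ∀ i : Fin n, PvqlB fun g : Fin n → PvqlG => (if g i ∈ (pvqlSys (Fin n) r ν f).One then (1 : ℝ) else 0)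
      * pvqlE (pvqlSys (Fin n) r ν f).γ (pvqlS n k) ((pvqlSys (Fin n) r ν f).cf i) g ^ 2 := fun i =>
    ((PvqlB.ind hok.mOne).comp (measurable_pi_apply i)).mul ((hok.bcf i).E _).sq
  unfold pvqlW PvqlSys.w
  rw [← integral_finsetSum _ fun i _ => (hI i).integrable (μ := pvqlPi (Fin n) (pvqlSys (Fin n) r ν f).γ)]
  refine integral_mono (PvqlB.sum _ fun i _ => hI i).integrable hρ fun g => ?_
  refine le_trans (le_of_eq ?_) (h g)
  refine Finset.sum_congr rfl fun i _ => ?_
  congr 1
  by_cases h1 : (g i).1 = 1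
  · rw [if_pos h1, if_pos (show g i ∈ (pvqlSys (Fin n) r ν f).One from h1)]
  · rw [if_neg h1, if_neg (show g i ∉ (pvqlSys (Fin n) r ν f).One from h1)]

end grid

end Claimed.Agent.R289
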