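import Claimed.Agent.R289.Qbx.Lay

/-!
# Row 289 (S0537), box QBX (quenched box crossing), file Qbx/Rep : ONE POISSON PROCESS FOR `k` REPLICAS      (owner helper294; prefix `pvqr`)

`Ξ` = Poisson process on `ℂ × PvqrMk k`, `PvqrMk k = Fin k → Option Bool` : the mark of a point says, for every replica `a`, whether the point is present in the replica `a` and with which colour.
* (R0) `pvqrSh k` (shared point: present in all replicas, iid fair colours), `pvqrPr k a` (private point of the replica `a`), `pvqrKap k t = t • Sh + (1-t) • ∑ a, Pr a`,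
  `pvqrInt k m t = m.prod (pvqrKap k t)` (`m` = intensity of the positions, a finite measure on `ℂ`), `pvqrLaw k m t`, `pvqrRep a Ξ` (the replica `a`),
  moments `pvqrM k m t F = E ∏ a, F a (rep_a Ξ)`, canonical two replica value `pvqrV m f t = M_2(f,f;t) - (E f)^2`.
* (R1) `pvqr_rep_isPpp` : every replica is the coloured Poisson process of intensity `m.prod pvCoin`.
* (R2) `pvqr_REP` : LEMMA REP: the layered model of `Qbx/Lay` computes the moments: `E ∏_a E[quenched mean of F a | positions of the layers in T] = M_k(F; |T|/|ι|)`.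
* (R3) `pvqr_v_eq` : `(pvqlSys ι r ν f).v T = pvqrV ((|ι| r) • ν) f (|T|/|ι|)`.
* (R4) calculus of `pvqrRep`, `pvqrLaw` under restriction to `W ×ˢ univ` and under maps of the positions.
-/

set_option autoImplicit false
set_option linter.unusedSectionVars false

namespace Claimed.Agent.R289

open MeasureTheory ProbabilityTheory Set Filter
open scoped ENNReal NNReal

/-! ## (R0) definitions -/

instance pvqrOptMS : MeasurableSpace (Option Bool) := ⊤

instance pvqrOptDisc : DiscreteMeasurableSpace (Option Bool) := ⟨fun _ => trivial⟩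

/-- the mark of a point: for every replica, absent (`none`) or present with a colour -/
abbrev PvqrMk (k : ℕ) := Fin k → Option Bool

/-- a shared point: present in all replicas, iid fair colours -/
noncomputable def pvqrSh (k : ℕ) : Measure (PvqrMk k) := (Measure.pi fun _ : Fin k => pvCoin).map fun c a => some (c a)

/-- a private point of the replica `a`, fair colour -/
noncomputable def pvqrPr (k : ℕ) (a : Fin k) : Measure (PvqrMk k) := pvCoin.map fun b => Function.update (fun _ => none) a (some b)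

/-- the mark measure at time `t ∈ [0,1]` (total mass `t + k (1-t)`) -/
noncomputable def pvqrKap (k : ℕ) (t : ℝ) : Measure (PvqrMk k) := ENNReal.ofReal t • pvqrSh k + ENNReal.ofReal (1 - t) • ∑ a, pvqrPr k a

/-- the intensity of the `k`-replica process; `m` = intensity of the positions of ONE replica -/
noncomputable def pvqrInt (k : ℕ) (m : Measure ℂ) (t : ℝ) : Measure (ℂ × PvqrMk k) := m.prod (pvqrKap k t)

/-- the law of the `k`-replica process (`m` finite) -/
noncomputable def pvqrLaw (k : ℕ) (m : Measure ℂ) (t : ℝ) : Measure (Conf (ℂ × PvqrMk k)) := pppFin (pvqrInt k m t)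

/-- the replica `a` -/
def pvqrRep {k : ℕ} (a : Fin k) (Ξ : Conf (ℂ × PvqrMk k)) : Conf PvPt := ⟨{p | ∃ μ : PvqrMk k, (p.1, μ) ∈ Ξ.pts ∧ μ a = some p.2}⟩

/-- the points of `ℂ × PvqrMk k` seen by the replica `a` in `B` -/
def pvqrLift {k : ℕ} (a : Fin k) (B : Set PvPt) : Set (ℂ × PvqrMk k) := {q | ∃ b : Bool, q.2 a = some b ∧ (q.1, b) ∈ B}

/-- the moments -/
noncomputable def pvqrM (k : ℕ) (m : Measure ℂ) (t : ℝ) (F : Fin k → Conf PvPt → ℝ) : ℝ := ∫ Ξ, ∏ a, F a (pvqrRep a Ξ) ∂(pvqrLaw k m t)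

/-- the canonical two replica value `V(t)` of the observable `f` : variance of `E[f | positions of a t-thinning]` -/
noncomputable def pvqrV (m : Measure ℂ) (f : Conf PvPt → ℝ) (t : ℝ) : ℝ := pvqrM 2 m t (fun _ => f) - (∫ ξ, f ξ ∂(pppFin (m.prod pvCoin))) ^ 2

theorem pvqr_eqns_cite : True := by
  have := @pvqrSh.eq_1
  have := @pvqrPr.eq_1
  have := @pvqrKap.eq_1
  have := @pvqrInt.eq_1
  have := @pvqrLaw.eq_1
  have := @pvqrRep.eq_1
  have := @pvqrLift.eq_1
  have := @pvqrM.eq_1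
  have := @pvqrV.eq_1
  trivial

/-! ## (R1) the replicas -/

instance pvqr_sh_prob (k : ℕ) : IsProbabilityMeasure (pvqrSh k) := by
  unfold pvqrSh
  exact Measure.isProbabilityMeasure_map (Measurable.of_discrete).aemeasurable

instance pvqr_pr_prob (k : ℕ) (a : Fin k) : IsProbabilityMeasure (pvqrPr k a) := by
  unfold pvqrPr
  exact Measure.isProbabilityMeasure_map (Measurable.of_discrete).aemeasurable

instance pvqr_kap_fin (k : ℕ) (t : ℝ) : IsFiniteMeasure (pvqrKap k t) := by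
  refine ⟨?_⟩
  unfold pvqrKap
  rw [Measure.add_apply, Measure.smul_apply, Measure.smul_apply, Measure.finsetSum_apply]
  simp only [measure_univ, smul_eq_mul, mul_one, Finset.sum_const, Finset.card_univ, Fintype.card_fin, nsmul_eq_mul]
  exact ENNReal.add_lt_top.2 ⟨ENNReal.ofReal_lt_top, ENNReal.mul_lt_top ENNReal.ofReal_lt_top (by simp)⟩

instance pvqr_int_fin (k : ℕ) (m : Measure ℂ) [IsFiniteMeasure m] (t : ℝ) : IsFiniteMeasure (pvqrInt k m t) := by
  unfold pvqrInt; infer_instance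

theorem pvqr_isPpp (k : ℕ) (m : Measure ℂ) [IsFiniteMeasure m] (t : ℝ) : IsPpp (pvqrInt k m t) (pvqrLaw k m t) := pvs_isPpp _

instance pvqr_law_prob (k : ℕ) (m : Measure ℂ) [IsFiniteMeasure m] (t : ℝ) : IsProbabilityMeasure (pvqrLaw k m t) := (pvqr_isPpp k m t).prob

theorem pvqr_measurableSet_lift {k : ℕ} (a : Fin k) {B : Set PvPt} (hB : MeasurableSet B) : MeasurableSet (pvqrLift a B) := by
  have : pvqrLift a B = ⋃ b : Bool, ((fun q : ℂ × PvqrMk k => q.2 a) ⁻¹' {some b}) ∩ ((fun q : ℂ × PvqrMk k => (q.1, b)) ⁻¹' B) := by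
    ext q
    simp only [pvqrLift, mem_ofPred_eq, mem_iUnion, mem_inter_iff, mem_preimage, mem_singleton_iff]
  rw [this]
  refine MeasurableSet.iUnion fun b => MeasurableSet.inter ?_ ?_
  · exact ((measurable_pi_apply a).comp measurable_snd) (MeasurableSet.of_discrete)
  · exact (measurable_fst.prodMk measurable_const) hB

theorem pvqr_rep_preimage_void {k : ℕ} (a : Fin k) (B : Set PvPt) : pvqrRep a ⁻¹' Conf.void B = Conf.void (pvqrLift a B) := by
  ext Ξ
  simp only [mem_preimage, Conf.mem_void, pvqrRep, pvqrLift, mem_ofPred_eq, not_exists, not_and]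
  constructor
  · intro h q hq b hb hB
    exact h (q.1, b) ⟨q.2, hq, hb⟩ hB
  · rintro h p ⟨μ, hμ, hb⟩ hB
    exact h (p.1, μ) hμ p.2 hb hB

theorem pvqr_measurable_rep {k : ℕ} (a : Fin k) : Measurable (pvqrRep a : Conf (ℂ × PvqrMk k) → Conf PvPt) := by
  refine Conf.measurable_of_void fun B hB => ?_
  rw [pvqr_rep_preimage_void]
  exact Conf.measurableSet_void (pvqr_measurableSet_lift a hB)

/-- the marks seen by some replica `a` with a colour in `b a` -/
def pvqrU {k : ℕ} (b : Fin k → Set Bool) : Set (PvqrMk k) := {μ | ∃ a c, μ a = some c ∧ c ∈ b a}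

theorem pvqr_sh_U {k : ℕ} (b : Fin k → Set Bool) : pvqrSh k (pvqrU b) = 1 - ∏ a, pvCoin (b a)ᶜ := by
  unfold pvqrSh
  rw [Measure.map_apply Measurable.of_discrete MeasurableSet.of_discrete]
  have : (fun (c : Fin k → Bool) a => some (c a)) ⁻¹' pvqrU b = (Set.pi univ fun a => (b a)ᶜ)ᶜ := by
    ext c
    simp only [pvqrU, mem_preimage, mem_ofPred_eq, Option.some.injEq, exists_eq_left', mem_compl_iff, Set.mem_pi, mem_univ,
      forall_true_left, not_forall, not_not]
  rw [this, prob_compl_eq_one_sub MeasurableSet.of_discrete, Measure.pi_pi]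

theorem pvqr_pr_U {k : ℕ} (a : Fin k) (b : Fin k → Set Bool) : pvqrPr k a (pvqrU b) = 1 - pvCoin (b a)ᶜ := by
  unfold pvqrPr
  rw [Measure.map_apply Measurable.of_discrete MeasurableSet.of_discrete]
  have : (fun c : Bool => Function.update (fun _ : Fin k => (none : Option Bool)) a (some c)) ⁻¹' pvqrU b = b a := by
    ext c
    simp only [pvqrU, mem_preimage, mem_ofPred_eq]
    constructor
    · rintro ⟨a', c', h1, h2⟩
      by_cases h : a' = a
      · subst h
        rw [Function.update_self, Option.some.injEq] at h1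
        exact h1 ▸ h2
      · rw [Function.update_of_ne h] at h1
        exact absurd h1 (by simp)
    · intro h
      exact ⟨a, c, by simp, h⟩
  rw [this, prob_compl_eq_one_sub MeasurableSet.of_discrete, ENNReal.sub_sub_cancel ENNReal.one_ne_top prob_le_one]

theorem pvqr_kap_U {k : ℕ} (t : ℝ) (b : Fin k → Set Bool) :
    pvqrKap k t (pvqrU b) = ENNReal.ofReal t * (1 - ∏ a, pvCoin (b a)ᶜ) + ENNReal.ofReal (1 - t) * ∑ a, (1 - pvCoin (b a)ᶜ) := by
  unfold pvqrKap
  rw [Measure.add_apply, Measure.smul_apply, Measure.smul_apply, Measure.finsetSum_apply, pvqr_sh_U]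
  simp only [pvqr_pr_U, smul_eq_mul]

/-- probability that a fair colour at `x` avoids `B` -/
noncomputable def pvqrBe (B : Set PvPt) (x : ℂ) : ℝ≥0∞ := pvCoin (Prod.mk x ⁻¹' B)ᶜ

theorem pvqr_measurable_be {B : Set PvPt} (hB : MeasurableSet B) : Measurable (pvqrBe B) := by
  have := measurable_measure_prodMk_left (ν := pvCoin) hB.compl
  exact this

theorem pvqr_be_le_one (B : Set PvPt) (x : ℂ) : pvqrBe B x ≤ 1 := prob_le_one

theorem pvqr_section_lift {k : ℕ} (B : Fin k → Set PvPt) (x : ℂ) :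
    Prod.mk x ⁻¹' (⋃ a, pvqrLift a (B a)) = pvqrU fun a => Prod.mk x ⁻¹' B a := by
  ext μ
  simp only [pvqrLift, pvqrU, mem_preimage, mem_iUnion, mem_ofPred_eq]

/-- the intensity of the points seen by some replica -/
theorem pvqr_int_iUnion_lift (k : ℕ) (m : Measure ℂ) [IsFiniteMeasure m] (t : ℝ) {B : Fin k → Set PvPt} (hB : ∀ a, MeasurableSet (B a)) :
    pvqrInt k m t (⋃ a, pvqrLift a (B a))
      = ENNReal.ofReal t * ∫⁻ x, (1 - ∏ a, pvqrBe (B a) x) ∂m + ENNReal.ofReal (1 - t) * ∑ a, ∫⁻ x, (1 - pvqrBe (B a) x) ∂m := by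
  unfold pvqrInt
  rw [Measure.prod_apply (MeasurableSet.iUnion fun a => pvqr_measurableSet_lift a (hB a))]
  simp_rw [pvqr_section_lift, pvqr_kap_U]
  have h1 : Measurable fun x => (1 : ℝ≥0∞) - ∏ a, pvqrBe (B a) x :=
    measurable_const.sub (Finset.measurable_prod _ fun a _ => pvqr_measurable_be (hB a))
  have h2 : ∀ a, Measurable fun x => (1 : ℝ≥0∞) - pvqrBe (B a) x := fun a => measurable_const.sub (pvqr_measurable_be (hB a))
  change ∫⁻ x, (ENNReal.ofReal t * (1 - ∏ a, pvqrBe (B a) x) + ENNReal.ofReal (1 - t) * ∑ a, (1 - pvqrBe (B a) x)) ∂m = _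
  rw [lintegral_add_left (h1.const_mul _), lintegral_const_mul _ h1, lintegral_const_mul _ (Finset.measurable_sum _ fun a _ => h2 a),
    lintegral_finsetSum _ fun a _ => h2 a]

theorem pvqr_eqns_cite2 : True := by
  have := @pvqrU.eq_1
  have := @pvqrBe.eq_1
  trivial

/-- the intensity seen by one replica -/
theorem pvqr_int_lift (k : ℕ) (m : Measure ℂ) [IsFiniteMeasure m] {t : ℝ} (h0 : 0 ≤ t) (h1 : t ≤ 1) (a : Fin k) {B : Set PvPt} (hB : MeasurableSet B) :
    pvqrInt k m t (pvqrLift a B) = (m.prod pvCoin) B := by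
  classical
  have e : pvqrLift a B = ⋃ a', pvqrLift a' (Function.update (fun _ => (∅ : Set PvPt)) a B a') := by
    ext q
    simp only [mem_iUnion]
    constructor
    · intro h; exact ⟨a, by simpa using h⟩
    · rintro ⟨a', h⟩
      by_cases ha : a' = a
      · subst ha; simpa using h
      · rw [Function.update_of_ne ha] at h
        simp [pvqrLift] at h
  have hm : ∀ a', MeasurableSet (Function.update (fun _ => (∅ : Set PvPt)) a B a') := by
    intro a'
    by_cases ha : a' = a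
    · subst ha; simpa using hB
    · rw [Function.update_of_ne ha]; exact MeasurableSet.empty
  rw [e, pvqr_int_iUnion_lift k m t hm]
  have hbe : ∀ a' x, a' ≠ a → pvqrBe (Function.update (fun _ => (∅ : Set PvPt)) a B a') x = 1 := by
    intro a' x ha
    rw [Function.update_of_ne ha]
    unfold pvqrBe
    rw [preimage_empty, compl_empty, measure_univ]
  have e1 : ∀ x, ∏ a', pvqrBe (Function.update (fun _ => (∅ : Set PvPt)) a B a') x = pvqrBe B x := by
    intro x
    rw [Finset.prod_eq_single a (fun a' _ ha => hbe a' x ha) (by simp)]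
    simp
  have e2 : ∑ a', ∫⁻ x, (1 - pvqrBe (Function.update (fun _ => (∅ : Set PvPt)) a B a') x) ∂m = ∫⁻ x, (1 - pvqrBe B x) ∂m := by
    rw [Finset.sum_eq_single a (fun a' _ ha => by simp [hbe a' _ ha]) (by simp)]
    simp
  simp_rw [e1]
  rw [e2, ← add_mul, ← ENNReal.ofReal_add h0 (by linarith)]
  simp only [add_sub_cancel, ENNReal.ofReal_one, one_mul]
  rw [Measure.prod_apply hB]
  refine lintegral_congr fun x => ?_
  unfold pvqrBe
  rw [prob_compl_eq_one_sub MeasurableSet.of_discrete, ENNReal.sub_sub_cancel ENNReal.one_ne_top prob_le_one]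

/-- **(R1)** every replica is the coloured Poisson process -/
theorem pvqr_rep_isPpp (k : ℕ) (m : Measure ℂ) [IsFiniteMeasure m] {t : ℝ} (h0 : 0 ≤ t) (h1 : t ≤ 1) (a : Fin k) :
    IsPpp (m.prod pvCoin) ((pvqrLaw k m t).map (pvqrRep a)) := ⟨fun B hB => by
  rw [Measure.map_apply (pvqr_measurable_rep a) (Conf.measurableSet_void hB), pvqr_rep_preimage_void,
    (pvqr_isPpp k m t).void _ (pvqr_measurableSet_lift a hB), pvqr_int_lift k m h0 h1 a hB]⟩

theorem pvqr_rep_law (k : ℕ) (m : Measure ℂ) [IsFiniteMeasure m] {t : ℝ} (h0 : 0 ≤ t) (h1 : t ≤ 1) (a : Fin k) :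
    (pvqrLaw k m t).map (pvqrRep a) = pppFin (m.prod pvCoin) := (pvqr_rep_isPpp k m h0 h1 a).eq_pppFin

/-! ## (R2) LEMMA REP -/

/-- Tonelli for a product of functions of the coordinates (finite product) -/
theorem pvqr_lintegral_pi {ι : Type} [Fintype ι] {G : Type} [MeasurableSpace G] (γ : Measure G) [IsProbabilityMeasure γ]
    {f : ι → G → ℝ≥0∞} (hf : ∀ j, Measurable (f j)) :
    ∫⁻ g, ∏ j, f j (g j) ∂(pvqlPi ι γ) = ∏ j, ∫⁻ x, f j x ∂γ := by
  unfold pvqlPi
  have hi : iIndepFun (fun j (g : ι → G) => f j (g j)) (Measure.pi fun _ : ι => γ) := iIndepFun_pi (fun j => (hf j).aemeasurable)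
  rw [lintegral_prod_eq_prod_lintegral_of_indepFun Finset.univ _ hi (fun j => (hf j).comp (measurable_pi_apply j))]
  refine Finset.prod_congr rfl fun j _ => ?_
  exact (measurePreserving_eval (fun _ : ι => γ) j).lintegral_comp (hf j)

/-- Tonelli for a product of functions of the coordinates (iid sequence) -/
theorem pvqr_lintegral_seq (ν : Measure ℂ) [IsProbabilityMeasure ν] {h : ℂ → ℝ≥0∞} (hh : Measurable h) (n : ℕ) :
    ∫⁻ x, ∏ i ∈ Finset.range n, h (x i) ∂(Measure.infinitePi fun _ : ℕ => ν) = (∫⁻ z, h z ∂ν) ^ n := by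
  have hi : iIndepFun (fun (i : ℕ) (x : ℕ → ℂ) => h (x i)) (Measure.infinitePi fun _ : ℕ => ν) := iIndepFun_infinitePi (fun _ => hh)
  rw [lintegral_prod_eq_prod_lintegral_of_indepFun (Finset.range n) _ hi (fun i => hh.comp (measurable_pi_apply i))]
  have : ∀ i, ∫⁻ x : ℕ → ℂ, h (x i) ∂(Measure.infinitePi fun _ : ℕ => ν) = ∫⁻ z, h z ∂ν := fun i =>
    (measurePreserving_eval_infinitePi (fun _ : ℕ => ν) i).lintegral_comp hh
  simp [this]

/-- the product of `h` over the points of a layer -/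
noncomputable def pvqrW (h : ℂ → ℝ≥0∞) (g : PvqlG) : ℝ≥0∞ := ∏ i ∈ Finset.range g.1, h (g.2 i)

theorem pvqr_eqns_cite3 : True := by
  have := @pvqrW.eq_1
  trivial

theorem pvqr_measurable_W {h : ℂ → ℝ≥0∞} (hh : Measurable h) : Measurable (pvqrW h) := by
  refine measurable_from_prod_countable_right fun n => ?_
  exact Finset.measurable_prod (Finset.range n) (f := fun i (y : ℕ → ℂ) => h (y i)) fun i _ => hh.comp (measurable_pi_apply i)

/-- the generating functional of a layer -/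
theorem pvqr_lintegral_W (r : ℝ≥0) (ν : Measure ℂ) [IsProbabilityMeasure ν] {h : ℂ → ℝ≥0∞} (hh : Measurable h) (h1 : ∀ z, h z ≤ 1) :
    ∫⁻ g, pvqrW h g ∂(pvqlGam r ν) = expNeg (r * ∫⁻ z, (1 - h z) ∂ν) := by
  unfold pvqlGam
  rw [lintegral_prod _ (pvqr_measurable_W hh).aemeasurable]
  simp only [pvqrW, pvqr_lintegral_seq ν hh]
  have hq : ∫⁻ z, h z ∂ν ≤ 1 := by
    calc ∫⁻ z, h z ∂ν ≤ ∫⁻ _, 1 ∂ν := lintegral_mono h1
      _ = 1 := by simp
  rw [lintegral_poisson_pow r _ hq]
  congr 2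
  rw [lintegral_sub hh (ne_top_of_le_ne_top ENNReal.one_ne_top hq) (ae_of_all _ h1)]
  simp

theorem pvqr_kap_void (g : PvqlG) (B : Set PvPt) : pvqlKap {c | pvqlCfg g c ∈ Conf.void B} = pvqrW (pvqrBe B) g := by
  have e : {c : PvqlC | pvqlCfg g c ∈ Conf.void B} = Set.pi (Finset.range g.1 : Set ℕ) fun i => (Prod.mk (g.2 i) ⁻¹' B)ᶜ := by
    ext c
    have := congrArg (fun S => ((g.1, fun i => (g.2 i, c i)) : ℕ × (ℕ → PvPt)) ∈ S) (Conf.cell_preimage_void B)
    simp only [mem_preimage, mem_ofPred_eq, eq_iff_iff] at this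
    simp only [mem_ofPred_eq, pvqlCfg, this, Set.mem_pi, Finset.coe_range, mem_Iio, mem_compl_iff, mem_preimage]
  rw [e]
  unfold pvqlKap
  rw [Measure.infinitePi_pi _ fun _ _ => MeasurableSet.of_discrete]
  rfl

theorem pvqr_all_mem_void {ι : Type} (g : ι → PvqlG) (c : ι → PvqlC) (B : Set PvPt) :
    pvqlAll g c ∈ Conf.void B ↔ ∀ j, pvqlCfg (g j) (c j) ∈ Conf.void B := by
  have := congrArg (fun S => (fun j => pvqlCfg (g j) (c j)) ∈ S) (Conf.iUnion_preimage_void (ι := ι) B)
  simp only [mem_preimage, Set.mem_pi, mem_univ, forall_true_left, eq_iff_iff] at this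
  exact this

/-- the void probability of one replica at fixed positions of the known layers -/
theorem pvqr_one {ι : Type} [Fintype ι] [DecidableEq ι] (r : ℝ≥0) (ν : Measure ℂ) [IsProbabilityMeasure ν] (T : Finset ι) (g : ι → PvqlG)
    {B : Set PvPt} (hB : MeasurableSet B) :
    ((pvqlPi ι (pvqlGam r ν)).prod (pvqlPi ι pvqlKap)) {y | pvqlAll (pvqlMix T g y.1) y.2 ∈ Conf.void B}
      = ∏ j, if j ∈ T then pvqrW (pvqrBe B) (g j) else expNeg (r * ∫⁻ z, (1 - pvqrBe B z) ∂ν) := by
  have hm : Measurable fun y : (ι → PvqlG) × (ι → PvqlC) => pvqlAll (pvqlMix T g y.1) y.2 := by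
    have h1 : Measurable fun y : (ι → PvqlG) × (ι → PvqlC) => (pvqlMix T g y.1, y.2) :=
      ((pvql_measurable_mix T).comp (measurable_const.prodMk measurable_fst)).prodMk measurable_snd
    exact pvql_measurable_all.comp h1
  have hS : MeasurableSet {y : (ι → PvqlG) × (ι → PvqlC) | pvqlAll (pvqlMix T g y.1) y.2 ∈ Conf.void B} := hm (Conf.measurableSet_void hB)
  rw [Measure.prod_apply hS]
  have h1 : ∀ g' : ι → PvqlG, pvqlPi ι pvqlKap (Prod.mk g' ⁻¹' {y : (ι → PvqlG) × (ι → PvqlC) | pvqlAll (pvqlMix T g y.1) y.2 ∈ Conf.void B})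
      = ∏ j, (fun j x => if j ∈ T then pvqrW (pvqrBe B) (g j) else pvqrW (pvqrBe B) x) j (g' j) := by
    intro g'
    have e : Prod.mk g' ⁻¹' {y : (ι → PvqlG) × (ι → PvqlC) | pvqlAll (pvqlMix T g y.1) y.2 ∈ Conf.void B}
        = Set.pi univ fun j => {c : PvqlC | pvqlCfg (pvqlMix T g g' j) c ∈ Conf.void B} := by
      ext c
      simp only [mem_preimage, mem_ofPred_eq, pvqr_all_mem_void, Set.mem_pi, mem_univ, forall_true_left]
    rw [e]
    unfold pvqlPi
    rw [Measure.pi_pi]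
    refine Finset.prod_congr rfl fun j _ => ?_
    rw [pvqr_kap_void]
    unfold pvqlMix
    by_cases hj : j ∈ T <;> simp [hj]
  simp_rw [h1]
  have hW := pvqr_measurable_W (pvqr_measurable_be hB)
  rw [pvqr_lintegral_pi (pvqlGam r ν) (f := fun j x => if j ∈ T then pvqrW (pvqrBe B) (g j) else pvqrW (pvqrBe B) x)
    (fun j => by by_cases hj : j ∈ T <;> simp only [hj, if_true, if_false] <;> [exact measurable_const; exact hW])]
  refine Finset.prod_congr rfl fun j _ => ?_
  by_cases hj : j ∈ T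
  · simp [hj]
  · simp only [hj, if_false]
    exact pvqr_lintegral_W r ν (pvqr_measurable_be hB) (pvqr_be_le_one B)

/-- a finite measure on `k` configurations is determined by the void rectangles -/
theorem pvqr_ext_rect {k : ℕ} {E : Type} [MeasurableSpace E] {μ₁ μ₂ : Measure (Fin k → Conf E)} [IsFiniteMeasure μ₁]
    (h : ∀ B : Fin k → Set E, (∀ a, MeasurableSet (B a)) → μ₁ (Set.pi univ fun a => Conf.void (B a)) = μ₂ (Set.pi univ fun a => Conf.void (B a))) :
    μ₁ = μ₂ := by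
  have hsp : ∀ _ : Fin k, IsCountablySpanning (Conf.voids E) := fun _ =>
    ⟨fun _ => univ, fun _ => ⟨∅, MeasurableSet.empty, Conf.void_empty.symm⟩, iUnion_const _⟩
  have hgen : (MeasurableSpace.pi : MeasurableSpace (Fin k → Conf E)) = MeasurableSpace.generateFrom (Set.pi univ '' Set.pi univ fun _ : Fin k => Conf.voids E) :=
    generateFrom_pi_eq hsp
  refine ext_of_generate_finite _ hgen (IsPiSystem.pi fun _ => Conf.isPiSystem_voids) ?_ ?_
  · rintro s ⟨S, hS, rfl⟩
    choose B hB hBS using fun a => hS a (mem_univ a)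
    have e : S = fun a => Conf.void (B a) := funext hBS
    rw [e]
    exact h B hB
  · have := h (fun _ => ∅) (fun _ => MeasurableSet.empty)
    simpa [Conf.void_empty] using this

theorem pvqr_W_prod {k : ℕ} (h : Fin k → ℂ → ℝ≥0∞) (g : PvqlG) : ∏ a, pvqrW (h a) g = pvqrW (fun z => ∏ a, h a z) g := by
  unfold pvqrW
  exact Finset.prod_comm

/-- the sample space of the `k` replicas of the layered model -/
abbrev PvqrOm (ι : Type) (k : ℕ) := (ι → PvqlG) × (Fin k → (ι → PvqlG) × (ι → PvqlC))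

/-- its law -/
noncomputable def pvqrP (ι : Type) [Fintype ι] (k : ℕ) (r : ℝ≥0) (ν : Measure ℂ) : Measure (PvqrOm ι k) :=
  (pvqlPi ι (pvqlGam r ν)).prod (Measure.pi fun _ : Fin k => (pvqlPi ι (pvqlGam r ν)).prod (pvqlPi ι pvqlKap))

/-- the `k` replicas of the layered model -/
def pvqrX {ι : Type} [DecidableEq ι] (T : Finset ι) {k : ℕ} (ω : PvqrOm ι k) (a : Fin k) : Conf PvPt := pvqlAll (pvqlMix T ω.1 (ω.2 a).1) (ω.2 a).2

theorem pvqr_eqns_cite4 : True := by
  have := @pvqrP.eq_1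
  have := @pvqrX.eq_1
  trivial

instance pvqr_P_prob (ι : Type) [Fintype ι] (k : ℕ) (r : ℝ≥0) (ν : Measure ℂ) [IsProbabilityMeasure ν] : IsProbabilityMeasure (pvqrP ι k r ν) := by
  unfold pvqrP; infer_instance

theorem pvqr_measurable_X {ι : Type} [Fintype ι] [DecidableEq ι] (T : Finset ι) {k : ℕ} : Measurable (pvqrX T : PvqrOm ι k → Fin k → Conf PvPt) := by
  refine measurable_pi_lambda _ fun a => ?_
  have h1 : Measurable fun ω : PvqrOm ι k => (pvqlMix T ω.1 (ω.2 a).1, (ω.2 a).2) := by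
    refine Measurable.prodMk ?_ ?_
    · exact (pvql_measurable_mix T).comp (measurable_fst.prodMk (measurable_fst.comp ((measurable_pi_apply a).comp measurable_snd)))
    · exact measurable_snd.comp ((measurable_pi_apply a).comp measurable_snd)
  exact pvql_measurable_all.comp h1

/-- the void rectangles of the layered model -/
theorem pvqr_P_rect {ι : Type} [Fintype ι] [DecidableEq ι] (r : ℝ≥0) (ν : Measure ℂ) [IsProbabilityMeasure ν] (T : Finset ι) {k : ℕ}
    {B : Fin k → Set PvPt} (hB : ∀ a, MeasurableSet (B a)) :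
    pvqrP ι k r ν (pvqrX T ⁻¹' Set.pi univ fun a => Conf.void (B a))
      = ∏ j : ι, if j ∈ T then expNeg (r * ∫⁻ z, (1 - ∏ a, pvqrBe (B a) z) ∂ν) else ∏ a, expNeg (r * ∫⁻ z, (1 - pvqrBe (B a) z) ∂ν) := by
  have hS : MeasurableSet (pvqrX T ⁻¹' Set.pi univ fun a => Conf.void (B a) : Set (PvqrOm ι k)) :=
    pvqr_measurable_X T (MeasurableSet.univ_pi fun a => Conf.measurableSet_void (hB a))
  unfold pvqrP
  rw [Measure.prod_apply hS]
  have h1 : ∀ g : ι → PvqlG, (Measure.pi fun _ : Fin k => (pvqlPi ι (pvqlGam r ν)).prod (pvqlPi ι pvqlKap))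
        (Prod.mk g ⁻¹' (pvqrX T ⁻¹' Set.pi univ fun a => Conf.void (B a)))
      = ∏ j, (fun j x => if j ∈ T then pvqrW (fun z => ∏ a, pvqrBe (B a) z) x else ∏ a, expNeg (r * ∫⁻ z, (1 - pvqrBe (B a) z) ∂ν)) j (g j) := by
    intro g
    have e : Prod.mk g ⁻¹' (pvqrX T ⁻¹' Set.pi univ fun a => Conf.void (B a))
        = Set.pi univ fun a => {y : (ι → PvqlG) × (ι → PvqlC) | pvqlAll (pvqlMix T g y.1) y.2 ∈ Conf.void (B a)} := by
      ext Y
      simp only [mem_preimage, Set.mem_pi, mem_univ, forall_true_left, pvqrX, mem_ofPred_eq]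
    rw [e, Measure.pi_pi]
    simp_rw [pvqr_one r ν T g (hB _)]
    rw [Finset.prod_comm]
    refine Finset.prod_congr rfl fun j _ => ?_
    by_cases hj : j ∈ T
    · simp only [hj, if_true]
      exact pvqr_W_prod _ _
    · simp only [hj, if_false]
  simp_rw [h1]
  have hbe : Measurable fun z => ∏ a, pvqrBe (B a) z := Finset.measurable_prod _ fun a _ => pvqr_measurable_be (hB a)
  rw [pvqr_lintegral_pi (pvqlGam r ν)
    (f := fun j x => if j ∈ T then pvqrW (fun z => ∏ a, pvqrBe (B a) z) x else ∏ a, expNeg (r * ∫⁻ z, (1 - pvqrBe (B a) z) ∂ν))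
    (fun j => by by_cases hj : j ∈ T <;> simp only [hj, if_true, if_false] <;> [exact pvqr_measurable_W hbe; exact measurable_const])]
  refine Finset.prod_congr rfl fun j _ => ?_
  by_cases hj : j ∈ T
  · simp only [hj, if_true]
    exact pvqr_lintegral_W r ν hbe fun z => Finset.prod_le_one' fun a _ => pvqr_be_le_one _ _
  · simp [hj]

theorem pvqr_void_iUnion {E ι : Type} (S : ι → Set E) : Conf.void (⋃ a, S a) = ⋂ a, Conf.void (S a) := by
  ext η
  simp only [Conf.mem_void, mem_iUnion, not_exists, mem_iInter]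
  exact ⟨fun h a p hp => h p hp a, fun h p hp a => h a p hp⟩

/-- the void rectangles of the `k`-replica process -/
theorem pvqr_law_rect (k : ℕ) (m : Measure ℂ) [IsFiniteMeasure m] (t : ℝ) {B : Fin k → Set PvPt} (hB : ∀ a, MeasurableSet (B a)) :
    pvqrLaw k m t ((fun Ξ a => pvqrRep a Ξ) ⁻¹' Set.pi univ fun a => Conf.void (B a)) = expNeg (pvqrInt k m t (⋃ a, pvqrLift a (B a))) := by
  have e : (fun (Ξ : Conf (ℂ × PvqrMk k)) a => pvqrRep a Ξ) ⁻¹' Set.pi univ (fun a => Conf.void (B a)) = Conf.void (⋃ a, pvqrLift a (B a)) := by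
    rw [pvqr_void_iUnion]
    simp_rw [← pvqr_rep_preimage_void]
    ext Ξ
    simp only [mem_preimage, Set.mem_pi, mem_univ, forall_true_left, mem_iInter]
  rw [e, (pvqr_isPpp k m t).void _ (MeasurableSet.iUnion fun a => pvqr_measurableSet_lift a (hB a))]

theorem pvqr_arith {ι : Type} [Fintype ι] [DecidableEq ι] [Nonempty ι] (r : ℝ≥0) (T : Finset ι) (A A' : ℝ≥0∞) :
    ENNReal.ofReal ((T.card : ℝ) / Fintype.card ι) * (((Fintype.card ι : ℝ≥0∞) * r) * A)
      + ENNReal.ofReal (1 - (T.card : ℝ) / Fintype.card ι) * (((Fintype.card ι : ℝ≥0∞) * r) * A') = ∑ j : ι, if j ∈ T then r * A else r * A' := by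
  have hn : 0 < Fintype.card ι := Fintype.card_pos
  have hn' : (0 : ℝ) < Fintype.card ι := by exact_mod_cast hn
  have hle : T.card ≤ Fintype.card ι := Finset.card_le_univ T
  have e1 : ENNReal.ofReal ((T.card : ℝ) / Fintype.card ι) = (T.card : ℝ≥0∞) / Fintype.card ι := by
    rw [ENNReal.ofReal_div_of_pos hn', ENNReal.ofReal_natCast, ENNReal.ofReal_natCast]
  have e2 : ENNReal.ofReal (1 - (T.card : ℝ) / Fintype.card ι) = ((Fintype.card ι - T.card : ℕ) : ℝ≥0∞) / Fintype.card ι := by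
    have : 1 - (T.card : ℝ) / Fintype.card ι = ((Fintype.card ι - T.card : ℕ) : ℝ) / Fintype.card ι := by
      rw [Nat.cast_sub hle]; field_simp
    rw [this, ENNReal.ofReal_div_of_pos hn', ENNReal.ofReal_natCast, ENNReal.ofReal_natCast]
  have hc : ∀ x : ℝ≥0∞, x / Fintype.card ι * Fintype.card ι = x := fun x =>
    ENNReal.div_mul_cancel (by exact_mod_cast hn.ne') (ENNReal.natCast_ne_top _)
  have e3 : ∀ x y : ℝ≥0∞, x / Fintype.card ι * (((Fintype.card ι : ℝ≥0∞) * r) * y) = x * (r * y) := by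
    intro x y
    rw [← hc x]
    simp only [hc]
    rw [mul_assoc, ← mul_assoc, hc]
  rw [e1, e2, e3, e3, Finset.sum_ite, Finset.sum_const, Finset.sum_const, Finset.filter_mem_eq_inter, Finset.univ_inter, nsmul_eq_mul, nsmul_eq_mul]
  congr 3
  rw [Finset.filter_not, Finset.filter_mem_eq_inter, Finset.univ_inter, Finset.card_sdiff_of_subset (Finset.subset_univ T), Finset.card_univ]

/-- the two laws of `k` configurations agree -/
theorem pvqr_map_eq {ι : Type} [Fintype ι] [DecidableEq ι] [Nonempty ι] (r : ℝ≥0) (ν : Measure ℂ) [IsProbabilityMeasure ν] (T : Finset ι) (k : ℕ) :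
    (pvqrP ι k r ν).map (pvqrX T)
      = (pvqrLaw k (((Fintype.card ι : ℝ≥0∞) * r) • ν) ((T.card : ℝ) / Fintype.card ι)).map fun Ξ a => pvqrRep a Ξ := by
  have hfin : IsFiniteMeasure (((Fintype.card ι : ℝ≥0∞) * r) • ν) :=
    Measure.smul_finite ν (ENNReal.mul_ne_top (ENNReal.natCast_ne_top _) ENNReal.coe_ne_top)
  have hmR : Measurable fun (Ξ : Conf (ℂ × PvqrMk k)) a => pvqrRep a Ξ := measurable_pi_lambda _ fun a => pvqr_measurable_rep a
  refine pvqr_ext_rect fun B hB => ?_
  have hR : MeasurableSet (Set.pi univ fun a => Conf.void (B a)) := MeasurableSet.univ_pi fun a => Conf.measurableSet_void (hB a)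
  rw [Measure.map_apply (pvqr_measurable_X T) hR, Measure.map_apply hmR hR, pvqr_P_rect r ν T hB, pvqr_law_rect _ _ _ hB,
    pvqr_int_iUnion_lift _ _ _ hB]
  simp_rw [lintegral_smul_measure, smul_eq_mul]
  rw [← Finset.mul_sum, pvqr_arith, expNeg_finset_sum]
  refine Finset.prod_congr rfl fun j _ => ?_
  by_cases hj : j ∈ T
  · simp only [hj, if_true]
  · simp only [hj, if_false]
    rw [Finset.mul_sum, expNeg_finset_sum]

theorem pvqr_B_prod {α ι : Type} [MeasurableSpace α] (s : Finset ι) {f : ι → α → ℝ} (h : ∀ i ∈ s, PvqlB (f i)) : PvqlB (fun x => ∏ i ∈ s, f i x) := by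
  classical
  induction s using Finset.induction_on with
  | empty => simpa using PvqlB.const (α := α) 1
  | insert i s hi ih =>
    simp only [Finset.prod_insert hi]
    exact (h i (Finset.mem_insert_self _ _)).mul (ih fun j hj => h j (Finset.mem_insert_of_mem hj))

/-- **(R2) LEMMA REP** -/
theorem pvqr_REP {ι : Type} [Fintype ι] [DecidableEq ι] [Nonempty ι] (r : ℝ≥0) (ν : Measure ℂ) [IsProbabilityMeasure ν] (T : Finset ι) {k : ℕ}
    {F : Fin k → Conf PvPt → ℝ} (hF : ∀ a, PvqlB (F a)) :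
    ∫ g, ∏ a, pvqlE (pvqlGam r ν) T (fun g => ∫ c, F a (pvqlAll g c) ∂(pvqlPi ι pvqlKap)) g ∂(pvqlPi ι (pvqlGam r ν))
      = pvqrM k (((Fintype.card ι : ℝ≥0∞) * r) • ν) ((T.card : ℝ) / Fintype.card ι) F := by
  have hmR : Measurable fun (Ξ : Conf (ℂ × PvqrMk k)) a => pvqrRep a Ξ := measurable_pi_lambda _ fun a => pvqr_measurable_rep a
  have hΦ : PvqlB (fun ξ : Fin k → Conf PvPt => ∏ a, F a (ξ a)) :=
    pvqr_B_prod Finset.univ (f := fun a (ξ : Fin k → Conf PvPt) => F a (ξ a)) fun a _ => (hF a).comp (measurable_pi_apply a)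
  unfold pvqrM
  have e2 := integral_map (μ := pvqrLaw k (((Fintype.card ι : ℝ≥0∞) * r) • ν) ((T.card : ℝ) / Fintype.card ι)) hmR.aemeasurable
    hΦ.1.aestronglyMeasurable
  rw [← e2, ← pvqr_map_eq, integral_map (pvqr_measurable_X T).aemeasurable hΦ.1.aestronglyMeasurable]
  have hI : Integrable (fun ω : PvqrOm ι k => ∏ a, F a (pvqrX T ω a)) (pvqrP ι k r ν) := (hΦ.comp (pvqr_measurable_X T)).integrable
  unfold pvqrP at hI ⊢
  rw [integral_prod _ hI]
  refine integral_congr_ae (ae_of_all _ fun g => ?_)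
  have h3 := integral_fintype_prod_eq_prod (ι := Fin k) (𝕜 := ℝ) (fun a (y : (ι → PvqlG) × (ι → PvqlC)) => F a (pvqlAll (pvqlMix T g y.1) y.2))
    (μ := fun _ : Fin k => (pvqlPi ι (pvqlGam r ν)).prod (pvqlPi ι pvqlKap))
  refine Eq.trans ?_ h3.symm
  refine Finset.prod_congr rfl fun a _ => ?_
  have hm : Measurable fun y : (ι → PvqlG) × (ι → PvqlC) => pvqlAll (pvqlMix T g y.1) y.2 := by
    have h1 : Measurable fun y : (ι → PvqlG) × (ι → PvqlC) => (pvqlMix T g y.1, y.2) :=
      ((pvql_measurable_mix T).comp (measurable_const.prodMk measurable_fst)).prodMk measurable_snd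
    exact pvql_measurable_all.comp h1
  rw [integral_prod _ ((hF a).comp hm).integrable]
  rfl

/-- **(R3)** the variance of the layered system is the canonical two replica value -/
theorem pvqr_v_eq {ι : Type} [Fintype ι] [DecidableEq ι] [Nonempty ι] (r : ℝ≥0) (ν : Measure ℂ) [IsProbabilityMeasure ν] (T : Finset ι)
    {f : Conf PvPt → ℝ} (hf : PvqlB f) :
    (pvqlSys ι r ν f).v T = pvqrV (((Fintype.card ι : ℝ≥0∞) * r) • ν) f ((T.card : ℝ) / Fintype.card ι) := by
  have h1 := pvqr_REP r ν T (k := 2) (F := fun _ => f) (fun _ => hf)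
  unfold PvqlSys.v pvqrV
  rw [← h1]
  congr 1
  · refine integral_congr_ae (ae_of_all _ fun g => ?_)
    simp only [Fin.prod_univ_two, sq]
    rfl
  · congr 1
    have hfin : IsFiniteMeasure (((Fintype.card ι : ℝ≥0∞) * r) • (ν.prod pvCoin)) :=
      Measure.smul_finite _ (ENNReal.mul_ne_top (ENNReal.natCast_ne_top _) ENNReal.coe_ne_top)
    have h2 := (pvql_law (ι := ι) r ν).eq_pppFin
    rw [Measure.prod_smul_left, ← h2, integral_map pvql_measurable_all.aemeasurable hf.1.aestronglyMeasurable,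
      integral_prod _ (hf.comp pvql_measurable_all).integrable]
    rfl

/-! ## (R4) restriction and maps of the positions -/

theorem pvqr_rep_restr {k : ℕ} (a : Fin k) (W : Set ℂ) (Ξ : Conf (ℂ × PvqrMk k)) :
    pvqrRep a (Conf.restr (W ×ˢ univ) Ξ) = Conf.restr (W ×ˢ univ) (pvqrRep a Ξ) := by
  ext p
  simp only [pvqrRep, Conf.restr, mem_ofPred_eq, mem_inter_iff, mem_prod, mem_univ, and_true]
  constructor
  · rintro ⟨μ, ⟨h1, h2⟩, h3⟩
    exact ⟨⟨μ, h1, h3⟩, h2⟩
  · rintro ⟨⟨μ, h1, h3⟩, h2⟩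
    exact ⟨μ, ⟨h1, h2⟩, h3⟩

theorem pvqr_rep_map {k : ℕ} (a : Fin k) (φ : ℂ → ℂ) (Ξ : Conf (ℂ × PvqrMk k)) :
    pvqrRep a (Conf.image (Prod.map φ id) Ξ) = cfMap φ (pvqrRep a Ξ) := by
  ext p
  simp only [pvqrRep, cfMap, Conf.image, mem_ofPred_eq, mem_image, Prod.exists, Prod.map_apply, id_eq, Prod.mk.injEq]
  constructor
  · rintro ⟨μ, ⟨x, μ', h1, h2, rfl⟩, h3⟩
    exact ⟨x, p.2, ⟨μ', h1, h3⟩, Prod.ext h2 rfl⟩
  · rintro ⟨x, b, ⟨μ, h1, h3⟩, rfl⟩
    exact ⟨μ, ⟨x, μ, h1, rfl, rfl⟩, h3⟩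

theorem pvqr_law_restr (k : ℕ) (m : Measure ℂ) [IsFiniteMeasure m] (t : ℝ) {W : Set ℂ} (hW : MeasurableSet W) :
    (pvqrLaw k m t).map (Conf.restr (W ×ˢ univ)) = pvqrLaw k (m.restrict W) t := by
  have h1 := (pvqr_isPpp k m t).restr (hW.prod MeasurableSet.univ)
  have h2 : (pvqrInt k m t).restrict (W ×ˢ univ) = pvqrInt k (m.restrict W) t := by
    unfold pvqrInt
    rw [← Measure.prod_restrict, Measure.restrict_univ]
  rw [h2] at h1
  exact h1.unique (pvqr_isPpp k (m.restrict W) t)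

theorem pvqr_law_map (k : ℕ) (m : Measure ℂ) [IsFiniteMeasure m] (t : ℝ) {φ : ℂ → ℂ} (hφ : Measurable φ) :
    (pvqrLaw k m t).map (Conf.image (Prod.map φ id)) = pvqrLaw k (m.map φ) t := by
  have h1 := (pvqr_isPpp k m t).map (hφ.prodMap measurable_id)
  have h2 : (pvqrInt k m t).map (Prod.map φ id) = pvqrInt k (m.map φ) t := by
    unfold pvqrInt
    rw [← Measure.map_prod_map _ _ hφ measurable_id, Measure.map_id]
  rw [h2] at h1
  exact h1.unique (pvqr_isPpp k (m.map φ) t)

end Claimed.Agent.R289
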