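-- KEEP
import Claimed.Agent.R289.Qbx.Rep

/-!
# Row 289 (S0537), box QBX (quenched box crossing), file Qbx/Main      (owner helper277; prefix `pvqm` / `Pvqm`)

HEAD of the box: helper30.  Reviewer of every statement of this file + owner of STAGE2 + EXIT: helper298.

## What this file is

THE VOCABULARY + THE CONTRACTS + THE COMPILED GLUE of the thinning bootstrap of 144 (box_agmt_144.md), in the
form of 30's ruling (08:00Z) merged with the `k`-replica process of 77 (architecture v1, 08:06Z).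

CONTRACT STYLE.  A node that is proved in ANOTHER file is a `def Pvqm... : Prop` here.  The glue theorems take
the contracts as hypotheses.  So the dependency order is

      Ppp / Series   <   Qbx/Lay (248)   <   Qbx/Rep (294)   <   Qbx/Main (this file)   <   Dict, RevP, Rev, C0-instance, Stage2   <   Qbx/Exit

and the model free files (Ss1, RbP, Expl part 1) do not import this file.
Whoever proves a contract writes `theorem pvq?_xxx : PvqmXxx := ...` in his own file, importing this one.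

## The mathematics (one page)

* `W` = a WINDOW (measurable subset of the plane, finite area); all processes live in `W`.
* `F : Conf PvPt → ℝ` = a TEST = `PvqlObs` of 248: measurable, `[0,1]`-valued, a new black point lowers it, a new white
  point raises it.  The tests of the bootstrap are the blocking events
  `F u = 1{no black arm across the annulus of scale u, computed in the configuration restricted to W u}`.
* THE `k`-REPLICA PROCESS at time `t ∈ [0,1]` (defs of 294, Qbx/Rep.lean): ONE Poisson process `Ξ` on `ℂ × (Fin k → Option Bool)`.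
  The mark of a point says, for each replica `i`, absent or present with a colour.  Mark law `pvqrKap k t` =
  `t` * (present in all replicas, iid fair colours) + `(1-t)` * SUM_i (present in replica `i` only, fair colour).
  `pvqmRep i Ξ` = replica `i` ~ PPP(Leb_W x coin).  The replicas SHARE the positions of a `t`-thinned part,
  nothing else.
* MOMENTS  `pvqmM k W t g = E PROD_i g i (rep_i Ξ)`;     `pvqmV W F t = M_2(F,F;t) - (E F)^2`.
  Meaning: `V(t) = Var ( E [ F | positions of the t-part ] )`;  `V(1)` = variance of the QUENCHED probability.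
* QUENCHED OBJECTS for a finite set `S` of revealed positions: `pvqmY W F t S` = mean of `F` over the colours
  of `S` and over a hidden PPP((1-t) Leb_W x coin); `pvqmC W F t S x` = its level-1 Fourier-Walsh coefficient
  in the colour of `x ∈ S`.

## The nodes

* [LAY]  `PvqmLay` (248 + 294): for every window and test
    (L0) `V 0 ≤ 0`;
    (L1) `V((k+1)/n) ≤ V(k/n) + 1/n + K/n^2`                         (Jensen + symmetry of the layers + Bessel);
    (L2) `V(k/n) ≤ INT G d PPP(t Leb_W) + K/n`, `t = k/n`, for every measurable integrable `G` dominating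
         `S ↦ SUM_{x ∈ S} C(t,S,x)^2`                 (martingale increments + Jensen + monotonicity of `F`).
  The error terms are removed HERE (`pvqm_refine1`, `pvqm_refine2`: refine the mesh `n -> n b`, `b -> ∞`;
  this works because `V` is a function of the real number `t = k/n`).
* [REP]  `PvqmRepK`: `INT PROD_i Y(g_i)(t,S) d PPP(t Leb_W)(S) = M_k(g;t)`, measurability of `Y`  (`t = k/n` only: `PvqmGrid t`).
* [REV]  `PvqmRev W F` = (H2): there is `vb > 0` such that for every `e0 > 0` there are `κ θ u0` with: if `u ≥ u0`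
  and `V_ρ(t) ≤ vb` for all `ρ ∈ [κ u, θ u]` then the level-1 weight at scale `u` is dominated by a `G` of mean `≤ e0`.
  (SS1 + exploration + `k`-th moments over blocks + voids + C0; cut in Qbx/Rev.lean.)
* [C0]   `PvqmC0 W F c0`: `c0 ≤ E F_u` for all `u > 0` (167).
* BOOT   `pvqm_boot` (proved here, 77's grid form).
* STAGE 1 `pvqm_stage1`: `V_u(1) -> 0` as `u -> ∞`.
* PRE-EXIT `pvqm_main`: for every `δ > 0`, for `u` large: PPP(Leb_{W u}) { S | Y_u(1,S) < c0/2 } ≤ δ.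
* STAGE 2 + EXIT (298): own files, on top of `pvqm_stage1`, `PvqmLay`, `PvqmRepK`.
-/

set_option autoImplicit false
set_option linter.unusedSectionVars false
set_option linter.unusedVariables false

namespace Claimed.Agent.R289

open MeasureTheory ProbabilityTheory Set Filter Topology
open scoped ENNReal NNReal

/-! ## 1. the `k`-replica process : ONE VOCABULARY = Qbx/Rep.lean of 294 (`pvqr`), specialised to a window

All the objects of this section are REDUCIBLE abbreviations of 294's objects at the position intensity `m = Leb_W`,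
so every lemma of Qbx/Rep.lean (`pvqr_isPpp`, `pvqr_measurable_rep`, `pvqr_rep_law`, `pvqr_rep_restr`, `pvqr_law_restr`,
`pvqr_law_map`, `pvqr_REP`, `pvqr_v_eq`) applies as it stands. -/

/-- the position intensity of the window `W`. -/
noncomputable abbrev pvqmL (W : Set ℂ) : Measure ℂ := (volume : Measure ℂ).restrict W

/-- intensity of the `k`-replica process in the window `W` at time `t`. -/
noncomputable abbrev pvqmJ (k : ℕ) (W : Set ℂ) (t : ℝ) : Measure (ℂ × PvqrMk k) := pvqrInt k (pvqmL W) t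

/-- replica `i` of a marked configuration. -/
abbrev pvqmRep {k : ℕ} (i : Fin k) (Ξ : Conf (ℂ × PvqrMk k)) : Conf PvPt := pvqrRep i Ξ

/-- the `k`-th moment `M_k(g;t) = E PROD_i g_i(rep_i Ξ)`. -/
noncomputable abbrev pvqmM (k : ℕ) (W : Set ℂ) (t : ℝ) (g : Fin k → Conf PvPt → ℝ) : ℝ := pvqrM k (pvqmL W) t g

/-- intensity `t Leb_W x coin` of a coloured process. -/
noncomputable def pvqmI (W : Set ℂ) (t : ℝ) : Measure PvPt := ENNReal.ofReal t • (pvqmL W).prod pvCoin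

/-- intensity `t Leb_W` of a process of positions. -/
noncomputable def pvqmIp (W : Set ℂ) (t : ℝ) : Measure ℂ := ENNReal.ofReal t • pvqmL W

/-- annealed mean of `F` in the window `W`. -/
noncomputable def pvqmE (W : Set ℂ) (F : Conf PvPt → ℝ) : ℝ := ∫ ζ, F ζ ∂pppFin ((pvqmL W).prod pvCoin)

/-- THE two-replica value `V(t) = M_2(F,F;t) - (E F)^2`. -/
noncomputable abbrev pvqmV (W : Set ℂ) (F : Conf PvPt → ℝ) (t : ℝ) : ℝ := pvqrV (pvqmL W) F t

theorem pvqmV_eq (W : Set ℂ) (F : Conf PvPt → ℝ) (t : ℝ) : pvqmV W F t = pvqmM 2 W t (fun _ => F) - (pvqmE W F) ^ 2 := rfl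

/-- the times of the bootstrap: `t = k/n`, `k ≤ n`. -/
def PvqmGrid (t : ℝ) : Prop := ∃ n k : ℕ, 0 < n ∧ k ≤ n ∧ t = (k : ℝ) / n

theorem PvqmGrid.nonneg {t : ℝ} (h : PvqmGrid t) : 0 ≤ t := by
  obtain ⟨n, k, _, _, rfl⟩ := h
  positivity

theorem PvqmGrid.le_one {t : ℝ} (h : PvqmGrid t) : t ≤ 1 := by
  obtain ⟨n, k, hn, hk, rfl⟩ := h
  have hn0 : (0 : ℝ) < n := by exact_mod_cast hn
  rw [div_le_one hn0]
  exact_mod_cast hk

theorem pvqm_grid (n k : ℕ) (hn : 0 < n) (hk : k ≤ n) : PvqmGrid ((k : ℝ) / n) := ⟨n, k, hn, hk, rfl⟩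

theorem pvqm_grid_one : PvqmGrid 1 := ⟨1, 1, one_pos, le_rfl, by simp⟩

/-! ## 2. quenched objects over a finite set of revealed positions -/

/-- the coloured configuration with positions `S`, black exactly on `T`. -/
def pvqmCol (S T : Finset ℂ) : Conf PvPt := ⟨{p | p.1 ∈ S ∧ (p.2 = true ↔ p.1 ∈ T)}⟩

/-- mean over the colours of `S` (= uniform subset `T ⊆ S` of black points) and a hidden PPP((1-t) Leb_W x coin). -/
noncomputable def pvqmAv (W : Set ℂ) (t : ℝ) (S : Finset ℂ) (Φ : Finset ℂ → Conf PvPt → ℝ) : ℝ :=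
  ((2 : ℝ) ^ S.card)⁻¹ * ∑ T ∈ S.powerset, ∫ ζ, Φ T ζ ∂pppFin (pvqmI W (1 - t))

/-- `Y(t,S) = E [ F | the revealed positions are S ]`. -/
noncomputable def pvqmY (W : Set ℂ) (F : Conf PvPt → ℝ) (t : ℝ) (S : Finset ℂ) : ℝ :=
  pvqmAv W t S fun T ζ => F (Conf.union (pvqmCol S T) ζ)

/-- level-1 coefficient of the colour of `x` (character `+1` = white, `-1` = black; it is `≥ 0` for a test). -/
noncomputable def pvqmC (W : Set ℂ) (F : Conf PvPt → ℝ) (t : ℝ) (S : Finset ℂ) (x : ℂ) : ℝ :=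
  pvqmAv W t S fun T ζ => (if x ∈ T then -1 else 1) * F (Conf.union (pvqmCol S T) ζ)

open Classical in
/-- the finite set of points of a configuration of positions (`∅` if infinite). -/
noncomputable def pvqmFs (η : Conf ℂ) : Finset ℂ := if h : η.pts.Finite then h.toFinset else ∅

/-- a WINDOW: measurable, of finite POSITIVE area. -/
structure PvqmWin (W : Set ℂ) : Prop where
  meas : MeasurableSet W
  fin : volume W ≠ ∞
  pos : volume W ≠ 0

/-- a TEST = an observable of 248's Lay.lean: measurable, `[0,1]`-valued, `F (ins (x,black) ξ) ≤ F ξ ≤ F (ins (x,white) ξ)` for ALL `ξ`. -/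
abbrev PvqmTest (F : Conf PvPt → ℝ) : Prop := PvqlObs F

/-- a measurable `[0,1]`-valued function (no monotonicity). -/
structure PvqmBd (F : Conf PvPt → ℝ) : Prop where
  meas : Measurable F
  nonneg : ∀ ζ, 0 ≤ F ζ
  le_one : ∀ ζ, F ζ ≤ 1

theorem pvqm_test_bd {F : Conf PvPt → ℝ} (h : PvqmTest F) : PvqmBd F := ⟨h.meas, h.nonneg, h.le_one⟩

theorem PvqmBd.b {F : Conf PvPt → ℝ} (h : PvqmBd F) : PvqlB F :=
  ⟨h.meas, 1, fun ζ => abs_le.2 ⟨by linarith [h.nonneg ζ], h.le_one ζ⟩⟩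

/-- `G` dominates the level-1 weight of `F` in `W` at time `t`. -/
def PvqmDom (W : Set ℂ) (F : Conf PvPt → ℝ) (t : ℝ) (G : Conf ℂ → ℝ) : Prop :=
  Measurable G ∧ Integrable G (pppFin (pvqmIp W t)) ∧
    ∀ S : Finset ℂ, (S : Set ℂ) ⊆ W → ∑ x ∈ S, (pvqmC W F t S x) ^ 2 ≤ G ⟨(S : Set ℂ)⟩

theorem pvqm_eqns_cite : True := by
  have := @pvqmL.eq_1; have := @pvqmJ.eq_1; have := @PvqmGrid.eq_1
  have := @pvqmRep.eq_1; have := @pvqmM.eq_1; have := @pvqmI.eq_1; have := @pvqmIp.eq_1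
  have := @pvqmE.eq_1; have := @pvqmV.eq_1; have := @pvqmCol.eq_1; have := @pvqmAv.eq_1
  have := @pvqmY.eq_1; have := @pvqmC.eq_1; have := @pvqmFs.eq_1; have := @PvqmDom.eq_1
  trivial

/-! ## 3. the contracts -/

/-- **[LAY]** (248 + 294, file Qbx/Lay.lean).  `K` may depend on `W` and `F` (e.g. `K = (area W)^2`).

PLAN.  `n` iid layers `PPP((1/n) Leb_W x coin)`; `Y_k` = mean of `F` given the POSITIONS of the layers `1..k`;
`Var Y_k = V(k/n)` (REP with 2 replicas: the superposition of `k` layers is the shared part).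
(L1) `E (Y_{k+1}-Y_k)^2 ≤ E (Z - E_{(k+1)} Z)^2` with `Z = Y_n` (Jensen) `= (1/n) SUM_a E (Z - E_{(a)} Z)^2` (symmetry)
`≤ (1/n) SUM_a E (Z - Z[a := ∅])^2`; a layer with one point `x` contributes `≤ C(1,S,x)^2` (monotone: `F(x black) ≤ F(no x)
≤ F(x white)`), Bessel `SUM_x C(1,S,x)^2 ≤ 1`; a layer with `≥ 2` points has probability `≤ (M/n)^2/2`.
STATUS: the abstract half is PROVED in Qbx/Lay.lean (`PvqlSys.Ok.TI1`, `.step`, `.v_empty`), `v T = V(|T|/n)` is `pvqr_v_eq` (294).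
(L2) `Var Y_k = SUM_{j<k} E (Y_{j+1}-Y_j)^2`, `Y_{j+1}-Y_j = E [ Y_k - E_{(j+1)} Y_k | layers ≤ j+1 ]`, Jensen, then as in (L1)
with `Y_k` in place of `Z`: `≤ E SUM_{x ∈ S} C(t,S,x)^2 + k M^2/(2 n^2)`. -/
def PvqmLay : Prop :=
  ∀ (W : Set ℂ) (F : Conf PvPt → ℝ), PvqmWin W → PvqmTest F →
    pvqmV W F 0 ≤ 0 ∧
    ∃ K : ℝ,
      (∀ n k : ℕ, k < n → pvqmV W F (((k : ℝ) + 1) / n) ≤ pvqmV W F ((k : ℝ) / n) + 1 / n + K / (n : ℝ) ^ 2) ∧
      (∀ n k : ℕ, 0 < n → k ≤ n → ∀ G : Conf ℂ → ℝ, PvqmDom W F ((k : ℝ) / n) G →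
        pvqmV W F ((k : ℝ) / n) ≤ ∫ η, G η ∂pppFin (pvqmIp W ((k : ℝ) / n)) + K / n)

/-- **[REP]** the replica lemma: quenched means multiply to the `k`-th moment.

PLAN (Qbx/Dict.lean).  From `pvqr_REP` (294: the layered form) by the DICTIONARY layers -> finite sets: `ι = Fin n`, `T` = the first `k`
layers, `r = area(W)/n`, `ν = Leb_W/area(W)`; (D0) a.s. all the points of all the layers are distinct; (D1) for such `g`:
`pvqlE γ T (fun g => INT F (pvqlAll g c) dc) g = pvqmY W F t (S g)`, `S g` = the positions of the layers in `T` (the hidden layers are a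
`PPP((1-t) Leb_W x coin)`: `pvql_law`; the black set of the revealed points is a uniform subset of `S g`); (D2) the law of `S g` is
`PPP(t Leb_W)`. -/
def PvqmRepK : Prop :=
  ∀ (W : Set ℂ), PvqmWin W → ∀ t : ℝ, PvqmGrid t →
    (∀ F : Conf PvPt → ℝ, PvqmBd F → Measurable fun η : Conf ℂ => pvqmY W F t (pvqmFs η)) ∧
    (∀ (k : ℕ) (g : Fin k → Conf PvPt → ℝ), (∀ i, PvqmBd (g i)) →
      ∫ η, ∏ i, pvqmY W (g i) t (pvqmFs η) ∂pppFin (pvqmIp W t) = pvqmM k W t g)

/-- **[REV] = (H2)** for a family of windows and tests indexed by the scale `u`. -/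
def PvqmRev (W : ℝ → Set ℂ) (F : ℝ → Conf PvPt → ℝ) : Prop :=
  ∃ vb : ℝ, 0 < vb ∧ ∀ e0 : ℝ, 0 < e0 → ∃ κ θ u0 : ℝ, 0 < κ ∧ κ ≤ 1 ∧ 0 < u0 ∧
    ∀ u t : ℝ, u0 ≤ u → PvqmGrid t →
      (∀ ρ ∈ Icc (κ * u) (θ * u), pvqmV (W ρ) (F ρ) t ≤ vb) →
        ∃ G : Conf ℂ → ℝ, PvqmDom (W u) (F u) t G ∧ ∫ η, G η ∂pppFin (pvqmIp (W u) t) ≤ e0

/-- **[C0]** uniform lower bound of the annealed blocking probability. -/
def PvqmC0 (W : ℝ → Set ℂ) (F : ℝ → Conf PvPt → ℝ) (c0 : ℝ) : Prop :=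
  0 < c0 ∧ ∀ u : ℝ, 0 < u → c0 ≤ pvqmE (W u) (F u)

/-! ## 4. model free lemmas: mesh refinement, BOOT -/

/-- `x ≤ y + c/b` for all `b` gives `x ≤ y`. -/
theorem pvqm_lim (x y c : ℝ) (h : ∀ b : ℕ, 0 < b → x ≤ y + c / b) : x ≤ y := by
  apply le_of_forall_pos_le_add
  intro ε hε
  obtain ⟨b, hb⟩ := exists_nat_gt (|c| / ε)
  have hb0 : (0 : ℝ) < b := lt_of_le_of_lt (by positivity) hb
  have h1 := h b (by exact_mod_cast hb0)
  have h2 : c / b ≤ ε := by
    rw [div_le_iff₀ hb0]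
    rw [div_lt_iff₀ hε] at hb
    nlinarith [le_abs_self c]
  linarith

/-- remove the `K/n^2` error of (L1) by refining the mesh. -/
theorem pvqm_refine1 (v : ℝ → ℝ) (a K : ℝ)
    (h : ∀ n k : ℕ, k < n → v (((k : ℝ) + 1) / n) ≤ v ((k : ℝ) / n) + a / n + K / (n : ℝ) ^ 2) :
    ∀ n k : ℕ, k < n → v (((k : ℝ) + 1) / n) ≤ v ((k : ℝ) / n) + a / n := by
  intro n k hk
  have hn : (0 : ℝ) < n := by exact_mod_cast (Nat.zero_lt_of_lt hk)
  have key : ∀ b : ℕ, 0 < b → v (((k : ℝ) + 1) / n) ≤ (v ((k : ℝ) / n) + a / n) + (K / (n : ℝ) ^ 2) / b := by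
    intro b hb
    have hb0 : (0 : ℝ) < b := by exact_mod_cast hb
    have ind : ∀ j : ℕ, j ≤ b → v ((((k * b + j : ℕ) : ℝ)) / ((n * b : ℕ) : ℝ)) ≤
        v ((k : ℝ) / n) + j * (a / ((n * b : ℕ) : ℝ) + K / (((n * b : ℕ) : ℝ)) ^ 2) := by
      intro j
      induction j with
      | zero =>
        intro _
        have : (((k * b + 0 : ℕ) : ℝ)) / ((n * b : ℕ) : ℝ) = (k : ℝ) / n := by
          rw [Nat.add_zero]
          push_cast
          field_simp
        rw [this]; simp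
      | succ j ih =>
        intro hj
        have h1 := ih (by omega)
        have hlt : k * b + j < n * b := by
          have : (k + 1) * b ≤ n * b := Nat.mul_le_mul_right b hk
          nlinarith
        have h2 := h (n * b) (k * b + j) hlt
        have e : (((k * b + (j + 1) : ℕ) : ℝ)) = ((k * b + j : ℕ) : ℝ) + 1 := by push_cast; ring
        rw [e]
        push_cast at h1 h2 ⊢
        linarith
    have h3 := ind b le_rfl
    have e1 : (((k * b + b : ℕ) : ℝ)) / ((n * b : ℕ) : ℝ) = ((k : ℝ) + 1) / n := by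
      push_cast
      field_simp
    rw [e1] at h3
    have e2 : (b : ℝ) * (a / ((n * b : ℕ) : ℝ) + K / (((n * b : ℕ) : ℝ)) ^ 2) = a / n + (K / (n : ℝ) ^ 2) / b := by
      push_cast
      field_simp
    rw [e2] at h3
    linarith
  exact pvqm_lim _ _ _ key

/-- remove the `K/n` error of (L2) by refining the mesh. -/
theorem pvqm_refine2 (v : ℝ → ℝ) (B : ℝ → ℝ) (K : ℝ)
    (h : ∀ n k : ℕ, 0 < n → k ≤ n → v ((k : ℝ) / n) ≤ B ((k : ℝ) / n) + K / n) :
    ∀ n k : ℕ, 0 < n → k ≤ n → v ((k : ℝ) / n) ≤ B ((k : ℝ) / n) := by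
  intro n k hn hk
  have hn0 : (0 : ℝ) < n := by exact_mod_cast hn
  apply pvqm_lim _ _ (K / n)
  intro b hb
  have hb0 : (0 : ℝ) < b := by exact_mod_cast hb
  have h1 := h (n * b) (k * b) (Nat.mul_pos hn hb) (Nat.mul_le_mul_right b hk)
  have e : (((k * b : ℕ) : ℝ)) / ((n * b : ℕ) : ℝ) = (k : ℝ) / n := by
    push_cast
    field_simp
  rw [e] at h1
  have e2 : K / ((n * b : ℕ) : ℝ) = K / n / b := by
    push_cast
    field_simp
  rw [e2] at h1
  exact h1

/-- **BOOT** (77's grid form). -/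
theorem pvqm_boot (v : ℝ → ℝ → ℝ) (vb κ θ u0 : ℝ) (n0 : ℕ) (hvb : 0 ≤ vb) (hκ : 0 < κ) (hκ1 : κ ≤ 1) (hu0 : 0 < u0)
    (h0 : ∀ u, 0 < u → v u 0 ≤ 0)
    (h1 : ∀ u, 0 < u → ∀ k : ℕ, k < n0 → v u (((k : ℝ) + 1) / n0) ≤ v u ((k : ℝ) / n0) + vb / 2)
    (h2 : ∀ u, u0 ≤ u → ∀ k : ℕ, k ≤ n0 → (∀ ρ ∈ Icc (κ * u) (θ * u), v ρ ((k : ℝ) / n0) ≤ vb) → v u ((k : ℝ) / n0) ≤ vb / 2) :
    ∀ k : ℕ, k ≤ n0 → ∀ u, u0 / κ ^ k ≤ u → v u ((k : ℝ) / n0) ≤ vb / 2 := by
  intro k
  induction k with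
  | zero =>
    intro _ u hu
    have := h0 u (lt_of_lt_of_le (by positivity) hu)
    simp only [Nat.cast_zero, zero_div]
    linarith
  | succ k ih =>
    intro hk u hu
    have hpk : 0 < κ ^ k := pow_pos hκ k
    have hpk1 : 0 < κ ^ (k + 1) := pow_pos hκ (k + 1)
    have hle1 : κ ^ (k + 1) ≤ 1 := pow_le_one₀ hκ.le hκ1
    have hu0u : u0 ≤ u := by
      refine le_trans ?_ hu
      rw [le_div_iff₀ hpk1]
      nlinarith
    apply h2 u hu0u (k + 1) hk
    intro ρ hρ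
    have h3 : u0 / κ ^ k ≤ ρ := by
      refine le_trans ?_ hρ.1
      rw [div_le_iff₀ hpk1] at hu
      rw [div_le_iff₀ hpk]
      calc u0 ≤ u * κ ^ (k + 1) := hu
        _ = κ * u * κ ^ k := by ring
    have h4 := ih (by omega) ρ h3
    have h5 := h1 ρ (lt_of_lt_of_le (by positivity) h3) k (by omega)
    push_cast
    linarith

/-! ## 5. the glue -/

/-- (H1) clean. -/
theorem pvqm_h1 (hL : PvqmLay) {W : Set ℂ} {F : Conf PvPt → ℝ} (hW : PvqmWin W) (hF : PvqmTest F) :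
    ∀ n k : ℕ, k < n → pvqmV W F (((k : ℝ) + 1) / n) ≤ pvqmV W F ((k : ℝ) / n) + 1 / n := by
  obtain ⟨_, K, h1, _⟩ := hL W F hW hF
  exact pvqm_refine1 (pvqmV W F) 1 K h1

/-- (I1) clean. -/
theorem pvqm_i1 (hL : PvqmLay) {W : Set ℂ} {F : Conf PvPt → ℝ} (hW : PvqmWin W) (hF : PvqmTest F)
    (n k : ℕ) (hn : 0 < n) (hk : k ≤ n) (G : Conf ℂ → ℝ) (hG : PvqmDom W F ((k : ℝ) / n) G) :
    pvqmV W F ((k : ℝ) / n) ≤ ∫ η, G η ∂pppFin (pvqmIp W ((k : ℝ) / n)) := by
  obtain ⟨_, K, _, h2⟩ := hL W F hW hF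
  have hn0 : (0 : ℝ) < n := by exact_mod_cast hn
  apply pvqm_lim _ _ (K / n)
  intro b hb
  have hb0 : (0 : ℝ) < b := by exact_mod_cast hb
  have e : (((k * b : ℕ) : ℝ)) / ((n * b : ℕ) : ℝ) = (k : ℝ) / n := by
    push_cast
    field_simp
  have h1 := h2 (n * b) (k * b) (Nat.mul_pos hn hb) (Nat.mul_le_mul_right b hk) G (by rw [e]; exact hG)
  rw [e] at h1
  have e2 : K / ((n * b : ℕ) : ℝ) = K / n / b := by
    push_cast
    field_simp
  rw [e2] at h1
  exact h1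

/-- **STAGE 1**: the variance of the quenched blocking probability tends to `0`. -/
theorem pvqm_stage1 (hL : PvqmLay) {W : ℝ → Set ℂ} {F : ℝ → Conf PvPt → ℝ} (hW : ∀ u, 0 < u → PvqmWin (W u))
    (hF : ∀ u, 0 < u → PvqmTest (F u)) (hR : PvqmRev W F) :
    ∀ e : ℝ, 0 < e → ∃ u1 : ℝ, ∀ u, u1 ≤ u → pvqmV (W u) (F u) 1 ≤ e := by
  obtain ⟨vb, hvb, hR⟩ := hR
  -- step A : the bootstrap
  obtain ⟨κ, θ, u0, hκ, hκ1, hu0, hA⟩ := hR (vb / 2) (by linarith)
  obtain ⟨n0, hn0⟩ := exists_nat_gt (2 / vb)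
  have hn0p : (0 : ℝ) < n0 := lt_trans (by positivity) hn0
  have hn0' : 0 < n0 := by exact_mod_cast hn0p
  have hstep : (1 : ℝ) / n0 ≤ vb / 2 := by
    rw [div_le_iff₀ hn0p]
    rw [div_lt_iff₀ (by positivity)] at hn0
    nlinarith
  have hboot := pvqm_boot (fun u t => pvqmV (W u) (F u) t) vb κ θ u0 n0 hvb.le hκ hκ1 hu0
    (fun u hu => (hL (W u) (F u) (hW u hu) (hF u hu)).1)
    (fun u hu k hk => (pvqm_h1 hL (hW u hu) (hF u hu) n0 k hk).trans (by linarith))
    (fun u hu k hk hyp => by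
      have hup : 0 < u := lt_of_lt_of_le hu0 hu
      obtain ⟨G, hG, hGe⟩ := hA u ((k : ℝ) / n0) hu (pvqm_grid n0 k hn0' hk) hyp
      exact (pvqm_i1 hL (hW u hup) (hF u hup) n0 k hn0' hk G hG).trans hGe)
  have hB : ∀ u, u0 / κ ^ n0 ≤ u → pvqmV (W u) (F u) 1 ≤ vb := by
    intro u hu
    have := hboot n0 le_rfl u hu
    simp only [div_self hn0p.ne'] at this
    linarith
  -- step B : from `≤ vb` to `≤ e`
  intro e he
  obtain ⟨κ', θ', u0', hκ', hκ1', hu0', hA'⟩ := hR e he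
  refine ⟨max u0' (u0 / κ ^ n0 / κ'), fun u hu => ?_⟩
  have hu1 : u0' ≤ u := le_trans (le_max_left _ _) hu
  have hu2 : u0 / κ ^ n0 / κ' ≤ u := le_trans (le_max_right _ _) hu
  have hup : 0 < u := lt_of_lt_of_le hu0' hu1
  obtain ⟨G, hG, hGe⟩ := hA' u 1 hu1 pvqm_grid_one (fun ρ hρ => hB ρ (by
    refine le_trans ?_ hρ.1
    rw [div_le_iff₀ hκ'] at hu2
    linarith))
  have h1 := pvqm_i1 hL (hW u hup) (hF u hup) 1 1 one_pos le_rfl G (by simpa using hG)
  simp only [Nat.cast_one, div_one] at h1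
  exact h1.trans hGe

theorem pvqm_fin_L {W : Set ℂ} (hW : PvqmWin W) : IsFiniteMeasure (pvqmL W) :=
  ⟨by rw [Measure.restrict_apply_univ]; exact hW.fin.lt_top⟩

theorem pvqm_fin_Ip {W : Set ℂ} (hW : PvqmWin W) (t : ℝ) : IsFiniteMeasure (pvqmIp W t) := by
  have := pvqm_fin_L hW
  unfold pvqmIp
  exact Measure.smul_finite _ ENNReal.ofReal_ne_top

theorem pvqm_fin_I {W : Set ℂ} (hW : PvqmWin W) (t : ℝ) : IsFiniteMeasure (pvqmI W t) := by
  have := pvqm_fin_L hW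
  unfold pvqmI
  exact Measure.smul_finite _ ENNReal.ofReal_ne_top

/-- the quenched mean of a `[0,1]`-valued function is in `[0,1]`. -/
theorem pvqm_Y_mem {W : Set ℂ} {F : Conf PvPt → ℝ} (hW : PvqmWin W) (hF : PvqmBd F) (t : ℝ) (S : Finset ℂ) :
    0 ≤ pvqmY W F t S ∧ pvqmY W F t S ≤ 1 := by
  have hfin := pvqm_fin_I hW (1 - t)
  have hP : IsProbabilityMeasure (pppFin (pvqmI W (1 - t))) := (pvs_isPpp _).prob
  have h0 : ∀ T : Finset ℂ, 0 ≤ ∫ ζ, F (Conf.union (pvqmCol S T) ζ) ∂pppFin (pvqmI W (1 - t)) :=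
    fun T => integral_nonneg fun ζ => hF.nonneg _
  have h1 : ∀ T : Finset ℂ, ∫ ζ, F (Conf.union (pvqmCol S T) ζ) ∂pppFin (pvqmI W (1 - t)) ≤ 1 := by
    intro T
    have := integral_mono_of_nonneg (μ := pppFin (pvqmI W (1 - t))) (f := fun ζ => F (Conf.union (pvqmCol S T) ζ))
      (g := fun _ => (1 : ℝ)) (ae_of_all _ fun ζ => hF.nonneg _) (integrable_const _) (ae_of_all _ fun ζ => hF.le_one _)
    simpa using this
  have hpos : (0 : ℝ) < 2 ^ S.card := by positivity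
  unfold pvqmY pvqmAv
  refine ⟨mul_nonneg (inv_nonneg.2 hpos.le) (Finset.sum_nonneg fun T _ => h0 T), ?_⟩
  rw [inv_mul_le_iff₀ hpos, mul_one]
  calc ∑ T ∈ S.powerset, ∫ ζ, F (Conf.union (pvqmCol S T) ζ) ∂pppFin (pvqmI W (1 - t))
      ≤ ∑ T ∈ S.powerset, (1 : ℝ) := Finset.sum_le_sum fun T _ => h1 T
    _ = 2 ^ S.card := by simp [Finset.card_powerset]

/-- Chebyshev for the quenched mean. -/
theorem pvqm_cheb (hK : PvqmRepK) {W : Set ℂ} {F : Conf PvPt → ℝ} (hW : PvqmWin W) (hF : PvqmBd F) {c : ℝ} (hc : 0 < c)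
    (hE : c ≤ pvqmE W F) :
    pppFin (pvqmIp W 1) {η | pvqmY W F 1 (pvqmFs η) < c / 2} ≤ ENNReal.ofReal (4 * pvqmV W F 1 / c ^ 2) := by
  obtain ⟨hm, hmom⟩ := hK W hW 1 pvqm_grid_one
  have hfinL := pvqm_fin_L hW
  have hfin := pvqm_fin_Ip hW 1
  have hP : IsProbabilityMeasure (pppFin (pvqmIp W 1)) := (pvs_isPpp _).prob
  set P := pppFin (pvqmIp W 1) with hPdef
  set Y : Conf ℂ → ℝ := fun η => pvqmY W F 1 (pvqmFs η) with hY
  have hYm : Measurable Y := hm F hF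
  have hYb : ∀ η, ‖Y η‖ ≤ 1 := fun η => by
    rw [Real.norm_eq_abs, abs_le]
    have := pvqm_Y_mem hW hF 1 (pvqmFs η)
    exact ⟨by linarith [this.1], this.2⟩
  have hL2 : MemLp Y 2 P := MemLp.of_bound hYm.aestronglyMeasurable 1 (ae_of_all _ hYb)
  -- first moment
  have hmean : ∫ η, Y η ∂P = pvqmE W F := by
    have h1 := hmom 1 (fun _ => F) (fun _ => hF)
    simp only [Finset.univ_unique, Finset.prod_singleton] at h1
    rw [hY, h1]
    unfold pvqmM pvqrM pvqmE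
    simp only [Finset.univ_unique, Finset.prod_singleton]
    rw [← pvqr_rep_law 1 (pvqmL W) zero_le_one le_rfl default,
      integral_map (pvqr_measurable_rep _).aemeasurable hF.meas.aestronglyMeasurable]
  -- second moment
  have hsq : ∫ η, (Y η) ^ 2 ∂P = pvqmM 2 W 1 (fun _ => F) := by
    have h2 := hmom 2 (fun _ => F) (fun _ => hF)
    simp only [Fin.prod_univ_two] at h2
    rw [← h2]
    refine integral_congr_ae (ae_of_all _ fun η => ?_)
    simp only [hY]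
    ring
  have hvar : Var[Y; P] = pvqmV W F 1 := by
    rw [variance_eq_sub hL2, pvqmV_eq, ← hsq, ← hmean]
    rfl
  have hch := meas_ge_le_variance_div_sq hL2 (c := c / 2) (by positivity)
  refine (measure_mono fun η hη => ?_).trans (hch.trans (le_of_eq ?_))
  · have hη' : Y η < c / 2 := hη
    show c / 2 ≤ |Y η - ∫ x, Y x ∂P|
    rw [hmean, abs_sub_comm]
    refine le_trans ?_ (le_abs_self _)
    linarith
  · rw [hvar]
    congr 1
    field_simp
    ring

/-- **PRE-EXIT**: with high probability over the positions, the quenched blocking probability is `≥ c0/2`. -/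
theorem pvqm_main (hL : PvqmLay) (hK : PvqmRepK) {W : ℝ → Set ℂ} {F : ℝ → Conf PvPt → ℝ} {c0 : ℝ} (hW : ∀ u, 0 < u → PvqmWin (W u))
    (hF : ∀ u, 0 < u → PvqmTest (F u)) (hR : PvqmRev W F) (hC : PvqmC0 W F c0) :
    ∀ δ : ℝ, 0 < δ → ∃ u1 : ℝ, ∀ u, u1 ≤ u →
      pppFin (pvqmIp (W u) 1) {η | pvqmY (W u) (F u) 1 (pvqmFs η) < c0 / 2} ≤ ENNReal.ofReal δ := by
  intro δ hδ
  obtain ⟨hc0, hC⟩ := hC
  obtain ⟨u1, hu1⟩ := pvqm_stage1 hL hW hF hR (δ * c0 ^ 2 / 4) (by positivity)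
  refine ⟨max u1 1, fun u hu => ?_⟩
  have hu0 : 0 < u := lt_of_lt_of_le one_pos ((le_max_right _ _).trans hu)
  refine (pvqm_cheb hK (hW u hu0) (pvqm_test_bd (hF u hu0)) hc0 (hC u hu0)).trans (ENNReal.ofReal_le_ofReal ?_)
  have := hu1 u ((le_max_left _ _).trans hu)
  rw [div_le_iff₀ (by positivity)]
  linarith

/-! ## 6. base lemmas on the quenched mean at every grid time (asked by 277; helper287) -/

theorem pvqm_prob_Ip {W : Set ℂ} (hW : PvqmWin W) (t : ℝ) : IsProbabilityMeasure (pppFin (pvqmIp W t)) := by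
  have := pvqm_fin_Ip hW t
  exact (pvs_isPpp _).prob

theorem pvqm_prob_I {W : Set ℂ} (hW : PvqmWin W) (t : ℝ) : IsProbabilityMeasure (pppFin (pvqmI W t)) := by
  have := pvqm_fin_I hW t
  exact (pvs_isPpp _).prob

theorem pvqm_Y_nonneg {W : Set ℂ} {F : Conf PvPt → ℝ} (hW : PvqmWin W) (hF : PvqmBd F) (t : ℝ) (S : Finset ℂ) :
    0 ≤ pvqmY W F t S := (pvqm_Y_mem hW hF t S).1

theorem pvqm_Y_le_one {W : Set ℂ} {F : Conf PvPt → ℝ} (hW : PvqmWin W) (hF : PvqmBd F) (t : ℝ) (S : Finset ℂ) :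
    pvqmY W F t S ≤ 1 := (pvqm_Y_mem hW hF t S).2

/-- the quenched mean is in every `L^p`. -/
theorem pvqm_Y_memLp (hK : PvqmRepK) {W : Set ℂ} {F : Conf PvPt → ℝ} (hW : PvqmWin W) (hF : PvqmBd F) {t : ℝ} (ht : PvqmGrid t)
    (p : ℝ≥0∞) : MemLp (fun η : Conf ℂ => pvqmY W F t (pvqmFs η)) p (pppFin (pvqmIp W t)) := by
  have hP := pvqm_prob_Ip hW t
  refine MemLp.of_bound ((hK W hW t ht).1 F hF).aestronglyMeasurable 1 (ae_of_all _ fun η => ?_)
  rw [Real.norm_eq_abs, abs_le]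
  exact ⟨by linarith [pvqm_Y_nonneg hW hF t (pvqmFs η)], pvqm_Y_le_one hW hF t (pvqmFs η)⟩

/-- first moment of the quenched mean = annealed mean. -/
theorem pvqm_int_Y (hK : PvqmRepK) {W : Set ℂ} {F : Conf PvPt → ℝ} (hW : PvqmWin W) (hF : PvqmBd F) {t : ℝ} (ht : PvqmGrid t) :
    ∫ η, pvqmY W F t (pvqmFs η) ∂pppFin (pvqmIp W t) = pvqmE W F := by
  have := pvqm_fin_L hW
  have a1 := (hK W hW t ht).2 1 (fun _ => F) (fun _ => hF)
  simp only [Finset.univ_unique, Finset.prod_singleton] at a1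
  rw [a1]
  unfold pvqmE
  show pvqrM 1 (pvqmL W) t (fun _ => F) = _
  unfold pvqrM
  simp only [Finset.univ_unique, Finset.prod_singleton]
  rw [← pvqr_rep_law 1 (pvqmL W) ht.nonneg ht.le_one default,
    integral_map (pvqr_measurable_rep _).aemeasurable hF.meas.aestronglyMeasurable]

/-- second moment of the quenched mean. -/
theorem pvqm_int_Y_sq (hK : PvqmRepK) {W : Set ℂ} {F : Conf PvPt → ℝ} (hW : PvqmWin W) (hF : PvqmBd F) {t : ℝ} (ht : PvqmGrid t) :
    ∫ η, (pvqmY W F t (pvqmFs η)) ^ 2 ∂pppFin (pvqmIp W t) = pvqmM 2 W t (fun _ => F) := by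
  have a2 := (hK W hW t ht).2 2 (fun _ => F) (fun _ => hF)
  simp only [Fin.prod_univ_two] at a2
  rw [← a2]
  refine integral_congr_ae (ae_of_all _ fun η => ?_)
  show (pvqmY W F t (pvqmFs η)) ^ 2 = _
  ring

/-- `V(t)` = variance of the quenched mean given the positions of the `t`-part. -/
theorem pvqm_var (hK : PvqmRepK) {W : Set ℂ} {F : Conf PvPt → ℝ} (hW : PvqmWin W) (hF : PvqmBd F) {t : ℝ} (ht : PvqmGrid t) :
    ∫ η, (pvqmY W F t (pvqmFs η) - pvqmE W F) ^ 2 ∂pppFin (pvqmIp W t) = pvqmV W F t := by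
  have hP := pvqm_prob_Ip hW t
  have hL2 := pvqm_Y_memLp hK hW hF ht 2
  have hL1 : Integrable (fun η : Conf ℂ => pvqmY W F t (pvqmFs η)) (pppFin (pvqmIp W t)) :=
    (memLp_one_iff_integrable).1 (pvqm_Y_memLp hK hW hF ht 1)
  have hsqi : Integrable (fun η : Conf ℂ => (pvqmY W F t (pvqmFs η)) ^ 2) (pppFin (pvqmIp W t)) := hL2.integrable_sq
  have e : ∀ η : Conf ℂ, (pvqmY W F t (pvqmFs η) - pvqmE W F) ^ 2
      = (pvqmY W F t (pvqmFs η)) ^ 2 - (2 * pvqmE W F) * pvqmY W F t (pvqmFs η) + (pvqmE W F) ^ 2 := fun η => by ring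
  simp only [e]
  have hd : Integrable (fun η : Conf ℂ => (pvqmY W F t (pvqmFs η)) ^ 2 - (2 * pvqmE W F) * pvqmY W F t (pvqmFs η))
      (pppFin (pvqmIp W t)) := hsqi.sub (hL1.const_mul _)
  have i1 : ∫ η, ((pvqmY W F t (pvqmFs η)) ^ 2 - (2 * pvqmE W F) * pvqmY W F t (pvqmFs η) + (pvqmE W F) ^ 2) ∂pppFin (pvqmIp W t)
      = ∫ η, ((pvqmY W F t (pvqmFs η)) ^ 2 - (2 * pvqmE W F) * pvqmY W F t (pvqmFs η)) ∂pppFin (pvqmIp W t)
        + ∫ _η, (pvqmE W F) ^ 2 ∂pppFin (pvqmIp W t) := integral_add hd (integrable_const _)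
  have i2 : ∫ η, ((pvqmY W F t (pvqmFs η)) ^ 2 - (2 * pvqmE W F) * pvqmY W F t (pvqmFs η)) ∂pppFin (pvqmIp W t)
      = ∫ η, (pvqmY W F t (pvqmFs η)) ^ 2 ∂pppFin (pvqmIp W t)
        - ∫ η, (2 * pvqmE W F) * pvqmY W F t (pvqmFs η) ∂pppFin (pvqmIp W t) := integral_sub hsqi (hL1.const_mul _)
  rw [i1, i2, integral_const_mul, pvqm_int_Y hK hW hF ht, pvqm_int_Y_sq hK hW hF ht, pvqmV_eq]
  simp only [integral_const, probReal_univ, smul_eq_mul, one_mul]
  ring

/-- `V(t) ≥ 0`. -/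
theorem pvqm_V_nonneg (hK : PvqmRepK) {W : Set ℂ} {F : Conf PvPt → ℝ} (hW : PvqmWin W) (hF : PvqmBd F) {t : ℝ} (ht : PvqmGrid t) :
    0 ≤ pvqmV W F t := by
  rw [← pvqm_var hK hW hF ht]
  exact integral_nonneg fun η => sq_nonneg _

/-- Chebyshev for the quenched mean, at every grid time. -/
theorem pvqm_cheb_t (hK : PvqmRepK) {W : Set ℂ} {F : Conf PvPt → ℝ} (hW : PvqmWin W) (hF : PvqmBd F) {t : ℝ} (ht : PvqmGrid t)
    {c : ℝ} (hc : 0 < c) (hE : c ≤ pvqmE W F) :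
    pppFin (pvqmIp W t) {η | pvqmY W F t (pvqmFs η) < c / 2} ≤ ENNReal.ofReal (4 * pvqmV W F t / c ^ 2) := by
  have hP := pvqm_prob_Ip hW t
  have hL2 := pvqm_Y_memLp hK hW hF ht 2
  have hmean := pvqm_int_Y hK hW hF ht
  have hvar : Var[fun η : Conf ℂ => pvqmY W F t (pvqmFs η); pppFin (pvqmIp W t)] = pvqmV W F t := by
    rw [variance_eq_sub hL2, pvqmV_eq, ← pvqm_int_Y_sq hK hW hF ht, ← hmean]
    rfl
  have hch := meas_ge_le_variance_div_sq hL2 (c := c / 2) (by positivity)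
  refine (measure_mono fun η hη => ?_).trans (hch.trans (le_of_eq ?_))
  · have hη' : pvqmY W F t (pvqmFs η) < c / 2 := hη
    show c / 2 ≤ |pvqmY W F t (pvqmFs η) - ∫ x, pvqmY W F t (pvqmFs x) ∂pppFin (pvqmIp W t)|
    rw [hmean, abs_sub_comm]
    refine le_trans ?_ (le_abs_self _)
    linarith
  · rw [hvar]
    congr 1
    field_simp
    ring

end Claimed.Agent.R289
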