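import Claimed.Agent.R289.Rsw.Main
import Claimed.Agent.R289.Rsw.VerBlock
import Claimed.Agent.R289.Mesh.Net
import Claimed.Agent.R289.Fkg
import Claimed.Agent.R289.PppPv
import Claimed.Agent.R289.PppCnt
import Claimed.Agent.R289.Ppp.Ind
import Claimed.Agent.R289.Rsw.VerArm
import Claimed.Agent.R289.Qbx.Main
import Claimed.Agent.R289.Qbx.Lay

/-!
# Row 289 (S0537), box QBX, file Qbx/C0 : THE ANNEALED CONSTANT `c0` OF THE BLOCKING EVENT + THE GRID EVENTS      (owner helper167, head helper30; prefix `pvqc`)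

Design: box_agmt_144.md (A), rsw_259.md sec. 6 (`ad`: `What_i`, LOC, BLOCK), ruling of 30 (08:00Z).      `w` = centre, `u` = scale.
* `pvqcO w u = (-4u,4u)² \ (-u/4,u/4)²` (region READ by the blocking event), `pvqcN w u` the same in `PvPt`, `pvqcK w u = {u/2 ≤ ‖z - w‖_∞ ≤ 7u/2}` (region where the colours are LOCAL);
* `pvqcG w u` : GRID EVENT = 8 good mesh events of 127 (`pvmGood univ (u/8) · (3u/2)`): measurable, increasing, reads `pvqcN w u` only, gives the `u/8`-net of `pvqcK w u`, `μ (bad) ≤ 8 · 53² exp (-u²/(512 ε²))`;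
* `pvqc_loc` (site sets), `pvqc_loc_conf`, `pvqc_holds_loc` : **LOC**: on the grid event the black / white regions of `η` and of `η ∩ N` coincide on `pvqcK w u`;      `pvqc_arm_loc` : an arm of `η` is an arm of `η ∩ N`;
* `PvqcBlk w u ζ` : **THE BLOCKING EVENT** `f_u` = no black path of the tessellation of `ζ` from the box of radius `u/2` to the boundary of the box of radius `5u/2`;      it is used at `ζ = η ∩ N` (local BY DEFINITION);
* `pvqcHat w u` = `What` : `η ∩ N` has the white `#` pattern and the grid event;      `pvqc_hat_blk` : `What` + LF + GP ⟹ blocking (BLOCK of 54);      `pvqc_hat_prob` : `c⁴ - 8 · 53² exp (-u²/512) ≤ P(What)` (RSW + FKG + flip + LOC);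
* `pvqc_small` : no black point in `N` ⟹ blocking, probability `≥ exp (-32 u²)`;
* **`pvqc_c0`** : `∃ q > 0, ∀ w u, 0 < u → q ≤ P(f_u(η ∩ N_u(w)))` (ALL scales, all centres);      `pvqc_grid_union` : union bound for a finite family of grid events;
* sec. 7 : **`pvqcF w u`** THE OBSERVABLE (indicator of "`η ∩ N` locally finite and blocked"): measurable, read from `N` (`pvqc_F_reads`), monotone;      CONTRACTS: `pvqc_test : PvqmTest`, `pvqc_win : PvqmWin`, `pvqc_C0 : PvqmC0` (Qbx/Main, 277), `pvqc_obs : PvqlObs` (Qbx/Lay, 248);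
  `pvqc_law` : the process of the window = restriction of the full plane process;      `pvqc_c0_main` : unconditional (`pvr_model` of 262, `pvr_gp_ae` of 120).
-/

set_option autoImplicit false

namespace Claimed.Agent.R289

open MeasureTheory ProbabilityTheory Set Filter Topology
open scoped ENNReal NNReal

/-! ## 1. LOC on site sets -/

/-- **LOC** (monotone form of the regions): if `z` has a site at distance `< ρ` and every point off `O` is at distance `≥ ρ`, then the colour of `z` is read in `O` -/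
theorem pvqc_loc {A B O : Set ℂ} {z : ℂ} {ρ : ℝ} (hnet : ∃ p ∈ A ∪ B, ‖z - p‖ < ρ) (hfar : ∀ w, w ∉ O → ρ ≤ ‖z - w‖) :
    z ∈ pvrbM A B ↔ z ∈ pvrbM (A ∩ O) (B ∩ O) := by
  obtain ⟨p, hpAB, hp⟩ := hnet
  have hpO : p ∈ O := by
    by_contra h
    linarith [hfar p h]
  constructor
  · rintro ⟨a, ha, h⟩
    by_cases haO : a ∈ O
    · exact ⟨a, ⟨ha, haO⟩, fun b hb => h b hb.1⟩
    · have h1 := hfar a haO
      rcases hpAB with hpA | hpB
      · exact ⟨p, ⟨hpA, hpO⟩, fun b hb => by linarith [h b hb.1]⟩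
      · exact absurd (h p hpB) (by linarith)
  · rintro ⟨a, ⟨ha, _⟩, h⟩
    rcases hpAB with hpA | hpB
    · rcases le_total ‖z - a‖ ‖z - p‖ with hle | hle
      · refine ⟨a, ha, fun b hb => ?_⟩
        by_cases hbO : b ∈ O
        · exact h b ⟨hb, hbO⟩
        · linarith [hfar b hbO]
      · refine ⟨p, hpA, fun b hb => ?_⟩
        by_cases hbO : b ∈ O
        · exact hle.trans (h b ⟨hb, hbO⟩)
        · linarith [hfar b hbO]
    · refine ⟨a, ha, fun b hb => ?_⟩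
      by_cases hbO : b ∈ O
      · exact h b ⟨hb, hbO⟩
      · linarith [hfar b hbO, h p ⟨hpB, hpO⟩]

/-- a pattern only sees the region inside its window -/
theorem pvqc_holds_congr {e : RswTri} {B B' : Set ℂ} (h : ∀ z ∈ e.K, (z ∈ B ↔ z ∈ B')) : e.Holds B ↔ e.Holds B' := by
  have : B ∩ e.K = B' ∩ e.K := by
    ext z
    constructor
    · rintro ⟨h1, h2⟩; exact ⟨(h z h2).1 h1, h2⟩
    · rintro ⟨h1, h2⟩; exact ⟨(h z h2).2 h1, h2⟩
  unfold RswTri.Holds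
  rw [this]

/-! ## 2. the regions -/

/-- the region READ at scale `u` round `w` : `(-4u,4u)² \ (-u/4,u/4)²` (disjoint at the scale ratio 16) -/
def pvqcO (w : ℂ) (u : ℝ) : Set ℂ :=
  {z | (|z.re - w.re| < 4 * u ∧ |z.im - w.im| < 4 * u) ∧ ¬ (|z.re - w.re| < u / 4 ∧ |z.im - w.im| < u / 4)}

/-- the same region in the space of the coloured points -/
def pvqcN (w : ℂ) (u : ℝ) : Set PvPt := {p | p.1 ∈ pvqcO w u}

/-- the region where the colours are local : `u/2 ≤ ‖z - w‖_∞ ≤ 7u/2` -/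
def pvqcK (w : ℂ) (u : ℝ) : Set ℂ := {z | z ∈ pvmSq w (7 * u / 2) ∧ ¬ (|z.re - w.re| < u / 2 ∧ |z.im - w.im| < u / 2)}

/-- the 8 directions -/
noncomputable def pvqcCt : Finset (ℤ × ℤ) := ((Finset.Icc (-1 : ℤ) 1) ×ˢ (Finset.Icc (-1 : ℤ) 1)).erase (0, 0)

/-- the 8 centres -/
def pvqcC (w : ℂ) (u : ℝ) (k : ℤ × ℤ) : ℂ := ⟨w.re + 2 * u * (k.1 : ℝ), w.im + 2 * u * (k.2 : ℝ)⟩

/-- **the grid event** at scale `u` round `w` -/
def pvqcG (w : ℂ) (u : ℝ) : Set (Conf PvPt) := ⋂ k ∈ pvqcCt, pvmGood univ (u / 8) (pvqcC w u k) (3 * u / 2)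

theorem pvqc_defs_eqns_cite : True := by
  have := @pvqcO.eq_1
  have := @pvqcN.eq_1
  have := @pvqcK.eq_1
  have := @pvqcCt.eq_1
  have := @pvqcC.eq_1
  have := @pvqcG.eq_1
  trivial

theorem pvqc_O_meas (w : ℂ) (u : ℝ) : MeasurableSet (pvqcO w u) := by
  have hre : Measurable fun z : ℂ => |z.re - w.re| := (Complex.measurable_re.sub_const _).abs
  have him : Measurable fun z : ℂ => |z.im - w.im| := (Complex.measurable_im.sub_const _).abs
  have h1 : MeasurableSet {z : ℂ | |z.re - w.re| < 4 * u ∧ |z.im - w.im| < 4 * u} :=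
    (measurableSet_lt hre measurable_const).inter (measurableSet_lt him measurable_const)
  have h2 : MeasurableSet {z : ℂ | |z.re - w.re| < u / 4 ∧ |z.im - w.im| < u / 4} :=
    (measurableSet_lt hre measurable_const).inter (measurableSet_lt him measurable_const)
  exact h1.inter h2.compl

theorem pvqc_N_meas (w : ℂ) (u : ℝ) : MeasurableSet (pvqcN w u) := measurable_fst (pvqc_O_meas w u)

theorem pvqc_mem_Ct {k : ℤ × ℤ} : k ∈ pvqcCt ↔ k ≠ (0, 0) ∧ (-1 ≤ k.1 ∧ k.1 ≤ 1) ∧ (-1 ≤ k.2 ∧ k.2 ≤ 1) := by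
  simp only [pvqcCt, Finset.mem_erase, Finset.mem_product, Finset.mem_Icc]

theorem pvqc_Ct_card : pvqcCt.card = 8 := by decide

theorem pvqc_G_meas (w : ℂ) (u : ℝ) : MeasurableSet (pvqcG w u) :=
  Finset.measurableSet_biInter _ fun _ _ => pvm_good_meas _ _ _ _

theorem pvqc_G_mono {w : ℂ} {u : ℝ} {η η' : Conf PvPt} (hη : η.pts ⊆ η'.pts) (h : η ∈ pvqcG w u) : η' ∈ pvqcG w u := by
  simp only [pvqcG, mem_iInter] at h ⊢
  exact fun k hk => pvm_good_mono hη (h k hk)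

/-- an integer in `[-1,1]` -/
theorem pvqc_int_cases {a : ℤ} (h1 : -1 ≤ a) (h2 : a ≤ 1) : a = -1 ∨ a = 0 ∨ a = 1 := by omega

/-- the 8 enlarged squares lie in the region which is read -/
theorem pvqc_sq_sub_O {w : ℂ} {u : ℝ} (hu : 0 < u) {k : ℤ × ℤ} (hk : k ∈ pvqcCt) : pvmSq (pvqcC w u k) (3 * u / 2 + 2 * (u / 8)) ⊆ pvqcO w u := by
  obtain ⟨h0, ⟨a1, a2⟩, b1, b2⟩ := pvqc_mem_Ct.1 hk
  obtain ⟨k1, k2⟩ := k
  intro z hz
  obtain ⟨hz1, hz2⟩ := hz
  simp only [pvqcC] at hz1 hz2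
  rw [abs_le] at hz1 hz2
  have c1 : ((-1 : ℤ) : ℝ) ≤ (k1 : ℝ) := by exact_mod_cast a1
  have c2 : (k1 : ℝ) ≤ ((1 : ℤ) : ℝ) := by exact_mod_cast a2
  have d1 : ((-1 : ℤ) : ℝ) ≤ (k2 : ℝ) := by exact_mod_cast b1
  have d2 : (k2 : ℝ) ≤ ((1 : ℤ) : ℝ) := by exact_mod_cast b2
  push_cast at c1 c2 d1 d2
  refine ⟨⟨abs_lt.2 ⟨by nlinarith, by nlinarith⟩, abs_lt.2 ⟨by nlinarith, by nlinarith⟩⟩, ?_⟩
  rintro ⟨e1, e2⟩
  rw [abs_lt] at e1 e2
  rcases pvqc_int_cases a1 a2 with rfl | rfl | rfl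
  · push_cast at hz1; linarith [hz1.2, e1.1]
  · rcases pvqc_int_cases b1 b2 with rfl | rfl | rfl
    · push_cast at hz2; linarith [hz2.2, e2.1]
    · exact h0 rfl
    · push_cast at hz2; linarith [hz2.1, e2.2]
  · push_cast at hz1; linarith [hz1.1, e1.2]

/-- **the grid event is local**: it reads the points of `pvqcN w u` only -/
theorem pvqc_G_loc {w : ℂ} {u : ℝ} (hu : 0 < u) {η η' : Conf PvPt} (hη : ∀ p ∈ pvqcN w u, (p ∈ η.pts ↔ p ∈ η'.pts)) :
    η ∈ pvqcG w u ↔ η' ∈ pvqcG w u := by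
  simp only [pvqcG, mem_iInter]
  have key : ∀ k ∈ pvqcCt, (η ∈ pvmGood univ (u / 8) (pvqcC w u k) (3 * u / 2) ↔ η' ∈ pvmGood univ (u / 8) (pvqcC w u k) (3 * u / 2)) :=
    fun k hk => pvm_good_loc (by positivity) (by positivity) fun p hp => hη p (pvqc_sq_sub_O hu hk hp)
  exact ⟨fun h k hk => (key k hk).1 (h k hk), fun h k hk => (key k hk).2 (h k hk)⟩

theorem pvqc_G_restr {w : ℂ} {u : ℝ} (hu : 0 < u) (η : Conf PvPt) : Conf.restr (pvqcN w u) η ∈ pvqcG w u ↔ η ∈ pvqcG w u :=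
  pvqc_G_loc hu fun _ hp => ⟨fun h => h.1, fun h => ⟨h, hp⟩⟩

/-- **the grid event gives the net** of the region `pvqcK w u` -/
theorem pvqc_G_net {w : ℂ} {u : ℝ} (hu : 0 < u) {η : Conf PvPt} (h : η ∈ pvqcG w u) : PvNet (u / 8) (pvqcK w u) η := by
  simp only [pvqcG, mem_iInter] at h
  intro z hz
  obtain ⟨⟨hz1, hz2⟩, hz3⟩ := hz
  rw [abs_le] at hz1 hz2
  -- the direction of `z`
  have hdir : ∀ x : ℝ, -(7 * u / 2) ≤ x → x ≤ 7 * u / 2 → ∃ a : ℤ, -1 ≤ a ∧ a ≤ 1 ∧ |x - 2 * u * (a : ℝ)| ≤ 3 * u / 2 ∧ (a = 0 → |x| < u / 2) := by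
    intro x h1 h2
    rcases lt_or_ge x (-(u / 2)) with h3 | h3
    · exact ⟨-1, le_rfl, by norm_num, by rw [abs_le]; push_cast; constructor <;> linarith, fun h => by norm_num at h⟩
    · rcases lt_or_ge x (u / 2) with h4 | h4
      · rcases eq_or_lt_of_le h3 with h5 | h5
        · exact ⟨-1, le_rfl, by norm_num, by rw [abs_le]; push_cast; constructor <;> linarith, fun h => by norm_num at h⟩
        · exact ⟨0, by norm_num, by norm_num, by rw [abs_le]; push_cast; constructor <;> linarith, fun _ => abs_lt.2 ⟨h5, h4⟩⟩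
      · exact ⟨1, by norm_num, le_rfl, by rw [abs_le]; push_cast; constructor <;> linarith, fun h => by norm_num at h⟩
  obtain ⟨a, a1, a2, a3, a4⟩ := hdir _ hz1.1 hz1.2
  obtain ⟨b, b1, b2, b3, b4⟩ := hdir _ hz2.1 hz2.2
  have hk : (a, b) ∈ pvqcCt := by
    refine pvqc_mem_Ct.2 ⟨fun h0 => ?_, ⟨a1, a2⟩, b1, b2⟩
    have ha : a = 0 := congrArg Prod.fst h0
    have hb : b = 0 := congrArg Prod.snd h0
    exact hz3 ⟨a4 ha, b4 hb⟩
  have hzS : z ∈ pvmSq (pvqcC w u (a, b)) (3 * u / 2) := by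
    refine ⟨?_, ?_⟩
    · show |z.re - (w.re + 2 * u * (a : ℝ))| ≤ _
      rwa [← sub_sub]
    · show |z.im - (w.im + 2 * u * (b : ℝ))| ≤ _
      rwa [← sub_sub]
  obtain ⟨p, hp, -, hpz⟩ := pvm_good_net (by positivity) (h _ hk) z hzS
  exact ⟨p, hp, hpz⟩

/-- distance of the local region to the complement of the region which is read -/
theorem pvqc_K_far {w : ℂ} {u : ℝ} (hu : 0 < u) {z : ℂ} (hz : z ∈ pvqcK w u) {x : ℂ} (hx : x ∉ pvqcO w u) : u / 8 ≤ ‖z - x‖ := by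
  obtain ⟨⟨hz1, hz2⟩, hz3⟩ := hz
  have hre := Complex.abs_re_le_norm (z - x)
  have him := Complex.abs_im_le_norm (z - x)
  rw [Complex.sub_re] at hre
  rw [Complex.sub_im] at him
  by_contra hlt
  rw [not_le] at hlt
  have r1 := abs_lt.1 (lt_of_le_of_lt hre hlt)
  have r2 := abs_lt.1 (lt_of_le_of_lt him hlt)
  rw [abs_le] at hz1 hz2
  apply hx
  refine ⟨⟨abs_lt.2 ⟨by linarith [r1.1, r1.2], by linarith [r1.1, r1.2]⟩, abs_lt.2 ⟨by linarith [r2.1, r2.2], by linarith [r2.1, r2.2]⟩⟩, ?_⟩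
  rintro ⟨e1, e2⟩
  rw [abs_lt] at e1 e2
  exact hz3 ⟨abs_lt.2 ⟨by linarith [r1.1, r1.2], by linarith [r1.1, r1.2]⟩, abs_lt.2 ⟨by linarith [r2.1, r2.2], by linarith [r2.1, r2.2]⟩⟩

/-- the regions which are read are disjoint at the scale ratio 16 -/
theorem pvqc_O_disj (w : ℂ) {u u' : ℝ} (h : 16 * u ≤ u') : Disjoint (pvqcO w u) (pvqcO w u') := by
  rw [Set.disjoint_left]
  rintro z ⟨⟨h1, h2⟩, -⟩ ⟨-, h3⟩
  exact h3 ⟨by linarith, by linarith⟩

theorem pvqc_N_disj (w : ℂ) {u u' : ℝ} (h : 16 * u ≤ u') : Disjoint (pvqcN w u) (pvqcN w u') := by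
  rw [Set.disjoint_left]
  intro p hp hp'
  exact Set.disjoint_left.1 (pvqc_O_disj w h) hp hp'

/-- the region which is read lies in the box of radius `4u` -/
theorem pvqc_O_sub (w : ℂ) (u : ℝ) : pvqcO w u ⊆ pvmSq w (4 * u) := fun _ hz => ⟨hz.1.1.le, hz.1.2.le⟩

/-! ## 3. LOC for configurations -/

theorem pvqc_Bk_restr (O : Set ℂ) (η : Conf PvPt) : cfBk (Conf.restr {p : PvPt | p.1 ∈ O} η) = cfBk η ∩ O := rfl

theorem pvqc_Wh_restr (O : Set ℂ) (η : Conf PvPt) : cfWh (Conf.restr {p : PvPt | p.1 ∈ O} η) = cfWh η ∩ O := rfl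

theorem pvqc_net_site {ρ : ℝ} {K : Set ℂ} {η : Conf PvPt} (h : PvNet ρ K η) {z : ℂ} (hz : z ∈ K) : ∃ p ∈ cfBk η ∪ cfWh η, ‖z - p‖ < ρ := by
  obtain ⟨⟨v, c⟩, hp, hpz⟩ := h z hz
  refine ⟨v, ?_, by rw [norm_sub_rev]; exact hpz⟩
  cases c
  · exact Or.inr hp
  · exact Or.inl hp

/-- **LOC, black region**: on the grid event the black region of `η` is read in `pvqcN w u`, at the points of `pvqcK w u` -/
theorem pvqc_loc_B {w : ℂ} {u : ℝ} (hu : 0 < u) {η : Conf PvPt} (h : η ∈ pvqcG w u) {z : ℂ} (hz : z ∈ pvqcK w u) :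
    z ∈ pvrbM (cfBk η) (cfWh η) ↔ z ∈ pvrbM (cfBk (Conf.restr (pvqcN w u) η)) (cfWh (Conf.restr (pvqcN w u) η)) :=
  pvqc_loc (pvqc_net_site (pvqc_G_net hu h) hz) fun _ hx => pvqc_K_far hu hz hx

/-- **LOC, white region** -/
theorem pvqc_loc_W {w : ℂ} {u : ℝ} (hu : 0 < u) {η : Conf PvPt} (h : η ∈ pvqcG w u) {z : ℂ} (hz : z ∈ pvqcK w u) :
    z ∈ pvrbM (cfWh η) (cfBk η) ↔ z ∈ pvrbM (cfWh (Conf.restr (pvqcN w u) η)) (cfBk (Conf.restr (pvqcN w u) η)) :=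
  pvqc_loc (by rw [union_comm]; exact pvqc_net_site (pvqc_G_net hu h) hz) fun _ hx => pvqc_K_far hu hz hx

/-- **LOC for patterns** whose window lies in the local region -/
theorem pvqc_holds_B {w : ℂ} {u : ℝ} (hu : 0 < u) {η : Conf PvPt} (h : η ∈ pvqcG w u) {e : RswTri} (he : e.K ⊆ pvqcK w u) :
    e.Holds (pvrbM (cfBk η) (cfWh η)) ↔ e.Holds (pvrbM (cfBk (Conf.restr (pvqcN w u) η)) (cfWh (Conf.restr (pvqcN w u) η))) :=
  pvqc_holds_congr fun _ hz => pvqc_loc_B hu h (he hz)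

theorem pvqc_holds_W {w : ℂ} {u : ℝ} (hu : 0 < u) {η : Conf PvPt} (h : η ∈ pvqcG w u) {e : RswTri} (he : e.K ⊆ pvqcK w u) :
    e.Holds (pvrbM (cfWh η) (cfBk η)) ↔ e.Holds (pvrbM (cfWh (Conf.restr (pvqcN w u) η)) (cfBk (Conf.restr (pvqcN w u) η))) :=
  pvqc_holds_congr fun _ hz => pvqc_loc_W hu h (he hz)

/-! ## 4. the blocking event -/

/-- **THE BLOCKING EVENT** `f_u` : no black path of the tessellation of `ζ` from the box of radius `u/2` to the boundary of the box of radius `5u/2` (inside this box) -/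
def PvqcBlk (w : ℂ) (u : ℝ) (ζ : Conf PvPt) : Prop := ¬ (rswArm w.re w.im (u / 2) (5 * u / 2)).Holds (pvrbM (cfBk ζ) (cfWh ζ))

/-- the `#` pattern at scale `u` round `w` -/
def pvqcL (w : ℂ) (u : ℝ) : List RswTri :=
  [rswLR (w.re - 3 * u) (w.re + 3 * u) (w.im + u) (w.im + 2 * u), rswLR (w.re - 3 * u) (w.re + 3 * u) (w.im - 2 * u) (w.im - u),
   rswTB (w.re - 2 * u) (w.re - u) (w.im - 3 * u) (w.im + 3 * u), rswTB (w.re + u) (w.re + 2 * u) (w.im - 3 * u) (w.im + 3 * u)]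

/-- `What` : the configuration `η ∩ N` has the white `#` pattern and the grid event -/
def pvqcHat (w : ℂ) (u : ℝ) : Set (Conf PvPt) :=
  {η | (∀ e ∈ pvqcL w u, e.Holds (pvrbM (cfWh (Conf.restr (pvqcN w u) η)) (cfBk (Conf.restr (pvqcN w u) η)))) ∧ η ∈ pvqcG w u}

theorem pvqc_defs_eqns_cite2 : True := by
  have := @PvqcBlk.eq_1
  have := @pvqcL.eq_1
  have := @pvqcHat.eq_1
  trivial

theorem pvqc_L_nice (w : ℂ) (u : ℝ) : ∀ e ∈ pvqcL w u, e.Nice := by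
  intro e he
  simp only [pvqcL, List.mem_cons, List.not_mem_nil, or_false] at he
  rcases he with rfl | rfl | rfl | rfl
  · exact rsw_nice_LR _ _ _ _
  · exact rsw_nice_LR _ _ _ _
  · exact rsw_nice_TB _ _ _ _
  · exact rsw_nice_TB _ _ _ _

/-- the windows of the `#` pattern lie in the local region -/
theorem pvqc_L_sub {w : ℂ} {u : ℝ} (hu : 0 < u) : ∀ e ∈ pvqcL w u, e.K ⊆ pvqcK w u := by
  intro e he
  simp only [pvqcL, List.mem_cons, List.not_mem_nil, or_false] at he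
  rcases he with rfl | rfl | rfl | rfl
  all_goals
    rintro z ⟨h1, h2, h3, h4⟩
    refine ⟨⟨abs_le.2 ⟨by linarith, by linarith⟩, abs_le.2 ⟨by linarith, by linarith⟩⟩, ?_⟩
    rintro ⟨e1, e2⟩
    rw [abs_lt] at e1 e2
    linarith [e1.1, e1.2, e2.1, e2.2]

theorem pvqc_M_mono {A A' B B' : Set ℂ} (hA : A ⊆ A') (hB : B' ⊆ B) : pvrbM A B ⊆ pvrbM A' B' := by
  rintro z ⟨a, ha, h⟩
  exact ⟨a, hA ha, fun b hb => h b (hB hb)⟩

theorem pvqc_le_restr {η η' : Conf PvPt} (h : PvLe η η') (N : Set PvPt) : PvLe (Conf.restr N η) (Conf.restr N η') :=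
  ⟨fun _ hv => ⟨h.1 hv.1, hv.2⟩, fun _ hv => ⟨h.2 hv.1, hv.2⟩⟩

/-- **(G1) monotonicity**: the blocking event is DECREASING (more black points, fewer white points: harder to block); no local finiteness is needed -/
theorem pvqc_blk_anti {w : ℂ} {u : ℝ} {ζ ζ' : Conf PvPt} (h : PvLe ζ ζ') (hb : PvqcBlk w u ζ') : PvqcBlk w u ζ :=
  fun ha => hb (rsw_det_mono (pvqc_M_mono h.1 h.2) subset_rfl subset_rfl subset_rfl ha)

theorem pvqc_blk_anti_restr {w : ℂ} {u : ℝ} {η η' : Conf PvPt} (h : PvLe η η') (hb : PvqcBlk w u (Conf.restr (pvqcN w u) η')) :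
    PvqcBlk w u (Conf.restr (pvqcN w u) η) := pvqc_blk_anti (pvqc_le_restr h _) hb

/-- the blocking event at `η ∩ N` reads `η ∩ N` only -/
theorem pvqc_blk_local {w : ℂ} {u : ℝ} {η η' : Conf PvPt} (hη : ∀ p ∈ pvqcN w u, (p ∈ η.pts ↔ p ∈ η'.pts)) :
    PvqcBlk w u (Conf.restr (pvqcN w u) η) ↔ PvqcBlk w u (Conf.restr (pvqcN w u) η') := by
  have : Conf.restr (pvqcN w u) η = Conf.restr (pvqcN w u) η' := by
    ext p
    exact ⟨fun h => ⟨(hη p h.2).1 h.1, h.2⟩, fun h => ⟨(hη p h.2).2 h.1, h.2⟩⟩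
  rw [this]

theorem VorGP.pvqc_mono {Y Y' : Set ℂ} (h : VorGP Y) (hs : Y' ⊆ Y) : VorGP Y' :=
  ⟨fun a ha b hb c hc => h.col a (hs ha) b (hs hb) c (hs hc), fun a ha b hb c hc d hd => h.cir a (hs ha) b (hs hb) c (hs hc) d (hs hd)⟩

/-- **BLOCK**: `What` + local finiteness + general position ⟹ the blocking event of `η ∩ N` -/
theorem pvqc_hat_blk {w : ℂ} {u : ℝ} (hu : 0 < u) {η : Conf PvPt} (hLF : VorLF (cfSites η)) (hGP : VorGP (cfSites η))
    (hcol : ∀ v, ¬ ((v, true) ∈ η.pts ∧ (v, false) ∈ η.pts)) (h : η ∈ pvqcHat w u) : PvqcBlk w u (Conf.restr (pvqcN w u) η) := by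
  obtain ⟨hH, -⟩ := h
  set ζ := Conf.restr (pvqcN w u) η with hζ
  have hsub : cfWh ζ ∪ cfBk ζ ⊆ cfSites η := by
    rintro v (hv | hv)
    · exact ⟨(v, false), hv.1, rfl⟩
    · exact ⟨(v, true), hv.1, rfl⟩
  have hAB : Disjoint (cfWh ζ) (cfBk ζ) := by
    rw [Set.disjoint_left]
    intro v h1 h2
    exact hcol v ⟨h2.1, h1.1⟩
  rintro ⟨x, hx, y, ⟨-, hy⟩, hj⟩
  refine pvrb_hash (hLF.mono hsub) (hGP.pvqc_mono hsub) hAB hu (hH _ (by simp [pvqcL])) (hH _ (by simp [pvqcL])) (hH _ (by simp [pvqcL]))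
    (hH _ (by simp [pvqcL])) hx ?_ (hj.mono inter_subset_left)
  rintro ⟨h1, h2, h3, h4⟩
  rcases hy with hy | hy | hy | hy <;> linarith

/-- **an arm of `η` is an arm of `η ∩ N`** on the grid event (for the exploration: revealed far from the separating set ⟹ `f = 0`) -/
theorem pvqc_arm_loc {w : ℂ} {u : ℝ} (hu : 0 < u) {η : Conf PvPt} (h : η ∈ pvqcG w u)
    (ha : (rswArm w.re w.im (u / 2) (5 * u / 2)).Holds (pvrbM (cfBk η) (cfWh η))) : ¬ PvqcBlk w u (Conf.restr (pvqcN w u) η) := by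
  intro hb
  apply hb
  obtain ⟨x, hx, y, hy, hj⟩ := ha
  obtain ⟨γ, hγ⟩ := hj.symm
  have hScl : IsClosed (rswRect (w.re - u / 2) (w.re + u / 2) (w.im - u / 2) (w.im + u / 2)) := rsw_rect_closed _ _ _ _
  obtain ⟨t, ht, hlt⟩ := rsw_first_time γ hScl hx
  -- the complement of the open inner box
  set R : Set ℂ := {z | ¬ (|z.re - w.re| < u / 2 ∧ |z.im - w.im| < u / 2)} with hR
  have hRcl : IsClosed R := by
    have hop : IsOpen {z : ℂ | |z.re - w.re| < u / 2 ∧ |z.im - w.im| < u / 2} :=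
      (isOpen_lt ((Complex.continuous_re.sub continuous_const).abs) continuous_const).inter
        (isOpen_lt ((Complex.continuous_im.sub continuous_const).abs) continuous_const)
    exact hop.isClosed_compl
  have hout : ∀ z : ℂ, z ∉ rswRect (w.re - u / 2) (w.re + u / 2) (w.im - u / 2) (w.im + u / 2) → z ∈ R := by
    rintro z hz ⟨e1, e2⟩
    rw [abs_lt] at e1 e2
    exact hz ⟨by linarith [e1.1], by linarith [e1.2], by linarith [e2.1], by linarith [e2.2]⟩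
  have hyR : y ∈ R := by
    rintro ⟨e1, e2⟩
    rw [abs_lt] at e1 e2
    rcases hy.2 with h' | h' | h' | h' <;> linarith [e1.1, e1.2, e2.1, e2.2]
  have htR : γ t ∈ R := rsw_closed_limit γ hRcl hyR t fun s hs => hout _ (hlt s hs)
  have hall : ∀ s : unitInterval, s ≤ t → γ s ∈ pvrbM (cfBk (Conf.restr (pvqcN w u) η)) (cfWh (Conf.restr (pvqcN w u) η))
      ∩ (rswArm w.re w.im (u / 2) (5 * u / 2)).K := by
    intro s hs
    have hsR : γ s ∈ R := by
      rcases eq_or_lt_of_le hs with rfl | hs'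
      · exact htR
      · exact hout _ (hlt s hs')
    obtain ⟨h1, h2⟩ := hγ s
    have hK : γ s ∈ pvqcK w u := by
      obtain ⟨k1, k2, k3, k4⟩ := h2
      exact ⟨⟨abs_le.2 ⟨by linarith, by linarith⟩, abs_le.2 ⟨by linarith, by linarith⟩⟩, hsR⟩
    exact ⟨(pvqc_loc_B hu h hK).1 h1, h2⟩
  exact ⟨γ t, ht, y, hy, (rsw_joined_init γ t hall).symm⟩

/-! ## 5. colour switching -/

theorem pvqc_flip_flip (η : Conf PvPt) : cfFlip (cfFlip η) = η := by
  ext p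
  simp only [cfFlip, Conf.image, mem_image]
  constructor
  · rintro ⟨q, ⟨r, hr, rfl⟩, rfl⟩
    obtain ⟨v, c⟩ := r
    simpa using hr
  · intro hp
    obtain ⟨v, c⟩ := p
    exact ⟨(v, !c), ⟨(v, c), hp, rfl⟩, by simp⟩

/-- colour switching as a measurable equivalence -/
def pvqcFlipE : Conf PvPt ≃ᵐ Conf PvPt where
  toFun := cfFlip
  invFun := cfFlip
  left_inv := pvqc_flip_flip
  right_inv := pvqc_flip_flip
  measurable_toFun := measurable_cfFlip
  measurable_invFun := measurable_cfFlip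

/-- colour switching preserves the probability of EVERY set (no measurability) -/
theorem pvqc_flip_measure (ε : ℝ) (A : Set (Conf PvPt)) : pvP ε (cfFlip ⁻¹' A) = pvP ε A := by
  conv_rhs => rw [← pvP_flip ε]
  exact (pvqcFlipE.map_apply A).symm

theorem pvqc_Bk_flip (η : Conf PvPt) : cfBk (cfFlip η) = cfWh η := by
  ext v
  simp only [cfBk, cfWh, cfFlip, Conf.image, mem_image, mem_ofPred_eq]
  constructor
  · rintro ⟨⟨x, c⟩, hr, he⟩
    simp only [Prod.map_apply, id_eq, Prod.mk.injEq] at he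
    obtain ⟨rfl, he⟩ := he
    cases c
    · exact hr
    · simp at he
  · intro h
    exact ⟨(v, false), h, rfl⟩

theorem pvqc_Wh_flip (η : Conf PvPt) : cfWh (cfFlip η) = cfBk η := by
  rw [← pvqc_Bk_flip (cfFlip η), pvqc_flip_flip]

/-! ## 6. probabilities -/

/-- **probability of the grid event** (void probabilities, 127) -/
theorem pvqc_G_prob {ε u : ℝ} (hu : 0 < u) {μ : Measure (Conf PvPt)} (h : IsPpp (pvInt ε) μ) (w : ℂ) :
    μ (pvqcG w u)ᶜ ≤ ENNReal.ofReal (8 * 53 ^ 2 * Real.exp (-(u ^ 2 / (512 * ε ^ 2)))) := by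
  have e : (pvqcG w u)ᶜ = ⋃ k ∈ pvqcCt, (pvmGood univ (u / 8) (pvqcC w u k) (3 * u / 2))ᶜ := by
    simp only [pvqcG, compl_iInter]
  rw [e]
  have hb : ∀ k ∈ pvqcCt, μ (pvmGood univ (u / 8) (pvqcC w u k) (3 * u / 2))ᶜ ≤ ENNReal.ofReal (53 ^ 2 * Real.exp (-(u ^ 2 / (512 * ε ^ 2)))) := by
    intro k _
    refine (pvm_good_prob (by positivity) (by positivity) h univ_nonempty _).trans (le_of_eq ?_)
    have e1 : 4 * (3 * u / 2) / (u / 8) + 5 = 53 := by field_simp; ring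
    have e2 : (u / 8) ^ 2 / (8 * ε ^ 2) = u ^ 2 / (512 * ε ^ 2) := by rw [div_pow, div_div]; congr 1; ring
    rw [e1, e2]
  refine (measure_biUnion_finset_le _ _).trans ((Finset.sum_le_sum hb).trans (le_of_eq ?_))
  rw [Finset.sum_const, pvqc_Ct_card, nsmul_eq_mul, mul_assoc (8 : ℝ), ENNReal.ofReal_mul (by norm_num : (0 : ℝ) ≤ 8)]
  congr 1
  simp

/-- **union bound for a finite family of grid events** of scales `≥ r` -/
theorem pvqc_grid_union {ε r : ℝ} (hr : 0 < r) {μ : Measure (Conf PvPt)} (h : IsPpp (pvInt ε) μ) {ι : Type*} (I : Finset ι) (w : ι → ℂ) (u : ι → ℝ)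
    (hu : ∀ i ∈ I, r ≤ u i) : μ (⋂ i ∈ I, pvqcG (w i) (u i))ᶜ ≤ ENNReal.ofReal (I.card * (8 * 53 ^ 2 * Real.exp (-(r ^ 2 / (512 * ε ^ 2))))) := by
  have e : (⋂ i ∈ I, pvqcG (w i) (u i))ᶜ = ⋃ i ∈ I, (pvqcG (w i) (u i))ᶜ := by simp only [compl_iInter]
  rw [e]
  have hb : ∀ i ∈ I, μ (pvqcG (w i) (u i))ᶜ ≤ ENNReal.ofReal (8 * 53 ^ 2 * Real.exp (-(r ^ 2 / (512 * ε ^ 2)))) := by
    intro i hi
    refine (pvqc_G_prob (hr.trans_le (hu i hi)) h (w i)).trans (ENNReal.ofReal_le_ofReal ?_)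
    refine mul_le_mul_of_nonneg_left (Real.exp_le_exp.2 (neg_le_neg ?_)) (by norm_num)
    exact div_le_div_of_nonneg_right (pow_le_pow_left₀ hr.le (hu i hi) 2) (by positivity)
  refine (measure_biUnion_finset_le _ _).trans ((Finset.sum_le_sum hb).trans (le_of_eq ?_))
  rw [Finset.sum_const, nsmul_eq_mul, ENNReal.ofReal_mul (Nat.cast_nonneg _), ENNReal.ofReal_natCast]

/-- the `#` pattern in an abstract RSW model: FKG + the crossings of aspect ratio 6 -/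
theorem pvqc_hash_model {Ω : Type} {P : Set Ω → ℝ} {Bk : Ω → Set ℂ} {c0 c : ℝ} (M : RswModel P Bk c0) (hc : ∀ s : ℝ, 0 < s → c ≤ rswF P Bk s 6)
    (hc0 : 0 ≤ c) (w : ℂ) {u : ℝ} (hu : 0 < u) : c ^ 4 ≤ P {ω | ∀ e ∈ pvqcL w u, e.Holds (Bk ω)} := by
  refine le_trans ?_ (M.fkg (pvqcL w u) (pvqc_L_nice w u))
  have hF := hc u hu
  have e1 := M.p_LR_F (x0 := w.re - 3 * u) (x1 := w.re + 3 * u) (y0 := w.im + u) (y1 := w.im + 2 * u) (s := u) (ρ := 6) (by ring) (by ring)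
  have e2 := M.p_LR_F (x0 := w.re - 3 * u) (x1 := w.re + 3 * u) (y0 := w.im - 2 * u) (y1 := w.im - u) (s := u) (ρ := 6) (by ring) (by ring)
  have e3 := M.p_TB_F (x0 := w.re - 2 * u) (x1 := w.re - u) (y0 := w.im - 3 * u) (y1 := w.im + 3 * u) (s := u) (ρ := 6) (by ring) (by ring)
  have e4 := M.p_TB_F (x0 := w.re + u) (x1 := w.re + 2 * u) (y0 := w.im - 3 * u) (y1 := w.im + 3 * u) (s := u) (ρ := 6) (by ring) (by ring)
  simp only [pvqcL, List.map_cons, List.map_nil, List.prod_cons, List.prod_nil, mul_one]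
  rw [e1, e2, e3, e4]
  have hF0 : 0 ≤ rswF P Bk u 6 := hc0.trans hF
  calc c ^ 4 = c * (c * (c * c)) := by ring
    _ ≤ _ := by gcongr

/-- **probability of `What`** : RSW + FKG (black `#`), colour switching, LOC, void bound -/
theorem pvqc_hat_prob {c4 : ℝ} {w : ℂ} {u : ℝ} (hu : 0 < u)
    (hb : c4 ≤ (pvP 1 {η | ∀ e ∈ pvqcL w u, e.Holds (pvrbM (cfBk η) (cfWh η))}).toReal) :
    c4 - 8 * 53 ^ 2 * Real.exp (-(u ^ 2 / 512)) ≤ (pvP 1 (pvqcHat w u)).toReal := by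
  have e : {η : Conf PvPt | ∀ e ∈ pvqcL w u, e.Holds (pvrbM (cfWh η) (cfBk η))}
      = cfFlip ⁻¹' {η | ∀ e ∈ pvqcL w u, e.Holds (pvrbM (cfBk η) (cfWh η))} := by
    ext η
    simp only [mem_preimage, mem_ofPred_eq, pvqc_Bk_flip, pvqc_Wh_flip]
  have hsub : {η : Conf PvPt | ∀ e ∈ pvqcL w u, e.Holds (pvrbM (cfWh η) (cfBk η))} ⊆ pvqcHat w u ∪ (pvqcG w u)ᶜ := by
    intro η hη
    by_cases hG : η ∈ pvqcG w u
    · exact Or.inl ⟨fun e he => (pvqc_holds_W hu hG (pvqc_L_sub hu e he)).1 (hη e he), hG⟩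
    · exact Or.inr hG
  have h1 : pvP 1 {η | ∀ e ∈ pvqcL w u, e.Holds (pvrbM (cfBk η) (cfWh η))} ≤ pvP 1 (pvqcHat w u) + pvP 1 (pvqcG w u)ᶜ := by
    rw [← pvqc_flip_measure 1, ← e]
    exact (measure_mono hsub).trans (measure_union_le _ _)
  have h2 := ENNReal.toReal_mono (by finiteness) h1
  rw [ENNReal.toReal_add (by finiteness) (by finiteness)] at h2
  have h3 := ENNReal.toReal_mono ENNReal.ofReal_ne_top (pvqc_G_prob hu (pv_isPpp 1) w)
  rw [ENNReal.toReal_ofReal (by positivity), one_pow, mul_one] at h3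
  linarith

/-- no black point in `N` : nothing to block -/
theorem pvqc_small {w : ℂ} {u : ℝ} {η : Conf PvPt} (h : η ∈ Conf.void (pvqcN w u ∩ pvBlk)) : PvqcBlk w u (Conf.restr (pvqcN w u) η) := by
  rintro ⟨x, -, y, -, hj⟩
  obtain ⟨a, ha, -⟩ := hj.source_mem.1
  exact Conf.mem_void.1 h (a, true) ha.1 ⟨ha.2, rfl⟩

theorem pvqc_small_prob {ε u : ℝ} (hu : 0 ≤ u) {μ : Measure (Conf PvPt)} (h : IsPpp (pvInt ε) μ) (w : ℂ) :
    ENNReal.ofReal (Real.exp (-((ε⁻¹) ^ 2 * (32 * u ^ 2)))) ≤ μ (Conf.void (pvqcN w u ∩ pvBlk)) := by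
  rw [h.void _ ((pvqc_N_meas w u).inter measurableSet_pvBlk), ← pvm_expNeg_ofReal (by positivity)]
  refine pvm_expNeg_anti ?_
  have hsub : pvqcN w u ∩ pvBlk ⊆ pvmR (w.re - 4 * u) (w.re + 4 * u) (w.im - 4 * u) (w.im + 4 * u) ×ˢ ({true} : Set Bool) := by
    rintro ⟨z, c⟩ ⟨⟨⟨h1, h2⟩, -⟩, hc⟩
    rw [abs_lt] at h1 h2
    exact ⟨⟨⟨by simp only; linarith [h1.1], by simp only; linarith [h1.2]⟩, ⟨by simp only; linarith [h2.1], by simp only; linarith [h2.2]⟩⟩, hc⟩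
  refine (measure_mono hsub).trans (le_of_eq ?_)
  rw [pvm_int_prod, pvm_R_vol, pvm_coin_single, ENNReal.ofReal_mul (by positivity)]
  congr 1
  have e2 : (2 : ℝ≥0∞)⁻¹ = ENNReal.ofReal (2⁻¹) := by
    rw [ENNReal.ofReal_inv_of_pos (by norm_num)]; simp
  rw [e2, ← ENNReal.ofReal_mul (by linarith), ← ENNReal.ofReal_mul (by nlinarith)]
  congr 1
  ring

/-- the a.s. properties of the sites which BLOCK needs (producers: 120 `Del/GenPos`, 256 `PppGp`, `pvcn_LF_ae`) -/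
def PvqcGen (μ : Measure (Conf PvPt)) : Prop :=
  ∀ᵐ η ∂μ, VorLF (cfSites η) ∧ VorGP (cfSites η) ∧ ∀ v, ¬ ((v, true) ∈ η.pts ∧ (v, false) ∈ η.pts)

theorem pvqc_defs_eqns_cite3 : True := by
  have := @PvqcGen.eq_1
  have := @pvqcFlipE.eq_1
  trivial

/-- `P(What) ≤ P(blocking)` -/
theorem pvqc_hat_le {μ : Measure (Conf PvPt)} (hgen : PvqcGen μ) (w : ℂ) {u : ℝ} (hu : 0 < u) :
    μ (pvqcHat w u) ≤ μ {η | PvqcBlk w u (Conf.restr (pvqcN w u) η)} := by
  refine measure_mono_ae ?_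
  filter_upwards [hgen] with η hη h
  exact pvqc_hat_blk hu hη.1 hη.2.1 hη.2.2 h

/-- **THE ANNEALED CONSTANT** `c0` of the blocking event: ALL scales `u > 0`, all centres -/
theorem pvqc_c0 {c0 : ℝ} (M : RswModel (fun A : Set (Conf PvPt) => (pvP 1 A).toReal) (fun η => pvrbM (cfBk η) (cfWh η)) c0) (hgen : PvqcGen (pvP 1)) :
    ∃ q : ℝ, 0 < q ∧ ∀ (w : ℂ) (u : ℝ), 0 < u → q ≤ (pvP 1 {η | PvqcBlk w u (Conf.restr (pvqcN w u) η)}).toReal := by
  obtain ⟨c, hc, hcs⟩ := rsw_main M 6 (by norm_num)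
  obtain ⟨U, hU⟩ : ∃ U : ℝ, U = 2 * (8 * 53 ^ 2) * 512 / c ^ 4 := ⟨_, rfl⟩
  have hU0 : 0 < U := by rw [hU]; positivity
  refine ⟨min (c ^ 4 / 2) (Real.exp (-(32 * U))), lt_min (by positivity) (Real.exp_pos _), fun w u hu => ?_⟩
  rcases le_or_gt U (u ^ 2) with h | h
  · -- large scales
    refine (min_le_left _ _).trans ?_
    have h1 := pvqc_hat_prob hu (pvqc_hash_model M hcs hc.le w hu)
    have h2 := ENNReal.toReal_mono (by finiteness) (pvqc_hat_le hgen w hu)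
    have hx : 0 < u ^ 2 / 512 := by positivity
    have h3 : Real.exp (-(u ^ 2 / 512)) ≤ 512 / u ^ 2 := by
      rw [Real.exp_neg, show 512 / u ^ 2 = (u ^ 2 / 512)⁻¹ by rw [inv_div]]
      exact inv_anti₀ hx (by linarith [Real.add_one_le_exp (u ^ 2 / 512)])
    have h4 : 8 * 53 ^ 2 * (512 / u ^ 2) ≤ c ^ 4 / 2 := by
      have hu2 : 0 < u ^ 2 := by positivity
      have hc4 : 0 < c ^ 4 := by positivity
      rw [hU, div_le_iff₀ hc4] at h
      rw [← mul_div_assoc, div_le_iff₀ hu2]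
      nlinarith
    have h5 : 8 * 53 ^ 2 * Real.exp (-(u ^ 2 / 512)) ≤ 8 * 53 ^ 2 * (512 / u ^ 2) := mul_le_mul_of_nonneg_left h3 (by norm_num)
    linarith
  · -- small scales
    refine (min_le_right _ _).trans ?_
    have h1 := (pvqc_small_prob hu.le (pv_isPpp 1) w).trans (measure_mono fun η hη => pvqc_small hη :
      pvP 1 (Conf.void (pvqcN w u ∩ pvBlk)) ≤ pvP 1 {η | PvqcBlk w u (Conf.restr (pvqcN w u) η)})
    have h2 := ENNReal.toReal_mono (by finiteness) h1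
    rw [ENNReal.toReal_ofReal (Real.exp_pos _).le] at h2
    refine le_trans (Real.exp_le_exp.2 ?_) h2
    simp only [inv_one, one_pow, one_mul]
    linarith

/-! ## 7. THE OBSERVABLE `F_u` and the contracts of Qbx/Main (277), Qbx/Lay (248) -/

theorem pvqc_LF_of_finite {ζ : Conf PvPt} (h : ζ.pts.Finite) : PvLF ζ := fun _ => h.subset inter_subset_left

theorem pvqc_LF_mono {ζ ζ' : Conf PvPt} (h : PvLF ζ') (hs : ζ.pts ⊆ ζ'.pts) : PvLF ζ := fun k => (h k).subset (inter_subset_inter_left _ hs)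

theorem pvqc_LF_ins {ζ : Conf PvPt} (h : PvLF ζ) (p : PvPt) : PvLF (Conf.ins p ζ) := fun k =>
  ((h k).insert p).subset (by
    rintro q ⟨hq, hk⟩
    rcases hq with rfl | hq
    · exact Or.inl rfl
    · exact Or.inr ⟨hq, hk⟩)

/-- the blocking event in the vocabulary of 262 -/
theorem pvqc_blk_iff (w : ℂ) (u : ℝ) (ζ : Conf PvPt) : PvqcBlk w u ζ ↔ ζ ∉ pvrEv (rswArm w.re w.im (u / 2) (5 * u / 2)) := Iff.rfl

/-- the set of the locally finite blocked configurations is MEASURABLE (238) -/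
theorem pvqc_blk_meas (w : ℂ) (u : ℝ) : MeasurableSet {ζ : Conf PvPt | PvLF ζ ∧ PvqcBlk w u ζ} := by
  have h1 := pvr_ev_meas (rsw_nice_Arm w.re w.im (u / 2) (5 * u / 2))
  have e : {ζ : Conf PvPt | PvLF ζ ∧ PvqcBlk w u ζ} = {η | PvLF η} \ (pvrEv (rswArm w.re w.im (u / 2) (5 * u / 2)) ∩ {η | PvLF η}) := by
    ext ζ
    simp only [mem_ofPred_eq, Set.mem_sdiff, mem_inter_iff, pvqc_blk_iff]
    tauto
  rw [e]
  exact pvcn_LF_meas.diff h1

/-- **THE OBSERVABLE** `F_u` (centre `w`): indicator of "`η ∩ N` is locally finite and blocked" -/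
noncomputable def pvqcF (w : ℂ) (u : ℝ) (η : Conf PvPt) : ℝ :=
  {ζ : Conf PvPt | PvLF ζ ∧ PvqcBlk w u ζ}.indicator (fun _ => (1 : ℝ)) (Conf.restr (pvqcN w u) η)

theorem pvqc_defs_eqns_cite4 : True := by
  have := @pvqcF.eq_1
  trivial

theorem pvqc_F_of {w : ℂ} {u : ℝ} {η : Conf PvPt} (h1 : PvLF (Conf.restr (pvqcN w u) η)) (h2 : PvqcBlk w u (Conf.restr (pvqcN w u) η)) :
    pvqcF w u η = 1 := indicator_of_mem (show Conf.restr (pvqcN w u) η ∈ {ζ : Conf PvPt | PvLF ζ ∧ PvqcBlk w u ζ} from ⟨h1, h2⟩) _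

theorem pvqc_F_of_not {w : ℂ} {u : ℝ} {η : Conf PvPt} (h : ¬ (PvLF (Conf.restr (pvqcN w u) η) ∧ PvqcBlk w u (Conf.restr (pvqcN w u) η))) :
    pvqcF w u η = 0 := indicator_of_notMem (show Conf.restr (pvqcN w u) η ∉ {ζ : Conf PvPt | PvLF ζ ∧ PvqcBlk w u ζ} from h) _

theorem pvqc_F_cases (w : ℂ) (u : ℝ) (η : Conf PvPt) :
    (pvqcF w u η = 1 ∧ PvLF (Conf.restr (pvqcN w u) η) ∧ PvqcBlk w u (Conf.restr (pvqcN w u) η)) ∨
      (pvqcF w u η = 0 ∧ ¬ (PvLF (Conf.restr (pvqcN w u) η) ∧ PvqcBlk w u (Conf.restr (pvqcN w u) η))) := by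
  by_cases h : PvLF (Conf.restr (pvqcN w u) η) ∧ PvqcBlk w u (Conf.restr (pvqcN w u) η)
  · exact Or.inl ⟨pvqc_F_of h.1 h.2, h⟩
  · exact Or.inr ⟨pvqc_F_of_not h, h⟩

theorem pvqc_F_nonneg (w : ℂ) (u : ℝ) (η : Conf PvPt) : 0 ≤ pvqcF w u η := by
  rcases pvqc_F_cases w u η with h | h <;> simp [h.1]

theorem pvqc_F_le_one (w : ℂ) (u : ℝ) (η : Conf PvPt) : pvqcF w u η ≤ 1 := by
  rcases pvqc_F_cases w u η with h | h <;> simp [h.1]

theorem pvqc_F_meas (w : ℂ) (u : ℝ) : Measurable (pvqcF w u) :=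
  (measurable_const.indicator (pvqc_blk_meas w u)).comp (Conf.measurable_restr (pvqc_N_meas w u))

theorem pvqc_restr_restr (N : Set PvPt) (η : Conf PvPt) : Conf.restr N (Conf.restr N η) = Conf.restr N η := by
  ext p
  exact ⟨fun h => h.1, fun h => ⟨h, h.2⟩⟩

/-- **`F_u` is read from `N`** (vocabulary of 256, `Ppp/Ind`) -/
theorem pvqc_F_reads (w : ℂ) (u : ℝ) : Conf.Reads (pvqcN w u) (pvqcF w u) := fun η => by
  unfold pvqcF
  rw [pvqc_restr_restr]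

/-- **monotonicity of `F_u`** -/
theorem pvqc_F_anti {w : ℂ} {u : ℝ} {η η' : Conf PvPt} (h : PvLe η η') (hLF : PvLF (Conf.restr (pvqcN w u) η') → PvLF (Conf.restr (pvqcN w u) η)) :
    pvqcF w u η' ≤ pvqcF w u η := by
  rcases pvqc_F_cases w u η' with h' | h'
  · rw [h'.1, pvqc_F_of (hLF h'.2.1) (pvqc_blk_anti_restr h h'.2.2)]
  · rw [h'.1]; exact pvqc_F_nonneg w u η

theorem pvqc_le_ins_black (x : ℂ) (ξ : Conf PvPt) : PvLe ξ (Conf.ins (x, true) ξ) := by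
  refine ⟨fun v hv => Or.inr hv, fun v hv => ?_⟩
  rcases hv with hv | hv
  · simp at hv
  · exact hv

theorem pvqc_ins_white_le (x : ℂ) (ξ : Conf PvPt) : PvLe (Conf.ins (x, false) ξ) ξ := by
  refine ⟨fun v hv => ?_, fun v hv => Or.inr hv⟩
  rcases hv with hv | hv
  · simp at hv
  · exact hv

/-- **CONTRACT of Qbx/Lay**: `F_u` is an observable of the layered model -/
theorem pvqc_obs (w : ℂ) (u : ℝ) : PvqlObs (pvqcF w u) where
  meas := pvqc_F_meas w u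
  nonneg := pvqc_F_nonneg w u
  le_one := pvqc_F_le_one w u
  black := fun x ξ => pvqc_F_anti (pvqc_le_ins_black x ξ) fun h => pvqc_LF_mono h fun _ hp => ⟨Or.inr hp.1, hp.2⟩
  white := fun x ξ => pvqc_F_anti (pvqc_ins_white_le x ξ) fun h =>
    pvqc_LF_mono (pvqc_LF_ins h (x, false)) (by
      rintro p ⟨hp, hN⟩
      rcases hp with rfl | hp
      · exact Or.inl rfl
      · exact Or.inr ⟨hp, hN⟩)

/-- **CONTRACT of Qbx/Main** (v2: a test IS an observable of Qbx/Lay): `F_u` is a test -/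
theorem pvqc_test (w : ℂ) (u : ℝ) : PvqmTest (pvqcF w u) := pvqc_obs w u

theorem pvqc_O_fin (w : ℂ) (u : ℝ) : volume (pvqcO w u) ≠ ∞ := by
  have hsub : pvqcO w u ⊆ pvmR (w.re - 4 * u) (w.re + 4 * u) (w.im - 4 * u) (w.im + 4 * u) := by
    rintro z ⟨⟨h1, h2⟩, -⟩
    rw [abs_lt] at h1 h2
    exact ⟨⟨by linarith [h1.1], by linarith [h1.2]⟩, ⟨by linarith [h2.1], by linarith [h2.2]⟩⟩
  refine ne_top_of_le_ne_top ?_ (measure_mono hsub)
  rw [pvm_R_vol]
  exact ENNReal.mul_ne_top ENNReal.ofReal_ne_top ENNReal.ofReal_ne_top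

/-- **CONTRACT of Qbx/Main** (v2: positive area, so `0 < u`): the region which is read is a window -/
theorem pvqc_win (w : ℂ) {u : ℝ} (hu : 0 < u) : PvqmWin (pvqcO w u) where
  meas := pvqc_O_meas w u
  fin := pvqc_O_fin w u
  pos := by
    have hsub : pvmR (w.re + u) (w.re + 2 * u) w.im (w.im + u) ⊆ pvqcO w u := by
      rintro z ⟨⟨h1, h2⟩, ⟨h3, h4⟩⟩
      refine ⟨⟨abs_lt.2 ⟨by linarith, by linarith⟩, abs_lt.2 ⟨by linarith, by linarith⟩⟩, fun h => ?_⟩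
      have := (abs_lt.1 h.1).2
      linarith
    have hpos : volume (pvmR (w.re + u) (w.re + 2 * u) w.im (w.im + u)) ≠ 0 := by
      rw [pvm_R_vol]
      have e1 : w.re + 2 * u - (w.re + u) = u := by ring
      have e2 : w.im + u - w.im = u := by ring
      rw [e1, e2]
      exact mul_ne_zero (ENNReal.ofReal_pos.2 hu).ne' (ENNReal.ofReal_pos.2 hu).ne'
    exact fun h => hpos (measure_mono_null hsub h)

theorem pvqc_N_eq (w : ℂ) (u : ℝ) : pvqcN w u = pvqcO w u ×ˢ (univ : Set Bool) := by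
  ext p
  simp [pvqcN]

/-- the intensity of the window -/
theorem pvqc_int_restr (w : ℂ) (u : ℝ) : (pvInt 1).restrict (pvqcN w u) = pvqmI (pvqcO w u) 1 := by
  unfold pvInt pvqmI
  rw [Measure.restrict_smul, pvqc_N_eq, ← Measure.prod_restrict, Measure.restrict_univ]
  simp

/-- **the process of the window is the restriction of the full plane process** -/
theorem pvqc_law (w : ℂ) (u : ℝ) : pppFin (pvqmI (pvqcO w u) 1) = (pvP 1).map (Conf.restr (pvqcN w u)) := by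
  have hf : pvInt 1 (pvqcN w u) ≠ ∞ := by
    rw [pvqc_N_eq, pvm_int_prod]
    exact ENNReal.mul_ne_top ENNReal.ofReal_ne_top (ENNReal.mul_ne_top (pvqc_O_fin w u) (measure_ne_top _ _))
  rw [(pv_isPpp 1).map_restr_eq (pvqc_N_meas w u) hf, pvqc_int_restr]

/-- the annealed mean of `F_u` in the window = the probability of the blocking event in the full plane process -/
theorem pvqc_E_eq (w : ℂ) (u : ℝ) : pvqmE (pvqcO w u) (pvqcF w u) = (pvP 1 {η | PvqcBlk w u (Conf.restr (pvqcN w u) η)}).toReal := by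
  unfold pvqmE
  have eI : (pvqmL (pvqcO w u)).prod pvCoin = pvqmI (pvqcO w u) 1 := by simp [pvqmI]
  rw [eI, pvqc_law, integral_map (Conf.measurable_restr (pvqc_N_meas w u)).aemeasurable (pvqc_F_meas w u).aestronglyMeasurable]
  simp only [pvqc_F_reads w u _]
  have hm : MeasurableSet (Conf.restr (pvqcN w u) ⁻¹' {ζ : Conf PvPt | PvLF ζ ∧ PvqcBlk w u ζ}) :=
    Conf.measurable_restr (pvqc_N_meas w u) (pvqc_blk_meas w u)
  have e : pvqcF w u = (Conf.restr (pvqcN w u) ⁻¹' {ζ : Conf PvPt | PvLF ζ ∧ PvqcBlk w u ζ}).indicator fun _ => (1 : ℝ) := rfl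
  rw [e, integral_indicator hm, setIntegral_const, smul_eq_mul, mul_one, Measure.real]
  congr 1
  refine measure_congr ?_
  filter_upwards [pvcn_LF_ae 1] with η hη
  refine propext ⟨fun h => h.2, fun h => ⟨pvqc_LF_mono hη inter_subset_left, h⟩⟩

theorem pvqc_gen (ε : ℝ) : PvqcGen (pvP ε) := by
  filter_upwards [pvr_gp_ae ε, pvcn_LF_ae ε] with η h1 h2
  exact ⟨pvr_lf h2, h1.gp, h1.col⟩

/-- **THE ANNEALED CONSTANT, unconditional form** -/
theorem pvqc_c0_main : ∃ q : ℝ, 0 < q ∧ ∀ (w : ℂ) (u : ℝ), 0 < u → q ≤ (pvP 1 {η | PvqcBlk w u (Conf.restr (pvqcN w u) η)}).toReal :=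
  pvqc_c0 pvr_model (pvqc_gen 1)

/-- **CONTRACT [C0] of Qbx/Main** for the family `W u = pvqcO w u`, `F u = pvqcF w u` (any centre) -/
theorem pvqc_C0 : ∃ c0 : ℝ, ∀ w : ℂ, PvqmC0 (fun u => pvqcO w u) (fun u => pvqcF w u) c0 := by
  obtain ⟨q, hq, h⟩ := pvqc_c0_main
  exact ⟨q, fun w => ⟨hq, fun u hu => by rw [pvqc_E_eq]; exact h w u hu⟩⟩

end Claimed.Agent.R289
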