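import Claimed.Agent.R289.Qbx.Main
import Claimed.Agent.R289.Qbx.C0
import Claimed.Agent.R289.PppQ
import Claimed.Agent.R289.S1.Meas

/-!
# Row 289 (S0537), box QBX (quenched box crossing), file Qbx/Exit : STAGE 2 + THE EXIT OF THE BOX      (owner helper298; head helper30; prefix `pvqx` / `Pvqx`)

STATUS: 0 sorry.      THE EXIT (consumer: helper196, `PvaxQbx` of `Arm/BxpPv.lean`, ratio 5):

    pvqx_exit_main : PvqmLay -> PvqmRev (pvqcO 0) (pvqcF 0) ->
        EX q > 0, ALL z u, 0 < u ->  P_geo ( Q_colours ( NO black arm across the square annulus (u/2, 5u/2) round z ) < q )  -> 0   as the mesh -> 0+,     and the same for white arms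
    (labelled base law `pvfBaseLaw`, `colLaw PvfIx`, `pvfGlue` of 268;  full configuration;  outer measure of the bad set).

    SAME STATEMENT IN THE VOCABULARY OF 261 (`pvGeo`, `pvQc`; = `PvaxQbx q` of 196 after `cases b`): `pvqx_exit_Qc`, `pvqx_exit_Qc_main`.
    UNIFORM FORM (no rate; uniform in centre and scale: bad set `≤ δ` as soon as `scale ≥ U(δ) * mesh`): `pvqx_exit_unif`.

    pvqx_exit_main  <=  pvqx_exit (from `PvqxS1` = the conclusion of `pvqm_stage1` for 167's blocking family centred at 0)  <=  pvqx_exit_geo (vocabulary of 261: `pvGeo`, `pvQc`)  <=  pvqx_bad_le (fixed mesh)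
    pvqx_bad_le  <=  pvqx_transfer (Chebyshev + similarity)  +  pvqx_markov + `pvqc_G_prob` (grid event)  +  `pvqc_arm_loc` (LOC, 167)  +  `pvqc_C0` (167)

`[REP]` (`PvqmRepK`) IS NOT USED: at time `t = 1` the 2-replica process of 294 IS the two-coloured process `pvP2` of 261 read in the window (`pvqx_law2`), so
`pvqmV W F 1 = pvP2 1 (both replicas in A) - (pvP 1 A)^2` (`pvqx_V_eq`) and `pvqu_Qc_mul_lintegral` (261) identifies this with the variance of the quenched probability on the labelled geometries.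

* sec. 1  STAGE 2, model free glue: `PvqxRev2` (two-family form of REV), `pvqx_stage2`.      NOT consumed by ARM (196 needs the blocking events only); kept for the rectangles.
* sec. 2  two colours: `pvInt2`, `pvqxBoth`.
* sec. 3  Chebyshev and Markov on the labelled geometries: `pvqx_cheb_abs`, `pvqx_cheb`, `pvqx_markov`.
* sec. 4  windowed events `pvqxA W B0`, `pvqxF W B0`: `pvqx_E_eq`, `pvqx_M2_eq`, `pvqx_V_eq`.
* sec. 5  similarities `pvqxSim ε z : x ↦ ε x + z`: `pvqx_sim_P`, `pvqx_sim_P2`, **`pvqx_transfer`** (unit intensity, window `W`  ==>  mesh `ε`, any position).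
* sec. 6  covariance of the blocking events of 167: `pvqx_sim_arm`, `pvqx_sim_O`, `pvqx_blk_pull`.
* sec. 7  the exit.
-/

set_option autoImplicit false
set_option linter.unusedSectionVars false

namespace Claimed.Agent.R289

open MeasureTheory ProbabilityTheory Set Filter Topology Metric
open scoped ENNReal NNReal
open Claims.C0465

/-! ## 1. STAGE 2 -/

/-- **[REV], two families**: smallness of the variances of the BLOCKING family `(W, F)` at the scales `[κ u, θ u]` gives a small dominating function of the level-1 weight of the TARGET family `(W', F')` at the scale `u` -/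
def PvqxRev2 (W : ℝ → Set ℂ) (F : ℝ → Conf PvPt → ℝ) (W' : ℝ → Set ℂ) (F' : ℝ → Conf PvPt → ℝ) : Prop :=
  ∃ vb : ℝ, 0 < vb ∧ ∀ e0 : ℝ, 0 < e0 → ∃ κ θ u0 : ℝ, 0 < κ ∧ κ ≤ 1 ∧ 0 < u0 ∧
    ∀ u t : ℝ, u0 ≤ u → PvqmGrid t →
      (∀ ρ ∈ Icc (κ * u) (θ * u), pvqmV (W ρ) (F ρ) t ≤ vb) →
        ∃ G : Conf ℂ → ℝ, PvqmDom (W' u) (F' u) t G ∧ ∫ η, G η ∂pppFin (pvqmIp (W' u) t) ≤ e0

theorem pvqx_rev_self (W : ℝ → Set ℂ) (F : ℝ → Conf PvPt → ℝ) : PvqmRev W F ↔ PvqxRev2 W F W F := Iff.rfl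

/-- **STAGE 2**: the variance of the quenched probability of the target tends to `0` -/
theorem pvqx_stage2 (hL : PvqmLay) {W W' : ℝ → Set ℂ} {F F' : ℝ → Conf PvPt → ℝ} (hW' : ∀ u, 0 < u → PvqmWin (W' u)) (hF' : ∀ u, 0 < u → PvqmTest (F' u))
    (h1 : ∀ e : ℝ, 0 < e → ∃ u1 : ℝ, ∀ u, u1 ≤ u → pvqmV (W u) (F u) 1 ≤ e) (hR : PvqxRev2 W F W' F') :
    ∀ e : ℝ, 0 < e → ∃ u1 : ℝ, ∀ u, u1 ≤ u → pvqmV (W' u) (F' u) 1 ≤ e := by
  intro e he
  obtain ⟨vb, hvb, H⟩ := hR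
  obtain ⟨κ, θ, u0, hκ, _, hu0p, H⟩ := H e he
  obtain ⟨u1, hu1⟩ := h1 vb hvb
  refine ⟨max u0 (u1 / κ), fun u hu => ?_⟩
  have hu0 : u0 ≤ u := (le_max_left _ _).trans hu
  have hu2 : u1 ≤ κ * u := by
    have := (le_max_right _ _).trans hu
    rw [div_le_iff₀ hκ] at this
    linarith
  have hup : 0 < u := lt_of_lt_of_le hu0p hu0
  obtain ⟨G, hG, hGe⟩ := H u 1 hu0 pvqm_grid_one fun ρ hρ => hu1 ρ (hu2.trans hρ.1)
  have e1 : ((1 : ℕ) : ℝ) / ((1 : ℕ) : ℝ) = 1 := by norm_num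
  have h := pvqm_i1 hL (hW' u hup) (hF' u hup) 1 1 one_pos le_rfl G (by rw [e1]; exact hG)
  rw [e1] at h
  exact h.trans hGe

/-! ## 2. two colours      (`PvPt2`, `pvP2`, `cfP1`, `cfP2` of helper261, PppQ.lean) -/

/-- the intensity of the process with two independent fair colours -/
noncomputable def pvInt2 (ε : ℝ) : Measure PvPt2 := ENNReal.ofReal ((ε⁻¹) ^ 2) • ((volume : Measure ℂ).prod (pvCoin.prod pvCoin))

/-- both replicas lie in `A` -/
def pvqxBoth (A : Set (Conf PvPt)) : Set (Conf PvPt2) := cfP1 ⁻¹' A ∩ cfP2 ⁻¹' A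

theorem pvqx_eqns_cite : True := by
  have := @PvqxRev2.eq_1; have := @pvInt2.eq_1; have := @pvqxBoth.eq_1
  trivial

theorem pvqx_P2_isPpp (ε : ℝ) : IsPpp (pvInt2 ε) (pvP2 ε) := pvqu_P2_isPpp ε

theorem pvqx_both_meas {A : Set (Conf PvPt)} (hA : MeasurableSet A) : MeasurableSet (pvqxBoth A) :=
  (measurable_cfP1 hA).inter (measurable_cfP2 hA)

/-! ## 3. Chebyshev -/

/-- Chebyshev, lower tail, from the first two moments -/
theorem pvqx_cheb_abs {G : Type*} [MeasurableSpace G] (μ : Measure G) [IsProbabilityMeasure μ] {X : G → ℝ≥0∞} (hX : Measurable X) (h1 : ∀ g, X g ≤ 1)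
    {c v : ℝ} (hc : 0 < c) (hm : c ≤ (∫⁻ g, X g ∂μ).toReal) (hv : (∫⁻ g, X g * X g ∂μ).toReal ≤ (∫⁻ g, X g ∂μ).toReal ^ 2 + v) :
    μ {g | X g < ENNReal.ofReal (c / 2)} ≤ ENNReal.ofReal (4 * v / c ^ 2) := by
  obtain ⟨a, ha⟩ : ∃ a : ℝ, a = (∫⁻ g, X g ∂μ).toReal := ⟨_, rfl⟩
  rw [← ha] at hm hv
  have hfin : ∀ g, X g ≠ ∞ := fun g => ne_top_of_le_ne_top ENNReal.one_ne_top (h1 g)
  have hY : Measurable fun g => (X g).toReal := hX.ennreal_toReal
  have hY0 : ∀ g, 0 ≤ (X g).toReal := fun g => ENNReal.toReal_nonneg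
  have hY1 : ∀ g, (X g).toReal ≤ 1 := fun g => by
    have := ENNReal.toReal_mono ENNReal.one_ne_top (h1 g)
    simpa using this
  have hYi : Integrable (fun g => (X g).toReal) μ :=
    Integrable.of_bound hY.aestronglyMeasurable 1 (Eventually.of_forall fun g => by rw [Real.norm_eq_abs, abs_of_nonneg (hY0 g)]; exact hY1 g)
  have hY2i : Integrable (fun g => (X g).toReal ^ 2) μ :=
    Integrable.of_bound (hY.pow_const 2).aestronglyMeasurable 1 (Eventually.of_forall fun g => by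
      rw [Real.norm_eq_abs, abs_of_nonneg (by positivity)]
      exact pow_le_one₀ (hY0 g) (hY1 g))
  have e1 : ∫ g, (X g).toReal ∂μ = a := by
    rw [ha, integral_toReal hX.aemeasurable (Eventually.of_forall fun g => (hfin g).lt_top)]
  have e2 : ∫ g, (X g).toReal ^ 2 ∂μ = (∫⁻ g, X g * X g ∂μ).toReal := by
    have hXX : Measurable fun g => X g * X g := hX.mul hX
    rw [← integral_toReal hXX.aemeasurable (Eventually.of_forall fun g => (ENNReal.mul_ne_top (hfin g) (hfin g)).lt_top)]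
    refine integral_congr_ae (Eventually.of_forall fun g => ?_)
    show (X g).toReal ^ 2 = (X g * X g).toReal
    rw [ENNReal.toReal_mul, sq]
  have e3 : ∫ g, ((X g).toReal - a) ^ 2 ∂μ ≤ v := by
    have : ∀ g, ((X g).toReal - a) ^ 2 = (X g).toReal ^ 2 - 2 * a * (X g).toReal + a ^ 2 := fun g => by ring
    simp_rw [this]
    have i1 : Integrable (fun g => 2 * a * (X g).toReal) μ := hYi.const_mul _
    have i2 : Integrable (fun g => (X g).toReal ^ 2 - 2 * a * (X g).toReal) μ := hY2i.sub i1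
    rw [integral_add (f := fun g => (X g).toReal ^ 2 - 2 * a * (X g).toReal) (g := fun _ => a ^ 2) i2 (integrable_const _),
      integral_sub (f := fun g => (X g).toReal ^ 2) (g := fun g => 2 * a * (X g).toReal) hY2i i1, integral_const_mul, e1, e2]
    simp only [integral_const, probReal_univ, smul_eq_mul, one_mul]
    nlinarith
  have hsub : {g | X g < ENNReal.ofReal (c / 2)} ⊆ {g | (c / 2) ^ 2 ≤ ((X g).toReal - a) ^ 2} := by
    intro g hg
    have h2 : (X g).toReal < c / 2 := by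
      have := (ENNReal.toReal_lt_toReal (hfin g) ENNReal.ofReal_ne_top).2 hg
      rwa [ENNReal.toReal_ofReal (by positivity)] at this
    show (c / 2) ^ 2 ≤ ((X g).toReal - a) ^ 2
    nlinarith
  have hint : Integrable (fun g => ((X g).toReal - a) ^ 2) μ := by
    have : ∀ g, ((X g).toReal - a) ^ 2 = (X g).toReal ^ 2 - 2 * a * (X g).toReal + a ^ 2 := fun g => by ring
    simp_rw [this]
    exact (hY2i.sub (hYi.const_mul _)).add (integrable_const _)
  have hmk := mul_meas_ge_le_integral_of_nonneg (μ := μ) (f := fun g => ((X g).toReal - a) ^ 2) (Eventually.of_forall fun g => by positivity) hint ((c / 2) ^ 2)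
  have h4 : μ.real {g | (c / 2) ^ 2 ≤ ((X g).toReal - a) ^ 2} ≤ 4 * v / c ^ 2 := by
    rw [le_div_iff₀ (by positivity)]
    nlinarith
  refine (measure_mono hsub).trans ?_
  rw [← ENNReal.ofReal_toReal (measure_ne_top μ _)]
  exact ENNReal.ofReal_le_ofReal h4

/-- **Chebyshev on the labelled geometries**: the quenched probability of a measurable event is rarely below half of its mean -/
theorem pvqx_cheb (ε : ℝ) {A : Set (Conf PvPt)} (hA : MeasurableSet A) {c v : ℝ} (hc : 0 < c) (hm : c ≤ (pvP ε A).toReal)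
    (hv : (pvP2 ε (pvqxBoth A)).toReal ≤ (pvP ε A).toReal ^ 2 + v) :
    pvGeo ε {g | pvQc A g < ENNReal.ofReal (c / 2)} ≤ ENNReal.ofReal (4 * v / c ^ 2) := by
  refine pvqx_cheb_abs (pvGeo ε) (pvqu_Qc_meas hA) (fun g => pvqu_Qc_le_one A g) hc ?_ ?_
  · rw [pvqu_Qc_lintegral ε hA]; exact hm
  · rw [pvqu_Qc_lintegral ε hA, pvqu_Qc_mul_lintegral ε hA hA]; exact hv

/-- Markov on the labelled geometries -/
theorem pvqx_markov (ε : ℝ) {A : Set (Conf PvPt)} (hA : MeasurableSet A) {c : ℝ} (hc : 0 < c) :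
    pvGeo ε {g | ENNReal.ofReal c ≤ pvQc A g} ≤ pvP ε A / ENNReal.ofReal c := by
  have h := meas_ge_le_lintegral_div (μ := pvGeo ε) (pvqu_Qc_meas hA).aemeasurable (ENNReal.ofReal_pos.2 hc).ne' ENNReal.ofReal_ne_top
  rwa [pvqu_Qc_lintegral ε hA] at h

/-! ## 4. the two-replica value at time `1` is the second moment of the quenched probability -/

/-- the event `B0` read in the window `W` -/
def pvqxA (W : Set ℂ) (B0 : Set (Conf PvPt)) : Set (Conf PvPt) := Conf.restr (W ×ˢ (univ : Set Bool)) ⁻¹' B0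

/-- its indicator -/
noncomputable def pvqxF (W : Set ℂ) (B0 : Set (Conf PvPt)) : Conf PvPt → ℝ := (pvqxA W B0).indicator fun _ => (1 : ℝ)

/-- two colours -> marks of the 2-replica process of 294 -/
def pvqxMk (b : Bool × Bool) : PvqrMk 2 := ![some b.1, some b.2]

/-- two colours -> points of the 2-replica process of 294 -/
def pvqxPsi (p : PvPt2) : ℂ × PvqrMk 2 := (p.1, pvqxMk p.2)

theorem pvqx_eqns_cite2 : True := by
  have := @pvqxA.eq_1; have := @pvqxF.eq_1; have := @pvqxMk.eq_1; have := @pvqxPsi.eq_1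
  trivial

theorem pvqx_A_meas {W : Set ℂ} (hW : MeasurableSet W) {B0 : Set (Conf PvPt)} (hB : MeasurableSet B0) : MeasurableSet (pvqxA W B0) :=
  Conf.measurable_restr (hW.prod MeasurableSet.univ) hB

theorem pvqx_F_meas {W : Set ℂ} (hW : MeasurableSet W) {B0 : Set (Conf PvPt)} (hB : MeasurableSet B0) : Measurable (pvqxF W B0) :=
  measurable_const.indicator (pvqx_A_meas hW hB)

theorem pvqx_restr_mem (W : Set ℂ) (B0 : Set (Conf PvPt)) (η : Conf PvPt) : Conf.restr (W ×ˢ (univ : Set Bool)) η ∈ pvqxA W B0 ↔ η ∈ pvqxA W B0 := by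
  unfold pvqxA
  rw [mem_preimage, mem_preimage, pvqc_restr_restr]

theorem pvqx_F_restr (W : Set ℂ) (B0 : Set (Conf PvPt)) (η : Conf PvPt) : pvqxF W B0 (Conf.restr (W ×ˢ (univ : Set Bool)) η) = pvqxF W B0 η := by
  unfold pvqxF
  by_cases h : η ∈ pvqxA W B0
  · rw [indicator_of_mem h, indicator_of_mem ((pvqx_restr_mem W B0 η).2 h)]
  · rw [indicator_of_notMem h, indicator_of_notMem fun h' => h ((pvqx_restr_mem W B0 η).1 h')]

/-- the coloured process of the window is the restriction of the full plane process of mesh `1` -/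
theorem pvqx_law1 {W : Set ℂ} (hW : MeasurableSet W) (hf : volume W ≠ ∞) :
    pppFin ((pvqmL W).prod pvCoin) = (pvP 1).map (Conf.restr (W ×ˢ (univ : Set Bool))) := by
  have hfin : IsFiniteMeasure (pvqmL W) := ⟨by rw [Measure.restrict_apply_univ]; exact hf.lt_top⟩
  have h1 := (pv_isPpp 1).restr (hW.prod (MeasurableSet.univ : MeasurableSet (univ : Set Bool)))
  have e : (pvInt 1).restrict (W ×ˢ (univ : Set Bool)) = (pvqmL W).prod pvCoin := by
    unfold pvInt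
    rw [Measure.restrict_smul, ← Measure.prod_restrict, Measure.restrict_univ]
    simp
  rw [e] at h1
  exact h1.eq_pppFin.symm

/-- **first moment** -/
theorem pvqx_E_eq {W : Set ℂ} (hW : MeasurableSet W) (hf : volume W ≠ ∞) {B0 : Set (Conf PvPt)} (hB : MeasurableSet B0) :
    pvqmE W (pvqxF W B0) = (pvP 1 (pvqxA W B0)).toReal := by
  unfold pvqmE
  rw [pvqx_law1 hW hf, integral_map (Conf.measurable_restr (hW.prod MeasurableSet.univ)).aemeasurable (pvqx_F_meas hW hB).aestronglyMeasurable]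
  simp only [pvqx_F_restr]
  unfold pvqxF
  rw [integral_indicator (pvqx_A_meas hW hB), setIntegral_const, smul_eq_mul, mul_one, Measure.real]

theorem pvqx_measurable_mk : Measurable pvqxMk := Measurable.of_discrete

theorem pvqx_measurable_psi : Measurable pvqxPsi := measurable_fst.prodMk (pvqx_measurable_mk.comp measurable_snd)

/-- the mark law of 294 at time `1` : two iid fair colours -/
theorem pvqx_kap_one : pvqrKap 2 1 = (pvCoin.prod pvCoin).map pvqxMk := by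
  have e1 : pvqrKap 2 1 = pvqrSh 2 := by
    unfold pvqrKap
    simp
  rw [e1]
  unfold pvqrSh
  have h := (measurePreserving_finTwoArrow pvCoin).map_eq
  rw [← h, Measure.map_map pvqx_measurable_mk (MeasurableEquiv.measurable _)]
  congr 1
  funext c a
  fin_cases a <;> rfl

/-- the intensity of the 2-replica process of the window at time `1` -/
theorem pvqx_int_one (W : Set ℂ) : ((pvInt2 1).restrict (W ×ˢ (univ : Set (Bool × Bool)))).map pvqxPsi = pvqmJ 2 W 1 := by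
  have e : (pvInt2 1).restrict (W ×ˢ (univ : Set (Bool × Bool))) = (pvqmL W).prod (pvCoin.prod pvCoin) := by
    unfold pvInt2
    rw [Measure.restrict_smul, ← Measure.prod_restrict, Measure.restrict_univ]
    simp
  rw [e]
  show _ = (pvqmL W).prod (pvqrKap 2 1)
  rw [pvqx_kap_one]
  have h := Measure.map_prod_map (pvqmL W) (pvCoin.prod pvCoin) (measurable_id : Measurable (id : ℂ → ℂ)) pvqx_measurable_mk
  rw [Measure.map_id] at h
  rw [h]
  rfl

/-- **the 2-replica process of 294 at time `1` is the two-coloured process of 261 read in the window** -/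
theorem pvqx_law2 {W : Set ℂ} (hW : MeasurableSet W) (hf : volume W ≠ ∞) :
    pvqrLaw 2 (pvqmL W) 1 = ((pvP2 1).map (Conf.restr (W ×ˢ (univ : Set (Bool × Bool))))).map (Conf.image pvqxPsi) := by
  have hfin : IsFiniteMeasure (pvqmL W) := ⟨by rw [Measure.restrict_apply_univ]; exact hf.lt_top⟩
  have h1 := ((pvqx_P2_isPpp 1).restr (hW.prod (MeasurableSet.univ : MeasurableSet (univ : Set (Bool × Bool))))).map pvqx_measurable_psi
  rw [pvqx_int_one] at h1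
  exact (h1.unique (pvqr_isPpp 2 (pvqmL W) 1)).symm

theorem pvqx_rep0 (α : Conf PvPt2) : pvqrRep (0 : Fin 2) (Conf.image pvqxPsi α) = cfP1 α := by
  ext p
  simp only [pvqrRep, Conf.image, cfP1, mem_ofPred_eq, mem_image]
  constructor
  · rintro ⟨μ, ⟨q, hq, hqe⟩, hμ⟩
    refine ⟨q, hq, ?_⟩
    have h1 : q.1 = p.1 := congrArg Prod.fst hqe
    have h2 : pvqxMk q.2 = μ := congrArg Prod.snd hqe
    rw [← h2] at hμ
    have h3 : some q.2.1 = some p.2 := hμ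
    exact Prod.ext h1 (Option.some.inj h3)
  · rintro ⟨q, hq, rfl⟩
    exact ⟨pvqxMk q.2, ⟨q, hq, rfl⟩, rfl⟩

theorem pvqx_rep1 (α : Conf PvPt2) : pvqrRep (1 : Fin 2) (Conf.image pvqxPsi α) = cfP2 α := by
  ext p
  simp only [pvqrRep, Conf.image, cfP2, mem_ofPred_eq, mem_image]
  constructor
  · rintro ⟨μ, ⟨q, hq, hqe⟩, hμ⟩
    refine ⟨q, hq, ?_⟩
    have h1 : q.1 = p.1 := congrArg Prod.fst hqe
    have h2 : pvqxMk q.2 = μ := congrArg Prod.snd hqe
    rw [← h2] at hμ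
    have h3 : some q.2.2 = some p.2 := hμ
    exact Prod.ext h1 (Option.some.inj h3)
  · rintro ⟨q, hq, rfl⟩
    exact ⟨pvqxMk q.2, ⟨q, hq, rfl⟩, rfl⟩

theorem pvqx_P1_restr (W : Set ℂ) (α : Conf PvPt2) :
    cfP1 (Conf.restr (W ×ˢ (univ : Set (Bool × Bool))) α) = Conf.restr (W ×ˢ (univ : Set Bool)) (cfP1 α) := by
  ext p
  simp only [cfP1, Conf.image, Conf.restr, mem_image, mem_inter_iff, mem_prod, mem_univ, and_true]
  constructor
  · rintro ⟨q, ⟨hq, hW⟩, rfl⟩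
    exact ⟨⟨q, hq, rfl⟩, hW⟩
  · rintro ⟨⟨q, hq, rfl⟩, hW⟩
    exact ⟨q, ⟨hq, hW⟩, rfl⟩

theorem pvqx_P2_restr (W : Set ℂ) (α : Conf PvPt2) :
    cfP2 (Conf.restr (W ×ˢ (univ : Set (Bool × Bool))) α) = Conf.restr (W ×ˢ (univ : Set Bool)) (cfP2 α) := by
  ext p
  simp only [cfP2, Conf.image, Conf.restr, mem_image, mem_inter_iff, mem_prod, mem_univ, and_true]
  constructor
  · rintro ⟨q, ⟨hq, hW⟩, rfl⟩
    exact ⟨⟨q, hq, rfl⟩, hW⟩
  · rintro ⟨⟨q, hq, rfl⟩, hW⟩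
    exact ⟨q, ⟨hq, hW⟩, rfl⟩

/-- **second moment** -/
theorem pvqx_M2_eq {W : Set ℂ} (hW : MeasurableSet W) (hf : volume W ≠ ∞) {B0 : Set (Conf PvPt)} (hB : MeasurableSet B0) :
    pvqmM 2 W 1 (fun _ => pvqxF W B0) = (pvP2 1 (pvqxBoth (pvqxA W B0))).toReal := by
  have hF := pvqx_F_meas hW hB
  have hm1 : Measurable (Conf.image pvqxPsi : Conf PvPt2 → Conf (ℂ × PvqrMk 2)) := Conf.measurable_image pvqx_measurable_psi
  have hm2 : Measurable (Conf.restr (W ×ˢ (univ : Set (Bool × Bool))) : Conf PvPt2 → Conf PvPt2) := Conf.measurable_restr (hW.prod MeasurableSet.univ)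
  have hint : Measurable fun Ξ : Conf (ℂ × PvqrMk 2) => ∏ a : Fin 2, pvqxF W B0 (pvqrRep a Ξ) :=
    Finset.measurable_prod _ fun a _ => hF.comp (pvqr_measurable_rep a)
  show ∫ Ξ, ∏ a : Fin 2, pvqxF W B0 (pvqrRep a Ξ) ∂(pvqrLaw 2 (pvqmL W) 1) = _
  have hint2 : Measurable fun α : Conf PvPt2 => ∏ a : Fin 2, pvqxF W B0 (pvqrRep a (Conf.image pvqxPsi α)) := hint.comp hm1
  rw [pvqx_law2 hW hf, integral_map hm1.aemeasurable hint.aestronglyMeasurable,
    integral_map hm2.aemeasurable hint2.aestronglyMeasurable]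
  have e : ∀ α : Conf PvPt2, ∏ a : Fin 2, pvqxF W B0 (pvqrRep a (Conf.image pvqxPsi (Conf.restr (W ×ˢ (univ : Set (Bool × Bool))) α)))
      = (pvqxBoth (pvqxA W B0)).indicator (fun _ => (1 : ℝ)) α := by
    intro α
    rw [Fin.prod_univ_two, pvqx_rep0, pvqx_rep1, pvqx_P1_restr, pvqx_P2_restr, pvqx_F_restr, pvqx_F_restr]
    unfold pvqxF
    by_cases h1 : cfP1 α ∈ pvqxA W B0
    · by_cases h2 : cfP2 α ∈ pvqxA W B0
      · rw [indicator_of_mem h1, indicator_of_mem h2, indicator_of_mem (show α ∈ pvqxBoth (pvqxA W B0) from ⟨h1, h2⟩), mul_one]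
      · rw [indicator_of_notMem h2, indicator_of_notMem (fun h : α ∈ pvqxBoth (pvqxA W B0) => h2 h.2), mul_zero]
    · rw [indicator_of_notMem h1, indicator_of_notMem (fun h : α ∈ pvqxBoth (pvqxA W B0) => h1 h.1), zero_mul]
  simp only [e]
  rw [integral_indicator (pvqx_both_meas (pvqx_A_meas hW hB)), setIntegral_const, smul_eq_mul, mul_one, Measure.real]

/-- **the two-replica value at time `1`** -/
theorem pvqx_V_eq {W : Set ℂ} (hW : MeasurableSet W) (hf : volume W ≠ ∞) {B0 : Set (Conf PvPt)} (hB : MeasurableSet B0) :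
    pvqmV W (pvqxF W B0) 1 = (pvP2 1 (pvqxBoth (pvqxA W B0))).toReal - (pvP 1 (pvqxA W B0)).toReal ^ 2 := by
  rw [pvqmV_eq, pvqx_M2_eq hW hf hB, pvqx_E_eq hW hf hB]

/-! ## 5. similarities -/

/-- action of a map of the plane on two-coloured configurations -/
def cfMap2 (g : ℂ → ℂ) (ξ : Conf PvPt2) : Conf PvPt2 := Conf.image (Prod.map g id) ξ

theorem pvqx_eqns_cite3 : True := by
  have := @cfMap2.eq_1
  trivial

theorem measurable_cfMap2 {g : ℂ → ℂ} (hg : Measurable g) : Measurable (cfMap2 g) := Conf.measurable_image (hg.prodMap measurable_id)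

theorem pvqx_P1_map (g : ℂ → ℂ) (ξ : Conf PvPt2) : cfP1 (cfMap2 g ξ) = cfMap g (cfP1 ξ) := by
  ext p
  simp only [cfP1, cfMap2, cfMap, Conf.image, mem_image]
  constructor
  · rintro ⟨_, ⟨q, hq, rfl⟩, rfl⟩
    exact ⟨(q.1, q.2.1), ⟨q, hq, rfl⟩, rfl⟩
  · rintro ⟨_, ⟨q, hq, rfl⟩, rfl⟩
    exact ⟨Prod.map g id q, ⟨q, hq, rfl⟩, rfl⟩

theorem pvqx_P2_map (g : ℂ → ℂ) (ξ : Conf PvPt2) : cfP2 (cfMap2 g ξ) = cfMap g (cfP2 ξ) := by
  ext p
  simp only [cfP2, cfMap2, cfMap, Conf.image, mem_image]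
  constructor
  · rintro ⟨_, ⟨q, hq, rfl⟩, rfl⟩
    exact ⟨(q.1, q.2.2), ⟨q, hq, rfl⟩, rfl⟩
  · rintro ⟨_, ⟨q, hq, rfl⟩, rfl⟩
    exact ⟨Prod.map g id q, ⟨q, hq, rfl⟩, rfl⟩

/-- general transformation rule for the two-coloured process (the proof of `pvP_map_of_map`) -/
theorem pvqx_P2_map_of_map {g : ℂ → ℂ} (hg : Measurable g) {ε ε' : ℝ} (h0 : ε ≠ 0)
    (h : ENNReal.ofReal ((ε⁻¹) ^ 2) • (volume : Measure ℂ).map g = ENNReal.ofReal ((ε'⁻¹) ^ 2) • (volume : Measure ℂ)) :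
    (pvP2 ε).map (cfMap2 g) = pvP2 ε' := by
  have h1 := (pvqx_P2_isPpp ε).map (hg.prodMap (measurable_id : Measurable (id : Bool × Bool → Bool × Bool)))
  refine IsPpp.unique h1 ?_
  have e : (pvInt2 ε).map (Prod.map g id) = pvInt2 ε' := by
    have h0' : ENNReal.ofReal ((ε⁻¹) ^ 2) ≠ 0 := by
      rw [Ne, ENNReal.ofReal_eq_zero, not_le]
      positivity
    have hsf : SFinite ((volume : Measure ℂ).map g) := by
      have hne : ENNReal.ofReal ((ε⁻¹) ^ 2) ≠ ∞ := ENNReal.ofReal_ne_top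
      have : (volume : Measure ℂ).map g = (ENNReal.ofReal ((ε⁻¹) ^ 2))⁻¹ • (ENNReal.ofReal ((ε'⁻¹) ^ 2) • (volume : Measure ℂ)) := by
        rw [← h, smul_smul, ENNReal.inv_mul_cancel h0' hne, one_smul]
      rw [this]; infer_instance
    unfold pvInt2
    rw [Measure.map_smul, ← Measure.map_prod_map _ _ hg measurable_id, Measure.map_id, ← Measure.prod_smul_left, h, Measure.prod_smul_left]
  rw [e]
  exact pvqx_P2_isPpp ε'

/-- the similarity `x ↦ ε x + z` -/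
noncomputable def pvqxSim (ε : ℝ) (hε : ε ≠ 0) (z : ℂ) : ℂ ≃ₜ ℂ := (Homeomorph.smulOfNeZero ε hε).trans (Homeomorph.addRight z)

theorem pvqx_sim_apply (ε : ℝ) (hε : ε ≠ 0) (z x : ℂ) : pvqxSim ε hε z x = ε • x + z := rfl

theorem pvqx_sim_norm {ε : ℝ} (hε : 0 < ε) (z x y : ℂ) : ‖pvqxSim ε hε.ne' z x - pvqxSim ε hε.ne' z y‖ = ε * ‖x - y‖ := by
  rw [pvqx_sim_apply, pvqx_sim_apply, add_sub_add_right_eq_sub, ← smul_sub, norm_smul, Real.norm_eq_abs, abs_of_pos hε]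

theorem pvqx_sim_vol (ε : ℝ) (hε : ε ≠ 0) (z : ℂ) :
    ENNReal.ofReal (((1 : ℝ)⁻¹) ^ 2) • (volume : Measure ℂ).map (pvqxSim ε hε z) = ENNReal.ofReal ((ε⁻¹) ^ 2) • (volume : Measure ℂ) := by
  have e : (pvqxSim ε hε z : ℂ → ℂ) = (fun x => x + z) ∘ fun x => ε • x := rfl
  rw [e, ← Measure.map_map (measurable_add_const z) (measurable_const_smul ε), Measure.map_addHaar_smul _ hε, Complex.finrank_real_complex,
    Measure.map_smul, (measurePreserving_add_right (volume : Measure ℂ) z).map_eq]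
  simp only [inv_one, one_pow, ENNReal.ofReal_one, one_smul]
  congr 2
  rw [abs_of_nonneg (by positivity), inv_pow]

theorem pvqx_sim_P (ε : ℝ) (hε : ε ≠ 0) (z : ℂ) : (pvP 1).map (cfMap (pvqxSim ε hε z)) = pvP ε :=
  pvP_map_of_map (pvqxSim ε hε z).continuous.measurable (pvqx_sim_vol ε hε z)

theorem pvqx_sim_P2 (ε : ℝ) (hε : ε ≠ 0) (z : ℂ) : (pvP2 1).map (cfMap2 (pvqxSim ε hε z)) = pvP2 ε :=
  pvqx_P2_map_of_map (pvqxSim ε hε z).continuous.measurable one_ne_zero (pvqx_sim_vol ε hε z)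

/-- **TRANSFER**: unit intensity, window `W`, event `B0`  ==>  mesh `ε`, any event `A'` whose pull-back by the similarity is the windowed event -/
theorem pvqx_transfer {W : Set ℂ} (hW : MeasurableSet W) (hf : volume W ≠ ∞) {B0 : Set (Conf PvPt)} (hB : MeasurableSet B0) {ε : ℝ} (hε : ε ≠ 0) (z : ℂ)
    {A' : Set (Conf PvPt)} (hA' : MeasurableSet A') (hpull : cfMap (pvqxSim ε hε z) ⁻¹' A' = pvqxA W B0) {c : ℝ} (hc : 0 < c)
    (hm : c ≤ pvqmE W (pvqxF W B0)) :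
    pvGeo ε {g | pvQc A' g < ENNReal.ofReal (c / 2)} ≤ ENNReal.ofReal (4 * pvqmV W (pvqxF W B0) 1 / c ^ 2) := by
  have hg : Measurable (pvqxSim ε hε z) := (pvqxSim ε hε z).continuous.measurable
  have e1 : pvP ε A' = pvP 1 (pvqxA W B0) := by
    rw [← pvqx_sim_P ε hε z, Measure.map_apply (measurable_cfMap hg) hA', hpull]
  have e2 : pvP2 ε (pvqxBoth A') = pvP2 1 (pvqxBoth (pvqxA W B0)) := by
    rw [← pvqx_sim_P2 ε hε z, Measure.map_apply (measurable_cfMap2 hg) (pvqx_both_meas hA'), ← hpull]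
    congr 1
    ext ξ
    simp only [pvqxBoth, mem_preimage, mem_inter_iff, pvqx_P1_map, pvqx_P2_map]
  refine pvqx_cheb ε hA' hc ?_ ?_
  · rw [e1, ← pvqx_E_eq hW hf hB]; exact hm
  · rw [e1, e2, pvqx_V_eq hW hf hB]
    linarith

/-! ## 6. the blocking events of 167 under the similarity `x ↦ ε x + z` -/

theorem pvqx_sim_image {ε : ℝ} (hε : ε ≠ 0) (z : ℂ) (X : Set ℂ) : pvqxSim ε hε z '' X = {y | ε⁻¹ • (y - z) ∈ X} := by
  ext y
  constructor
  · rintro ⟨x, hx, rfl⟩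
    show ε⁻¹ • (pvqxSim ε hε z x - z) ∈ X
    rw [pvqx_sim_apply, add_sub_cancel_right, smul_smul, inv_mul_cancel₀ hε, one_smul]
    exact hx
  · intro h
    refine ⟨ε⁻¹ • (y - z), h, ?_⟩
    rw [pvqx_sim_apply, smul_smul, mul_inv_cancel₀ hε, one_smul, sub_add_cancel]

theorem pvqx_sim_rect {ε : ℝ} (hε : 0 < ε) (z : ℂ) (s : ℝ) :
    {y : ℂ | ε⁻¹ • (y - z) ∈ rswRect (0 - s) (0 + s) (0 - s) (0 + s)} = rswRect (z.re - ε * s) (z.re + ε * s) (z.im - ε * s) (z.im + ε * s) := by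
  ext y
  simp only [mem_ofPred_eq, rsw_mem_rect, Complex.smul_re, Complex.smul_im, Complex.sub_re, Complex.sub_im, smul_eq_mul,
    le_inv_mul_iff₀ hε, inv_mul_le_iff₀ hε]
  constructor <;> rintro ⟨h1, h2, h3, h4⟩ <;> refine ⟨?_, ?_, ?_, ?_⟩ <;> linarith

/-- the arm pattern is covariant -/
theorem pvqx_sim_arm {ε : ℝ} (hε : 0 < ε) (z : ℂ) (t r : ℝ) :
    (rswArm 0 0 t r).map (pvqxSim ε hε.ne' z) = rswArm z.re z.im (ε * t) (ε * r) := by
  simp only [RswTri.map, rswArm, pvqx_sim_image, pvqx_sim_rect hε]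
  congr 1
  have e := Set.ext_iff.1 (pvqx_sim_rect hε z r)
  ext y
  have e' := e y
  simp only [mem_ofPred_eq] at e' ⊢
  rw [e']
  refine and_congr_right fun _ => ?_
  simp only [Complex.smul_re, Complex.smul_im, Complex.sub_re, Complex.sub_im, smul_eq_mul, inv_mul_eq_iff_eq_mul₀ hε.ne']
  refine or_congr ?_ (or_congr ?_ (or_congr ?_ ?_)) <;> constructor <;> intro h <;> linarith

/-- the region which is read is covariant -/
theorem pvqx_sim_O {ε : ℝ} (hε : 0 < ε) (z : ℂ) (u : ℝ) : pvqxSim ε hε.ne' z ⁻¹' pvqcO z u = pvqcO 0 (u / ε) := by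
  ext x
  have e1 : (pvqxSim ε hε.ne' z x).re - z.re = ε * x.re := by
    rw [pvqx_sim_apply]; simp
  have e2 : (pvqxSim ε hε.ne' z x).im - z.im = ε * x.im := by
    rw [pvqx_sim_apply]; simp
  have h : ∀ a b : ℝ, |ε * a| < b ↔ |a| < b / ε := fun a b => by
    rw [abs_mul, abs_of_pos hε, lt_div_iff₀ hε, mul_comm]
  have e3 : 4 * (u / ε) = 4 * u / ε := by ring
  have e4 : u / ε / 4 = u / 4 / ε := by ring
  simp only [pvqcO, mem_preimage, mem_ofPred_eq, e1, e2, h, Complex.zero_re, Complex.zero_im, sub_zero, e3, e4]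

theorem pvqx_restr_map (g : ℂ → ℂ) (O : Set ℂ) (η : Conf PvPt) :
    Conf.restr {p : PvPt | p.1 ∈ O} (cfMap g η) = cfMap g (Conf.restr {p : PvPt | p.1 ∈ g ⁻¹' O} η) := by
  ext p
  simp only [Conf.restr, cfMap, Conf.image, mem_inter_iff, mem_image, mem_ofPred_eq, mem_preimage]
  constructor
  · rintro ⟨⟨q, hq, rfl⟩, hO⟩
    exact ⟨q, ⟨hq, hO⟩, rfl⟩
  · rintro ⟨q, ⟨hq, hO⟩, rfl⟩
    exact ⟨⟨q, hq, rfl⟩, hO⟩

theorem pvqx_O_bdd (w : ℂ) (u : ℝ) : Bornology.IsBounded (pvqcO w u) := by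
  refine (pvrb_rect_bdd (w.re - 4 * u) (w.re + 4 * u) (w.im - 4 * u) (w.im + 4 * u)).subset ?_
  rintro x ⟨⟨h1, h2⟩, -⟩
  rw [abs_lt] at h1 h2
  exact ⟨by linarith [h1.1], by linarith [h1.2], by linarith [h2.1], by linarith [h2.2]⟩

/-- a locally finite configuration over a bounded region is finite -/
theorem pvqx_fin_of_LF {ζ : Conf PvPt} (h : PvLF ζ) {O : Set ℂ} (hO : Bornology.IsBounded O) (hs : ∀ p ∈ ζ.pts, p.1 ∈ O) : ζ.pts.Finite := by
  obtain ⟨R, hR⟩ := hO.subset_closedBall (0 : ℂ)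
  have h1 : (cfSites ζ).Finite := by
    refine (pvr_lf h R).subset ?_
    rintro _ ⟨p, hp, rfl⟩
    exact ⟨⟨p, hp, rfl⟩, hR (hs p hp)⟩
  refine (h1.prod (Set.finite_univ : (univ : Set Bool).Finite)).subset ?_
  intro p hp
  exact ⟨⟨p, hp, rfl⟩, mem_univ _⟩

theorem pvqx_LF_restr_iff (w : ℂ) (u : ℝ) (η : Conf PvPt) : PvLF (Conf.restr (pvqcN w u) η) ↔ (Conf.restr (pvqcN w u) η).pts.Finite :=
  ⟨fun h => pvqx_fin_of_LF h (pvqx_O_bdd w u) fun _ hp => hp.2, pvqc_LF_of_finite⟩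

theorem pvqx_map_finite (g : ℂ ≃ ℂ) (ζ : Conf PvPt) : (cfMap g ζ).pts.Finite ↔ ζ.pts.Finite := by
  have hinj : Function.Injective (Prod.map g (id : Bool → Bool)) := g.injective.prodMap Function.injective_id
  exact Set.finite_image_iff hinj.injOn

/-- the blocking event read in its window, as a set -/
def pvqxBlk (w : ℂ) (u : ℝ) : Set (Conf PvPt) := Conf.restr (pvqcN w u) ⁻¹' {ζ : Conf PvPt | PvLF ζ ∧ PvqcBlk w u ζ}

theorem pvqx_eqns_cite4 : True := by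
  have := @pvqxSim.eq_1; have := @pvqxBlk.eq_1
  trivial

theorem pvqx_blk_meas (w : ℂ) (u : ℝ) : MeasurableSet (pvqxBlk w u) := Conf.measurable_restr (pvqc_N_meas w u) (pvqc_blk_meas w u)

theorem pvqx_blk_eq (w : ℂ) (u : ℝ) : pvqxBlk w u = pvqxA (pvqcO w u) {ζ : Conf PvPt | PvLF ζ ∧ PvqcBlk w u ζ} := by
  unfold pvqxBlk pvqxA
  rw [pvqc_N_eq]

theorem pvqx_F_eq (w : ℂ) (u : ℝ) : pvqcF w u = pvqxF (pvqcO w u) {ζ : Conf PvPt | PvLF ζ ∧ PvqcBlk w u ζ} := by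
  unfold pvqxF
  rw [← pvqx_blk_eq]
  rfl

/-- **the blocking event is covariant** -/
theorem pvqx_blk_pull {ε : ℝ} (hε : 0 < ε) (z : ℂ) (u : ℝ) : cfMap (pvqxSim ε hε.ne' z) ⁻¹' pvqxBlk z u = pvqxBlk 0 (u / ε) := by
  ext η
  have e1 : Conf.restr (pvqcN z u) (cfMap (pvqxSim ε hε.ne' z) η) = cfMap (pvqxSim ε hε.ne' z) (Conf.restr (pvqcN 0 (u / ε)) η) := by
    have := pvqx_restr_map (pvqxSim ε hε.ne' z) (pvqcO z u) η
    rw [pvqx_sim_O hε] at this
    exact this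
  have e2 : ∀ ζ : Conf PvPt, PvqcBlk z u (cfMap (pvqxSim ε hε.ne' z) ζ) ↔ PvqcBlk 0 (u / ε) ζ := by
    intro ζ
    have h3 : cfB (cfMap (pvqxSim ε hε.ne' z) ζ) = pvqxSim ε hε.ne' z '' cfB ζ :=
      pvr_B_sim (g := (pvqxSim ε hε.ne' z).toEquiv) hε (pvqx_sim_norm hε z) ζ
    have h4 := pvqx_sim_arm hε z (u / ε / 2) (5 * (u / ε) / 2)
    have a1 : ε * (u / ε / 2) = u / 2 := by field_simp
    have a2 : ε * (5 * (u / ε) / 2) = 5 * u / 2 := by field_simp
    rw [a1, a2] at h4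
    show ¬ (rswArm z.re z.im (u / 2) (5 * u / 2)).Holds (cfB (cfMap (pvqxSim ε hε.ne' z) ζ)) ↔
      ¬ (rswArm (0 : ℂ).re (0 : ℂ).im (u / ε / 2) (5 * (u / ε) / 2)).Holds (cfB ζ)
    rw [h3, ← h4, pvr_holds_map]
    rfl
  show (PvLF (Conf.restr (pvqcN z u) (cfMap (pvqxSim ε hε.ne' z) η)) ∧ PvqcBlk z u (Conf.restr (pvqcN z u) (cfMap (pvqxSim ε hε.ne' z) η))) ↔
    (PvLF (Conf.restr (pvqcN 0 (u / ε)) η) ∧ PvqcBlk 0 (u / ε) (Conf.restr (pvqcN 0 (u / ε)) η))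
  rw [pvqx_LF_restr_iff, pvqx_LF_restr_iff, e1, e2]
  have := pvqx_map_finite (pvqxSim ε hε.ne' z).toEquiv (Conf.restr (pvqcN 0 (u / ε)) η)
  exact and_congr_left fun _ => this

/-! ## 7. THE EXIT -/

/-- the conclusion of STAGE 1 (`pvqm_stage1`) for the blocking family of 167 centred at `0` -/
def PvqxS1 : Prop := ∀ e : ℝ, 0 < e → ∃ u1 : ℝ, ∀ u, u1 ≤ u → pvqmV (pvqcO 0 u) (pvqcF 0 u) 1 ≤ e

theorem pvqx_eqns_cite5 : True := by
  have := @PvqxS1.eq_1
  trivial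

/-- LOC: on the grid event, blocked in the window ⟹ blocked -/
theorem pvqx_blk_sub {z : ℂ} {u : ℝ} (hu : 0 < u) : pvqxBlk z u ⊆ {η | PvqcBlk z u η} ∪ (pvqcG z u)ᶜ := by
  intro η hη
  by_cases hG : η ∈ pvqcG z u
  · refine Or.inl fun ha => ?_
    exact pvqc_arm_loc hu hG ha hη.2
  · exact Or.inr hG

/-- **the bound at a fixed mesh**: Chebyshev for the windowed event + Markov for the grid event -/
theorem pvqx_bad_le {c : ℝ} (hc : 0 < c) (hC : ∀ u : ℝ, 0 < u → c ≤ pvqmE (pvqcO 0 u) (pvqcF 0 u)) {ε u : ℝ} (hε : 0 < ε) (hu : 0 < u) (z : ℂ) :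
    pvGeo ε {g | pvQc {η | PvqcBlk z u η} g < ENNReal.ofReal (c / 4)} ≤
      ENNReal.ofReal (4 * pvqmV (pvqcO 0 (u / ε)) (pvqcF 0 (u / ε)) 1 / c ^ 2)
        + ENNReal.ofReal (8 * 53 ^ 2 * Real.exp (-(u ^ 2 / (512 * ε ^ 2)))) / ENNReal.ofReal (c / 4) := by
  have hsub : {g | pvQc {η | PvqcBlk z u η} g < ENNReal.ofReal (c / 4)} ⊆
      {g | pvQc (pvqxBlk z u) g < ENNReal.ofReal (c / 2)} ∪ {g | ENNReal.ofReal (c / 4) ≤ pvQc (pvqcG z u)ᶜ g} := by
    intro g hg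
    by_contra hcon
    rw [mem_union, not_or] at hcon
    obtain ⟨h1, h2⟩ := hcon
    have h1' : ENNReal.ofReal (c / 2) ≤ pvQc (pvqxBlk z u) g := not_lt.1 h1
    have h2' : pvQc (pvqcG z u)ᶜ g < ENNReal.ofReal (c / 4) := not_le.1 h2
    have h3 : pvQc (pvqxBlk z u) g ≤ pvQc {η | PvqcBlk z u η} g + pvQc (pvqcG z u)ᶜ g :=
      (pvqu_Qc_mono (pvqx_blk_sub hu) g).trans (pvqu_Qc_union_le _ _ g)
    have h4 : pvQc {η | PvqcBlk z u η} g + pvQc (pvqcG z u)ᶜ g < ENNReal.ofReal (c / 4) + ENNReal.ofReal (c / 4) := ENNReal.add_lt_add hg h2'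
    rw [← ENNReal.ofReal_add (by positivity) (by positivity)] at h4
    have e : c / 4 + c / 4 = c / 2 := by ring
    rw [e] at h4
    exact absurd (h1'.trans h3) (not_le.2 h4)
  refine (measure_mono hsub).trans ((measure_union_le _ _).trans (add_le_add ?_ ?_))
  · have huε : 0 < u / ε := div_pos hu hε
    have h := pvqx_transfer (pvqc_O_meas 0 (u / ε)) (pvqc_O_fin 0 (u / ε)) (pvqc_blk_meas 0 (u / ε)) hε.ne' z (pvqx_blk_meas z u)
      (by rw [pvqx_blk_pull hε, pvqx_blk_eq]) hc (by rw [← pvqx_F_eq]; exact hC _ huε)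
    rwa [← pvqx_F_eq] at h
  · refine (pvqx_markov ε (pvqc_G_meas z u).compl (by positivity)).trans ?_
    exact ENNReal.div_le_div_right (pvqc_G_prob hu (pv_isPpp ε) z) _

theorem pvqx_tendsto_div {u : ℝ} (hu : 0 < u) : Tendsto (fun ε : ℝ => u / ε) (𝓝[>] 0) atTop := by
  simp only [div_eq_mul_inv]
  exact tendsto_inv_nhdsGT_zero.const_mul_atTop hu

theorem pvqx_tendsto_exp {u : ℝ} (hu : 0 < u) : Tendsto (fun ε : ℝ => Real.exp (-(u ^ 2 / (512 * ε ^ 2)))) (𝓝[>] 0) (𝓝 0) := by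
  refine Real.tendsto_exp_neg_atTop_nhds_zero.comp ?_
  have h1 : Tendsto (fun ε : ℝ => (u / ε) ^ 2) (𝓝[>] 0) atTop := (tendsto_pow_atTop two_ne_zero).comp (pvqx_tendsto_div hu)
  have h2 := h1.const_mul_atTop (show (0 : ℝ) < 1 / 512 by norm_num)
  refine h2.congr fun ε => ?_
  rw [div_pow]
  by_cases h : ε = 0
  · simp [h]
  · field_simp

/-- **EXIT, vocabulary of 261** (`pvGeo`, `pvQc`): every centre, every scale, mesh `→ 0` -/
theorem pvqx_exit_geo (h1 : PvqxS1) : ∃ q : ℝ, 0 < q ∧ ∀ (z : ℂ) (u : ℝ), 0 < u →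
    Tendsto (fun ε => pvGeo ε {g | pvQc {η | PvqcBlk z u η} g < ENNReal.ofReal q}) (𝓝[>] 0) (𝓝 0) := by
  obtain ⟨c, hC⟩ := pvqc_C0
  obtain ⟨hc, hC⟩ := hC 0
  refine ⟨c / 4, by positivity, fun z u hu => ?_⟩
  rw [ENNReal.tendsto_nhds_zero]
  intro δ hδ
  obtain ⟨r, hr0, hr1, hr2⟩ := ENNReal.lt_iff_exists_real_btwn.1 hδ
  have hr : 0 < r := ENNReal.ofReal_pos.1 hr1
  obtain ⟨u1, hu1⟩ := h1 (r * c ^ 2 / 8) (by positivity)
  have ev1 : ∀ᶠ ε : ℝ in 𝓝[>] 0, u1 ≤ u / ε := (pvqx_tendsto_div hu).eventually_ge_atTop u1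
  have ev2 : ∀ᶠ ε : ℝ in 𝓝[>] 0, Real.exp (-(u ^ 2 / (512 * ε ^ 2))) < r * c / (8 * (8 * 53 ^ 2)) :=
    (tendsto_order.1 (pvqx_tendsto_exp hu)).2 _ (by positivity)
  filter_upwards [ev1, ev2, self_mem_nhdsWithin] with ε e1 e2 hε
  have hε' : 0 < ε := hε
  refine (pvqx_bad_le hc hC hε' hu z).trans (le_trans ?_ hr2.le)
  rw [← ENNReal.ofReal_div_of_pos (by positivity)]
  have a1 : 4 * pvqmV (pvqcO 0 (u / ε)) (pvqcF 0 (u / ε)) 1 / c ^ 2 ≤ r / 2 := by
    rw [div_le_iff₀ (by positivity)]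
    have := hu1 _ e1
    linarith
  have a2 : 8 * 53 ^ 2 * Real.exp (-(u ^ 2 / (512 * ε ^ 2))) / (c / 4) ≤ r / 2 := by
    rw [div_le_iff₀ (by positivity)]
    rw [lt_div_iff₀ (by positivity)] at e2
    linarith
  calc ENNReal.ofReal (4 * pvqmV (pvqcO 0 (u / ε)) (pvqcF 0 (u / ε)) 1 / c ^ 2) + ENNReal.ofReal (8 * 53 ^ 2 * Real.exp (-(u ^ 2 / (512 * ε ^ 2))) / (c / 4))
      ≤ ENNReal.ofReal (r / 2) + ENNReal.ofReal (r / 2) := add_le_add (ENNReal.ofReal_le_ofReal a1) (ENNReal.ofReal_le_ofReal a2)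
    _ = ENNReal.ofReal r := by
        rw [← ENNReal.ofReal_add (by positivity) (by positivity)]
        congr 1
        ring

/-- **EXIT, UNIFORM FORM** (no rate, but uniform in the centre and in the scale): the bad set of geometries has probability `≤ δ` as soon as `scale / mesh ≥ U(δ)` -/
theorem pvqx_exit_unif (h1 : PvqxS1) : ∃ q : ℝ, 0 < q ∧ ∀ δ : ℝ, 0 < δ → ∃ U : ℝ, 0 < U ∧ ∀ ε : ℝ, 0 < ε → ∀ u : ℝ, U * ε ≤ u → ∀ z : ℂ,
    pvGeo ε {g | pvQc {η | ¬ (rswArm z.re z.im (u / 2) (5 * u / 2)).Holds (cfB η)} g < ENNReal.ofReal q} ≤ ENNReal.ofReal δ ∧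
    pvGeo ε {g | pvQc {η | ¬ (rswArm z.re z.im (u / 2) (5 * u / 2)).Holds (cfW η)} g < ENNReal.ofReal q} ≤ ENNReal.ofReal δ := by
  obtain ⟨c, hC⟩ := pvqc_C0
  obtain ⟨hc, hC⟩ := hC 0
  refine ⟨c / 4, by positivity, fun δ hδ => ?_⟩
  obtain ⟨u1, hu1⟩ := h1 (δ * c ^ 2 / 8) (by positivity)
  have hexp : Tendsto (fun R : ℝ => Real.exp (-(R ^ 2 / 512))) atTop (𝓝 0) := by
    refine Real.tendsto_exp_neg_atTop_nhds_zero.comp ?_
    exact (tendsto_pow_atTop two_ne_zero).atTop_div_const (by norm_num)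
  obtain ⟨u2, hu2⟩ := eventually_atTop.1 ((tendsto_order.1 hexp).2 (δ * c / (8 * (8 * 53 ^ 2))) (by positivity))
  refine ⟨max 1 (max u1 u2), lt_of_lt_of_le one_pos (le_max_left _ _), fun ε hε u hu z => ?_⟩
  have hR : max 1 (max u1 u2) ≤ u / ε := by rwa [le_div_iff₀ hε]
  have hR1 : u1 ≤ u / ε := ((le_max_left _ _).trans (le_max_right _ _)).trans hR
  have hR2 : u2 ≤ u / ε := ((le_max_right _ _).trans (le_max_right _ _)).trans hR
  have hu0 : 0 < u := by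
    have : 0 < u / ε := lt_of_lt_of_le one_pos ((le_max_left _ _).trans hR)
    have h2 := mul_pos this hε
    rwa [div_mul_cancel₀ _ hε.ne'] at h2
  have key : pvGeo ε {g | pvQc {η | PvqcBlk z u η} g < ENNReal.ofReal (c / 4)} ≤ ENNReal.ofReal δ := by
    refine (pvqx_bad_le hc hC hε hu0 z).trans ?_
    rw [← ENNReal.ofReal_div_of_pos (by positivity)]
    have a1 : 4 * pvqmV (pvqcO 0 (u / ε)) (pvqcF 0 (u / ε)) 1 / c ^ 2 ≤ δ / 2 := by
      rw [div_le_iff₀ (by positivity)]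
      have := hu1 _ hR1
      linarith
    have a2 : 8 * 53 ^ 2 * Real.exp (-(u ^ 2 / (512 * ε ^ 2))) / (c / 4) ≤ δ / 2 := by
      have e2 := hu2 _ hR2
      have e3 : (u / ε) ^ 2 / 512 = u ^ 2 / (512 * ε ^ 2) := by
        rw [div_pow, div_div, mul_comm]
      rw [e3] at e2
      rw [div_le_iff₀ (by positivity)]
      rw [lt_div_iff₀ (by positivity)] at e2
      linarith
    calc ENNReal.ofReal (4 * pvqmV (pvqcO 0 (u / ε)) (pvqcF 0 (u / ε)) 1 / c ^ 2) + ENNReal.ofReal (8 * 53 ^ 2 * Real.exp (-(u ^ 2 / (512 * ε ^ 2))) / (c / 4))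
        ≤ ENNReal.ofReal (δ / 2) + ENNReal.ofReal (δ / 2) := add_le_add (ENNReal.ofReal_le_ofReal a1) (ENNReal.ofReal_le_ofReal a2)
      _ = ENNReal.ofReal δ := by
          rw [← ENNReal.ofReal_add (by positivity) (by positivity)]
          congr 1
          ring
  refine ⟨key, ?_⟩
  have e : {η : Conf PvPt | ¬ (rswArm z.re z.im (u / 2) (5 * u / 2)).Holds (cfW η)} = cfFlip ⁻¹' {η | PvqcBlk z u η} := by
    ext η
    simp only [mem_ofPred_eq, mem_preimage, pvr_W_eq]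
    rfl
  simp only [e, pvqu_Qc_flip]
  exact key

/-- **THE EXIT OF QBX, form FROZEN by 196 at 08:50Z** (`PvaxQbx q` of `Arm/BxpPv.lean` after `cases b`; vocabulary of 261) -/
theorem pvqx_exit_Qc (h1 : PvqxS1) : ∃ q : ℝ, 0 < q ∧ ∀ (z : ℂ) (u : ℝ), 0 < u →
    Tendsto (fun ε : ℝ => pvGeo ε {g | pvQc {η | ¬ (rswArm z.re z.im (u / 2) (5 * u / 2)).Holds (cfB η)} g < ENNReal.ofReal q}) (𝓝[>] 0) (𝓝 0) ∧
    Tendsto (fun ε : ℝ => pvGeo ε {g | pvQc {η | ¬ (rswArm z.re z.im (u / 2) (5 * u / 2)).Holds (cfW η)} g < ENNReal.ofReal q}) (𝓝[>] 0) (𝓝 0) := by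
  obtain ⟨q, hq, h⟩ := pvqx_exit_geo h1
  refine ⟨q, hq, fun z u hu => ⟨h z u hu, ?_⟩⟩
  have e : {η : Conf PvPt | ¬ (rswArm z.re z.im (u / 2) (5 * u / 2)).Holds (cfW η)} = cfFlip ⁻¹' {η | PvqcBlk z u η} := by
    ext η
    simp only [mem_ofPred_eq, mem_preimage, pvr_W_eq]
    rfl
  simp only [e, pvqu_Qc_flip]
  exact h z u hu

/-- the same from the contracts of Qbx/Main -/
theorem pvqx_exit_Qc_main (hL : PvqmLay) (hR : PvqmRev (fun u => pvqcO 0 u) (fun u => pvqcF 0 u)) : ∃ q : ℝ, 0 < q ∧ ∀ (z : ℂ) (u : ℝ), 0 < u →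
    Tendsto (fun ε : ℝ => pvGeo ε {g | pvQc {η | ¬ (rswArm z.re z.im (u / 2) (5 * u / 2)).Holds (cfB η)} g < ENNReal.ofReal q}) (𝓝[>] 0) (𝓝 0) ∧
    Tendsto (fun ε : ℝ => pvGeo ε {g | pvQc {η | ¬ (rswArm z.re z.im (u / 2) (5 * u / 2)).Holds (cfW η)} g < ENNReal.ofReal q}) (𝓝[>] 0) (𝓝 0) :=
  pvqx_exit_Qc (pvqm_stage1 hL (fun _ hu => pvqc_win 0 hu) (fun u _ => pvqc_test 0 u) hR)

/-! ### the bridge to the vocabulary of 268 (`S1/Meas`: `pvfBaseLaw`, `colLaw`, `pvfGlue`) -/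

theorem pvqx_base_eq (ε : ℝ) : pvfBaseLaw ε = pvGeo ε := rfl

theorem pvqx_col_eq (A : Set (Conf PvPt)) (g : PvfBase) : colLaw PvfIx {s | pvConf (pvfGlue (g, s)) ∈ A} = pvQc A g := rfl

/-- **THE EXIT OF QBX** (form asked by 196, `PvaxQbx` of `Arm/BxpPv.lean`, ratio 5): for every centre `z` and every scale `u`, off a set of labelled geometries whose (outer) probability tends to `0` with the mesh,
the quenched probability that NO black (white) arm crosses the square annulus `(u/2, 5u/2)` round `z` is at least `q` -/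
theorem pvqx_exit (h1 : PvqxS1) : ∃ q : ℝ, 0 < q ∧ ∀ (z : ℂ) (u : ℝ), 0 < u →
    Tendsto (fun ε => pvfBaseLaw ε {g | colLaw PvfIx {s | ¬ (rswArm z.re z.im (u / 2) (5 * u / 2)).Holds (cfB (pvConf (pvfGlue (g, s))))} < ENNReal.ofReal q})
      (𝓝[>] 0) (𝓝 0) ∧
    Tendsto (fun ε => pvfBaseLaw ε {g | colLaw PvfIx {s | ¬ (rswArm z.re z.im (u / 2) (5 * u / 2)).Holds (cfW (pvConf (pvfGlue (g, s))))} < ENNReal.ofReal q})
      (𝓝[>] 0) (𝓝 0) := by
  obtain ⟨q, hq, h⟩ := pvqx_exit_geo h1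
  refine ⟨q, hq, fun z u hu => ⟨h z u hu, ?_⟩⟩
  have e : ∀ g : PvfBase, colLaw PvfIx {s | ¬ (rswArm z.re z.im (u / 2) (5 * u / 2)).Holds (cfW (pvConf (pvfGlue (g, s))))} = pvQc {η | PvqcBlk z u η} g := by
    intro g
    rw [← pvqu_Qc_flip {η | PvqcBlk z u η} g, ← pvqx_col_eq]
    congr 1
    ext s
    simp only [mem_ofPred_eq, mem_preimage, pvr_W_eq]
    rfl
  simp only [e]
  exact h z u hu

/-- the exit from the contracts of Qbx/Main : `[LAY]` + `[REV]` for the blocking family      (`[REP]` is NOT needed: at time `1` the two-replica process IS the two-coloured process of 261) -/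
theorem pvqx_exit_main (hL : PvqmLay) (hR : PvqmRev (fun u => pvqcO 0 u) (fun u => pvqcF 0 u)) : ∃ q : ℝ, 0 < q ∧ ∀ (z : ℂ) (u : ℝ), 0 < u →
    Tendsto (fun ε => pvfBaseLaw ε {g | colLaw PvfIx {s | ¬ (rswArm z.re z.im (u / 2) (5 * u / 2)).Holds (cfB (pvConf (pvfGlue (g, s))))} < ENNReal.ofReal q})
      (𝓝[>] 0) (𝓝 0) ∧
    Tendsto (fun ε => pvfBaseLaw ε {g | colLaw PvfIx {s | ¬ (rswArm z.re z.im (u / 2) (5 * u / 2)).Holds (cfW (pvConf (pvfGlue (g, s))))} < ENNReal.ofReal q})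
      (𝓝[>] 0) (𝓝 0) :=
  pvqx_exit (pvqm_stage1 hL (fun _ hu => pvqc_win 0 hu) (fun u _ => pvqc_test 0 u) hR)

end Claimed.Agent.R289
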