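import Claimed.Agent.R289.Qbx.Lay
import Claimed.Agent.R289.Qbx.Main

/-!
# Row 289 (S0537), box QBX (quenched box crossing), file Qbx/Link : FROM THE LAYERS TO THE CONTRACT `PvqmLay`      (owner helper248; prefix `pvqn`)

`Qbx/Lay` proves the thinning inequalities (TI-1, I1) for the layered system `pvqlSys ι r ν f` (`n = |ι|` iid thin layers, each one = a Poisson number of iid
points + iid colours).  `Qbx/Main` states the contract `PvqmLay` with the canonical objects: the two replica value `pvqmV W F t`, the quenched mean `pvqmY W F t S` and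
the level one coefficient `pvqmC W F t S x` over a FINITE SET `S` of revealed positions (uniform subset of black points + hidden Poisson process).

This file is the dictionary.
* sec. 1 `pvqn_map_update` (resampling one coordinate of an infinite product), `pvqnCol`, **US** `pvqn_us` : iid fair colours on distinct positions = uniform subset.
* sec. 2 `pvqnPart R g c` (the layers in `R`), its law `pvqn_law_part`, sites, positions, a.s. injectivity, law of the revealed positions `pvqn_law_pos`.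
* sec. 3 **LINK** `pvqn_link` : at FIXED positions `g` of the layers in `T`, the mean over the hidden layers and all the colours is `pvqmAv`.
* sec. 4 `pvqn_E_X`, `pvqn_E_cf` (D1), `pvqn_v_eq` (`v T = pvqmV W F (|T|/n)` = `pvqr_v_eq` of 294), `pvqn_w_le`.
* sec. 5 the contracts `pvqn_lay : PvqmLay`, `pvqn_repK : PvqmRepK` (from `pvqr_REP` of 294 + D0 D1 D2 + measurability of `pvqmY`).
-/

set_option autoImplicit false
set_option linter.unusedSectionVars false
set_option linter.unusedVariables false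

namespace Claimed.Agent.R289

open MeasureTheory ProbabilityTheory Set Filter
open scoped ENNReal NNReal

/-! ## 1. iid fair colours on distinct positions = uniform subset of black points -/

/-- resampling one coordinate of an infinite product -/
theorem pvqn_map_update {α X : Type} [DecidableEq α] [MeasurableSpace X] (μ : α → Measure X) [∀ a, IsProbabilityMeasure (μ a)] (a : α) :
    ((Measure.infinitePi μ).prod (μ a)).map (fun p : (α → X) × X => Function.update p.1 a p.2) = Measure.infinitePi μ := by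
  have hm : Measurable (fun p : (α → X) × X => Function.update p.1 a p.2) := by
    refine measurable_pi_iff.2 fun b => ?_
    by_cases hb : b = a
    · subst hb
      simpa using measurable_snd
    · have h1 : Measurable fun p : (α → X) × X => p.1 b := (measurable_pi_apply b).comp measurable_fst
      simpa [Function.update_of_ne hb] using h1
  refine Measure.eq_infinitePi μ fun s t ht => ?_
  rw [Measure.map_apply hm (MeasurableSet.pi s.countable_toSet fun i _ => ht i)]
  have hpre : (fun p : (α → X) × X => Function.update p.1 a p.2) ⁻¹' (Set.pi (s : Set α) t)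
      = (Set.pi ((s.erase a : Finset α) : Set α) t) ×ˢ (if a ∈ s then t a else univ) := by
    ext ⟨y, x⟩
    simp only [mem_preimage, Set.mem_pi, Finset.mem_coe, mem_prod, Finset.mem_erase, and_imp]
    constructor
    · intro h
      refine ⟨fun i hia his => ?_, ?_⟩
      · have := h i his
        rwa [Function.update_of_ne hia] at this
      · split_ifs with has
        · have := h a has
          rwa [Function.update_self] at this
        · trivial
    · rintro ⟨h1, h2⟩ i his
      by_cases hia : i = a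
      · subst hia
        rw [if_pos his] at h2
        rwa [Function.update_self]
      · rw [Function.update_of_ne hia]
        exact h1 i hia his
  rw [hpre, Measure.prod_prod, Measure.infinitePi_pi μ (fun i _ => ht i)]
  by_cases has : a ∈ s
  · rw [if_pos has, mul_comm, Finset.mul_prod_erase s (fun i => μ i (t i)) has]
  · rw [if_neg has, measure_univ, mul_one, Finset.erase_eq_of_notMem has]

/-- the coloured configuration with sites `A`, positions `pos`, colours `y` -/
def pvqnCol {α : Type} (A : Finset α) (pos : α → ℂ) (y : α → Bool) : Conf PvPt := ⟨{p | ∃ a ∈ A, p = (pos a, y a)}⟩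

theorem pvqn_eqns_cite1 : True := by
  have := @pvqnCol.eq_1
  trivial

theorem pvqn_measurable_col {α : Type} (A : Finset α) (pos : α → ℂ) : Measurable (pvqnCol A pos) := by
  refine Conf.measurable_of_void fun B hB => ?_
  have : pvqnCol A pos ⁻¹' Conf.void B = ⋂ a ∈ A, (fun y : α → Bool => y a) ⁻¹' {b | (pos a, b) ∉ B} := by
    ext y
    simp only [mem_preimage, Conf.mem_void, pvqnCol, mem_ofPred_eq, forall_exists_index, and_imp, mem_iInter]
    exact ⟨fun h a ha => h _ a ha rfl, fun h p a ha hp => hp ▸ h a ha⟩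
  rw [this]
  exact Finset.measurableSet_biInter A fun a _ => (measurable_pi_apply a) (MeasurableSet.of_discrete)

theorem pvqn_col_empty {α : Type} (pos : α → ℂ) (y : α → Bool) : pvqnCol ∅ pos y = ⟨∅⟩ := by
  refine Conf.ext ?_
  ext p
  simp [pvqnCol]

theorem pvqn_col_insert {α : Type} [DecidableEq α] (a : α) (A : Finset α) (pos : α → ℂ) (y : α → Bool) :
    pvqnCol (insert a A) pos y = Conf.ins (pos a, y a) (pvqnCol A pos y) := by
  refine Conf.ext ?_
  ext p
  simp [pvqnCol, Conf.ins]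

theorem pvqn_col_update {α : Type} [DecidableEq α] {a : α} {A : Finset α} (ha : a ∉ A) (pos : α → ℂ) (y : α → Bool) (b : Bool) :
    pvqnCol A pos (Function.update y a b) = pvqnCol A pos y := by
  refine Conf.ext ?_
  ext p
  simp only [pvqnCol, mem_ofPred_eq]
  constructor
  · rintro ⟨c, hc, rfl⟩
    have hca : c ≠ a := fun h => ha (h ▸ hc)
    exact ⟨c, hc, by rw [Function.update_of_ne hca]⟩
  · rintro ⟨c, hc, rfl⟩
    have hca : c ≠ a := fun h => ha (h ▸ hc)
    exact ⟨c, hc, by rw [Function.update_of_ne hca]⟩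

theorem pvqn_ins_true {x : ℂ} {S B : Finset ℂ} (hx : x ∉ S) (hB : B ⊆ S) : Conf.ins (x, true) (pvqmCol S B) = pvqmCol (insert x S) (insert x B) := by
  refine Conf.ext ?_
  ext ⟨z, b⟩
  simp only [Conf.ins, pvqmCol, mem_insert_iff, mem_ofPred_eq, Prod.mk.injEq, Finset.mem_insert]
  by_cases hz : z = x
  · subst hz
    simp [hx]
  · simp [hz]

theorem pvqn_ins_false {x : ℂ} {S B : Finset ℂ} (hx : x ∉ S) (hB : B ⊆ S) : Conf.ins (x, false) (pvqmCol S B) = pvqmCol (insert x S) B := by
  have hxB : x ∉ B := fun h => hx (hB h)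
  ext p
  simp only [Conf.ins, pvqmCol, mem_insert_iff, mem_ofPred_eq, Finset.mem_insert]
  constructor
  · rintro (rfl | ⟨h1, h2⟩)
    · exact ⟨Or.inl rfl, by simp [hxB]⟩
    · exact ⟨Or.inr h1, h2⟩
  · rintro ⟨h1 | h1, h2⟩
    · left
      have h3 : p.2 = false := by
        rw [h1] at h2
        cases hp : p.2
        · rfl
        · exact absurd (h2.1 hp) hxB
      exact Prod.ext h1 h3
    · exact Or.inr ⟨h1, h2⟩

/-- **US**: iid fair colours on distinct positions = uniform subset of black points.      Induction on `A` (generalise `h`): `pvqn_col_insert`, resample the coordinate `a` (`pvqn_map_update` + `pvql_integral_coin`), `pvqn_col_update`, `Finset.sum_powerset_insert`, `pvqn_ins_true/false`. -/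
theorem pvqn_us {α : Type} [DecidableEq α] (A : Finset α) (pos : α → ℂ) (hinj : Set.InjOn pos A) {h : Conf PvPt → ℝ} (hh : PvqlB h) :
    ∫ y, h (pvqnCol A pos y) ∂(Measure.infinitePi fun _ : α => pvCoin)
      = ((2 : ℝ) ^ (A.image pos).card)⁻¹ * ∑ B ∈ (A.image pos).powerset, h (pvqmCol (A.image pos) B) := by
  induction A using Finset.induction_on generalizing h with
  | empty =>
    have e : ∀ y : α → Bool, h (pvqnCol ∅ pos y) = h ⟨∅⟩ := fun y => by rw [pvqn_col_empty]
    have e2 : pvqmCol ∅ ∅ = (⟨∅⟩ : Conf PvPt) := by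
      apply Conf.ext
      ext p
      simp [pvqmCol]
    simp only [e, integral_const, probReal_univ, one_smul, Finset.image_empty, Finset.card_empty, pow_zero, inv_one, one_mul,
      Finset.powerset_empty, Finset.sum_singleton, e2]
  | @insert a A ha ih =>
    obtain ⟨hm, C, hC⟩ := hh
    have hinjA : Set.InjOn pos A := hinj.mono (by intro z hz; exact Finset.mem_coe.2 (Finset.mem_insert_of_mem (Finset.mem_coe.1 hz)))
    have hx : pos a ∉ A.image pos := by
      intro hmem
      obtain ⟨b, hb, hab⟩ := Finset.mem_image.1 hmem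
      have := hinj (Finset.mem_coe.2 (Finset.mem_insert_of_mem hb)) (Finset.mem_coe.2 (Finset.mem_insert_self a A)) hab
      exact ha (this ▸ hb)
    have hB : ∀ b : Bool, PvqlB fun η : Conf PvPt => h (Conf.ins (pos a, b) η) := fun b =>
      ⟨hm.comp (Conf.measurable_ins.comp (measurable_const.prodMk measurable_id)), C, fun η => hC _⟩
    have hF : Measurable fun y : α → Bool => h (pvqnCol (insert a A) pos y) := hm.comp (pvqn_measurable_col _ _)
    have hup : Measurable fun p : (α → Bool) × Bool => Function.update p.1 a p.2 := by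
      refine measurable_pi_lambda _ fun i => ?_
      by_cases hi : i = a
      · subst hi
        simpa using measurable_snd
      · have : (fun c : (α → Bool) × Bool => Function.update c.1 a c.2 i) = fun c => c.1 i := by
          funext c
          rw [Function.update_of_ne hi]
        rw [this]
        exact (measurable_pi_apply i).comp measurable_fst
    have hint : Integrable (fun p : (α → Bool) × Bool => h (pvqnCol (insert a A) pos (Function.update p.1 a p.2)))
        ((Measure.infinitePi fun _ : α => pvCoin).prod pvCoin) :=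
      Integrable.of_bound (hF.comp hup).aestronglyMeasurable C (Eventually.of_forall fun p => by rw [Real.norm_eq_abs]; exact hC _)
    have h1 : ∫ y, h (pvqnCol (insert a A) pos y) ∂(Measure.infinitePi fun _ : α => pvCoin)
        = ∫ y, (h (Conf.ins (pos a, true) (pvqnCol A pos y)) + h (Conf.ins (pos a, false) (pvqnCol A pos y))) / 2 ∂(Measure.infinitePi fun _ : α => pvCoin) := by
      conv_lhs => rw [← pvqn_map_update (fun _ : α => pvCoin) a]
      rw [integral_map hup.aemeasurable hF.aestronglyMeasurable, integral_prod _ hint]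
      refine integral_congr_ae (Eventually.of_forall fun y => ?_)
      show ∫ b, h (pvqnCol (insert a A) pos (Function.update y a b)) ∂pvCoin = _
      rw [pvql_integral_coin]
      simp only [pvqn_col_insert, Function.update_self, pvqn_col_update ha]
    have i1 : Integrable (fun y : α → Bool => h (Conf.ins (pos a, true) (pvqnCol A pos y))) (Measure.infinitePi fun _ : α => pvCoin) :=
      Integrable.of_bound ((hB true).1.comp (pvqn_measurable_col _ _)).aestronglyMeasurable C (Eventually.of_forall fun p => by rw [Real.norm_eq_abs]; exact hC _)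
    have i0 : Integrable (fun y : α → Bool => h (Conf.ins (pos a, false) (pvqnCol A pos y))) (Measure.infinitePi fun _ : α => pvCoin) :=
      Integrable.of_bound ((hB false).1.comp (pvqn_measurable_col _ _)).aestronglyMeasurable C (Eventually.of_forall fun p => by rw [Real.norm_eq_abs]; exact hC _)
    rw [h1, integral_div, integral_add i1 i0, ih hinjA (hB true), ih hinjA (hB false), Finset.image_insert, Finset.card_insert_of_notMem hx,
      Finset.sum_powerset_insert hx]
    have s1 : ∑ B ∈ (A.image pos).powerset, h (Conf.ins (pos a, true) (pvqmCol (A.image pos) B))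
        = ∑ B ∈ (A.image pos).powerset, h (pvqmCol (insert (pos a) (A.image pos)) (insert (pos a) B)) :=
      Finset.sum_congr rfl fun B hBm => by rw [pvqn_ins_true hx (Finset.mem_powerset.1 hBm)]
    have s0 : ∑ B ∈ (A.image pos).powerset, h (Conf.ins (pos a, false) (pvqmCol (A.image pos) B))
        = ∑ B ∈ (A.image pos).powerset, h (pvqmCol (insert (pos a) (A.image pos)) B) :=
      Finset.sum_congr rfl fun B hBm => by rw [pvqn_ins_false hx (Finset.mem_powerset.1 hBm)]
    rw [s1, s0, pow_succ, mul_inv]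
    ring

/-! ## 2. parts of the layered configuration -/

section part

variable {ι : Type} [Fintype ι] [DecidableEq ι]

/-- the layers in `R` -/
def pvqnPart (R : Finset ι) (g : ι → PvqlG) (c : ι → PvqlC) : Conf PvPt := ⟨{p | ∃ j ∈ R, p ∈ (pvqlCfg (g j) (c j)).pts}⟩

/-- the sites of the layers in `T` -/
def pvqnSites (T : Finset ι) (g : ι → PvqlG) : Finset (ι × ℕ) := T.biUnion fun j => (Finset.range (g j).1).image fun m => (j, m)

/-- the position of a site -/
def pvqnPos (g : ι → PvqlG) (a : ι × ℕ) : ℂ := (g a.1).2 a.2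

/-- the revealed positions -/
noncomputable def pvqnS (T : Finset ι) (g : ι → PvqlG) : Finset ℂ := (pvqnSites T g).image (pvqnPos g)

theorem pvqn_eqns_cite2 : True := by
  have := @pvqnPart.eq_1
  have := @pvqnSites.eq_1
  have := @pvqnPos.eq_1
  have := @pvqnS.eq_1
  trivial

theorem pvqn_mem_sites {T : Finset ι} {g : ι → PvqlG} {a : ι × ℕ} : a ∈ pvqnSites T g ↔ a.1 ∈ T ∧ a.2 < (g a.1).1 := by
  obtain ⟨j, m⟩ := a
  simp only [pvqnSites, Finset.mem_biUnion, Finset.mem_image, Finset.mem_range, Prod.mk.injEq]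
  constructor
  · rintro ⟨j', hj', m', hm', rfl, rfl⟩
    exact ⟨hj', hm'⟩
  · rintro ⟨h1, h2⟩
    exact ⟨j, h1, m, h2, rfl, rfl⟩

theorem pvqn_measurable_part (R : Finset ι) : Measurable fun p : (ι → PvqlG) × (ι → PvqlC) => pvqnPart R p.1 p.2 := by
  refine Conf.measurable_of_void fun B hB => ?_
  have e : (fun p : (ι → PvqlG) × (ι → PvqlC) => pvqnPart R p.1 p.2) ⁻¹' Conf.void B
      = ⋂ j ∈ R, (fun p : (ι → PvqlG) × (ι → PvqlC) => pvqlCfg (p.1 j) (p.2 j)) ⁻¹' Conf.void B := by
    ext p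
    simp only [mem_preimage, Conf.mem_void, pvqnPart, mem_ofPred_eq, forall_exists_index, and_imp, mem_iInter]
    exact ⟨fun h j hj q hq => h q j hj hq, fun h q j hj hq => h j hj q hq⟩
  rw [e]
  refine Finset.measurableSet_biInter _ fun j _ => ?_
  have hm : Measurable fun p : (ι → PvqlG) × (ι → PvqlC) => pvqlCfg (p.1 j) (p.2 j) :=
    pvql_measurable_cfg.comp (f := fun p : (ι → PvqlG) × (ι → PvqlC) => (p.1 j, p.2 j))
      (((measurable_pi_apply j).comp measurable_fst).prodMk ((measurable_pi_apply j).comp measurable_snd))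
  exact hm (Conf.measurableSet_void hB)

theorem pvqn_all_mix (T : Finset ι) (g g' : ι → PvqlG) (c : ι → PvqlC) :
    pvqlAll (pvqlMix T g g') c = Conf.union (pvqnPart T g c) (pvqnPart Tᶜ g' c) := by
  ext p
  simp only [pvqlAll, Conf.iUnion, mem_iUnion, Conf.union, pvqnPart, mem_union, mem_ofPred_eq, Finset.mem_compl, pvqlMix]
  constructor
  · rintro ⟨j, hj⟩
    by_cases h : j ∈ T
    · rw [if_pos h] at hj; exact Or.inl ⟨j, h, hj⟩
    · rw [if_neg h] at hj; exact Or.inr ⟨j, h, hj⟩
  · rintro (⟨j, h, hj⟩ | ⟨j, h, hj⟩)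
    · exact ⟨j, by rw [if_pos h]; exact hj⟩
    · exact ⟨j, by rw [if_neg h]; exact hj⟩

theorem pvqn_part_mix_left (T : Finset ι) (g : ι → PvqlG) (c c' : ι → PvqlC) : pvqnPart T g (pvqlMix T c c') = pvqnPart T g c := by
  ext p
  simp only [pvqnPart, mem_ofPred_eq, pvqlMix]
  constructor
  · rintro ⟨j, h, hj⟩
    rw [if_pos h] at hj; exact ⟨j, h, hj⟩
  · rintro ⟨j, h, hj⟩
    exact ⟨j, h, by rw [if_pos h]; exact hj⟩

theorem pvqn_part_mix_right (T : Finset ι) (g : ι → PvqlG) (c c' : ι → PvqlC) : pvqnPart Tᶜ g (pvqlMix T c c') = pvqnPart Tᶜ g c' := by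
  apply Conf.ext
  ext p
  constructor
  · rintro ⟨j, hj, hp⟩
    refine ⟨j, hj, ?_⟩
    have e : pvqlMix T c c' j = c' j := if_neg (Finset.mem_compl.1 hj)
    rwa [e] at hp
  · rintro ⟨j, hj, hp⟩
    refine ⟨j, hj, ?_⟩
    have e : pvqlMix T c c' j = c' j := if_neg (Finset.mem_compl.1 hj)
    rwa [e]

theorem pvqn_part_eq (T : Finset ι) (g : ι → PvqlG) (c : ι → PvqlC) :
    pvqnPart T g c = pvqnCol (pvqnSites T g) (pvqnPos g) (fun a => c a.1 a.2) := by
  apply Conf.ext
  ext p
  constructor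
  · rintro ⟨j, hj, m, hm, rfl⟩
    exact ⟨(j, m), pvqn_mem_sites.2 ⟨hj, hm⟩, rfl⟩
  · rintro ⟨⟨j, m⟩, ha, rfl⟩
    obtain ⟨hj, hm⟩ := pvqn_mem_sites.1 ha
    exact ⟨j, hj, m, hm, rfl⟩

/-- the layers in `R` form a Poisson process.      Copy of the proof of `pvql_law` with the maps `fun p => if j ∈ R then pvqlCfg p.1 p.2 else ⟨∅⟩` (`IsPpp.iUnion`, `Measure.pi_map_pi`). -/
theorem pvqn_law_part (r : ℝ≥0) (ν : Measure ℂ) [IsProbabilityMeasure ν] (R : Finset ι) :
    IsPpp (((R.card : ℝ≥0∞) * r) • (ν.prod pvCoin))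
      (((pvqlPi ι (pvqlGam r ν)).prod (pvqlPi ι pvqlKap)).map fun p => pvqnPart R p.1 p.2) := by
  have h1 := pvql_law_one r ν
  have hmj : ∀ j : ι, Measurable (fun p : PvqlG × PvqlC => if j ∈ R then pvqlCfg p.1 p.2 else (⟨∅⟩ : Conf PvPt)) := by
    intro j
    by_cases hj : j ∈ R
    · simp only [if_pos hj]; exact pvql_measurable_cfg
    · simp only [if_neg hj]; exact measurable_const
  have hj : ∀ j : ι, IsPpp (if j ∈ R then (r : ℝ≥0∞) • (ν.prod pvCoin) else 0)
      (((pvqlGam r ν).prod pvqlKap).map fun p => if j ∈ R then pvqlCfg p.1 p.2 else (⟨∅⟩ : Conf PvPt)) := by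
    intro j
    by_cases hj : j ∈ R
    · simp only [if_pos hj]; exact h1
    · simp only [if_neg hj]
      refine ⟨fun B hB => ?_⟩
      rw [Measure.map_const, measure_univ, one_smul, Measure.dirac_apply' _ (Conf.measurableSet_void hB)]
      simp [Conf.mem_void, expNeg_zero]
  have h := IsPpp.iUnion (ι := ι) hj
  have hs : Measure.sum (fun j : ι => if j ∈ R then (r : ℝ≥0∞) • (ν.prod pvCoin) else 0) = ((R.card : ℝ≥0∞) * r) • (ν.prod pvCoin) := by
    rw [Measure.sum_fintype, ← Finset.sum_filter, Finset.sum_const, ← smul_assoc]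
    congr 1
    simp
  rw [hs] at h
  have hz := infinitePi_prod_zip (fun _ : ι => pvqlGam r ν) (fun _ : ι => pvqlKap)
  have hp := fun j => (hj j).prob
  have e : ((pvqlPi ι (pvqlGam r ν)).prod (pvqlPi ι pvqlKap)).map (fun p => pvqnPart R p.1 p.2)
      = (Measure.infinitePi fun j : ι => ((pvqlGam r ν).prod pvqlKap).map fun p => if j ∈ R then pvqlCfg p.1 p.2 else (⟨∅⟩ : Conf PvPt)).map Conf.iUnion := by
    have hm : Measurable (fun p : (ι → PvqlG) × (ι → PvqlC) => fun i => (p.1 i, p.2 i)) := by fun_prop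
    have hm2 : Measurable (fun (x : ι → PvqlG × PvqlC) j => if j ∈ R then pvqlCfg (x j).1 (x j).2 else (⟨∅⟩ : Conf PvPt)) :=
      measurable_pi_lambda _ fun j => (hmj j).comp (measurable_pi_apply j)
    rw [Measure.infinitePi_eq_pi, ← Measure.pi_map_pi (fun j => (hmj j).aemeasurable), ← Measure.infinitePi_eq_pi, ← hz,
      Measure.map_map hm2 hm, Measure.map_map Conf.measurable_iUnion (hm2.comp hm),
      Measure.infinitePi_eq_pi, Measure.infinitePi_eq_pi]
    congr 1
    funext p
    simp only [pvqnPart, Conf.iUnion, Function.comp]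
    congr 1
    ext q
    simp only [mem_ofPred_eq, mem_iUnion]
    constructor
    · rintro ⟨j, hjR, hq⟩
      exact ⟨j, by rw [if_pos hjR]; exact hq⟩
    · rintro ⟨j, hq⟩
      by_cases hjR : j ∈ R
      · rw [if_pos hjR] at hq; exact ⟨j, hjR, hq⟩
      · rw [if_neg hjR] at hq; exact absurd hq (by simp)
  rw [e]; exact h

/-- the colours of all the sites are iid fair coins (`Measure.infinitePi_map_curry_symm`, `Measure.infinitePi_eq_pi`) -/
theorem pvqn_kap_flat : (pvqlPi ι pvqlKap).map (fun (c : ι → PvqlC) (a : ι × ℕ) => c a.1 a.2) = Measure.infinitePi fun _ : ι × ℕ => pvCoin := by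
  have : IsProbabilityMeasure pvCoin := by unfold pvCoin; infer_instance
  have h := Measure.infinitePi_map_curry_symm (ι := ι) (κ := ℕ) (X := Bool) (fun _ _ => pvCoin)
  unfold pvqlPi pvqlKap
  rw [← Measure.infinitePi_eq_pi]
  exact h

/-- almost surely all the positions are distinct -/
theorem pvqn_ae_inj (r : ℝ≥0) (ν : Measure ℂ) [IsProbabilityMeasure ν] [NullSingletonClass ν] :
    ∀ᵐ g ∂(pvqlPi ι (pvqlGam r ν)), Function.Injective (pvqnPos g) := by
  have hγ : IsProbabilityMeasure (pvqlGam r ν) := by unfold pvqlGam; infer_instance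
  have hmap : ∀ m : ℕ, (pvqlGam r ν).map (fun y : PvqlG => y.2 m) = ν := by
    intro m
    have h1 : (fun y : PvqlG => y.2 m) = (fun x : ℕ → ℂ => x m) ∘ Prod.snd := rfl
    rw [h1, ← Measure.map_map (measurable_pi_apply m) measurable_snd]
    unfold pvqlGam
    rw [Measure.map_snd_prod, measure_univ, one_smul, Measure.infinitePi_map_eval]
  have hev : ∀ (m : ℕ) (a : ℂ), (pvqlGam r ν) {y : PvqlG | y.2 m = a} = 0 := by
    intro m a
    have h2 : Measurable fun y : PvqlG => y.2 m := (measurable_pi_apply m).comp measurable_snd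
    have := Measure.map_apply (μ := pvqlGam r ν) h2 (measurableSet_singleton a)
    rw [hmap m, measure_singleton] at this
    exact this.symm
  have hpair : ∀ a b : ι × ℕ, a ≠ b → ∀ᵐ g ∂(pvqlPi ι (pvqlGam r ν)), pvqnPos g a ≠ pvqnPos g b := by
    rintro ⟨j, m⟩ ⟨j', m'⟩ hab
    rw [ae_iff]
    simp only [pvqnPos, ne_eq, not_not]
    by_cases hj : j = j'
    · subst hj
      have hm : m ≠ m' := fun h => hab (by rw [h])
      have hS : MeasurableSet {y : PvqlG | y.2 m = y.2 m'} :=
        measurableSet_eq_fun ((measurable_pi_apply m).comp measurable_snd) ((measurable_pi_apply m').comp measurable_snd)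
      have h0 : (pvqlGam r ν) {y : PvqlG | y.2 m = y.2 m'} = 0 := by
        have hD : MeasurableSet {x : ℕ → ℂ | x m = x m'} := measurableSet_eq_fun (measurable_pi_apply m) (measurable_pi_apply m')
        have h3 : (Measure.infinitePi fun _ : ℕ => ν) {x : ℕ → ℂ | x m = x m'} = 0 := by
          have h4 := Measure.infinitePi_map_eval_prod (P := fun _ : ℕ => ν) hm
          have hd : MeasurableSet {p : ℂ × ℂ | p.1 = p.2} := measurableSet_eq_fun measurable_fst measurable_snd
          have h5 := Measure.map_apply (μ := Measure.infinitePi fun _ : ℕ => ν)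
            ((measurable_pi_apply m).prodMk (measurable_pi_apply m')) hd
          rw [h4] at h5
          have h6 : (ν.prod ν) {p : ℂ × ℂ | p.1 = p.2} = 0 := by
            rw [Measure.measure_prod_null hd]
            refine Eventually.of_forall fun x => ?_
            have : Prod.mk x ⁻¹' {p : ℂ × ℂ | p.1 = p.2} = {x} := by
              ext y; simp only [mem_preimage, mem_ofPred_eq, mem_singleton_iff]; exact eq_comm
            change ν (Prod.mk x ⁻¹' {p : ℂ × ℂ | p.1 = p.2}) = 0
            rw [this]; exact measure_singleton x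
          rw [h6] at h5
          exact h5.symm
        have h7 : {y : PvqlG | y.2 m = y.2 m'} = univ ×ˢ {x : ℕ → ℂ | x m = x m'} := by
          ext y; simp
        unfold pvqlGam
        rw [h7, Measure.prod_prod, h3, mul_zero]
      have := (measurePreserving_eval (fun _ : ι => pvqlGam r ν) j).measure_preimage hS.nullMeasurableSet
      rw [h0] at this
      exact this
    · have h4 : (pvqlPi ι (pvqlGam r ν)).map (fun g => (g j, g j')) = (pvqlGam r ν).prod (pvqlGam r ν) := by
        unfold pvqlPi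
        rw [← Measure.infinitePi_eq_pi]
        exact Measure.infinitePi_map_eval_prod (P := fun _ : ι => pvqlGam r ν) hj
      have hd : MeasurableSet {p : PvqlG × PvqlG | p.1.2 m = p.2.2 m'} :=
        measurableSet_eq_fun ((measurable_pi_apply m).comp (measurable_snd.comp measurable_fst))
          ((measurable_pi_apply m').comp (measurable_snd.comp measurable_snd))
      have h5 := Measure.map_apply (μ := pvqlPi ι (pvqlGam r ν)) ((measurable_pi_apply j).prodMk (measurable_pi_apply j')) hd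
      rw [h4] at h5
      have h6 : ((pvqlGam r ν).prod (pvqlGam r ν)) {p : PvqlG × PvqlG | p.1.2 m = p.2.2 m'} = 0 := by
        rw [Measure.measure_prod_null hd]
        refine Eventually.of_forall fun x => ?_
        have : Prod.mk x ⁻¹' {p : PvqlG × PvqlG | p.1.2 m = p.2.2 m'} = {y : PvqlG | y.2 m' = x.2 m} := by
          ext y; simp only [mem_preimage, mem_ofPred_eq]; exact eq_comm
        change (pvqlGam r ν) (Prod.mk x ⁻¹' {p : PvqlG × PvqlG | p.1.2 m = p.2.2 m'}) = 0
        rw [this]; exact hev m' _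
      rw [h6] at h5
      exact h5.symm
  have hall : ∀ᵐ g ∂(pvqlPi ι (pvqlGam r ν)), ∀ a b : ι × ℕ, a ≠ b → pvqnPos g a ≠ pvqnPos g b := by
    rw [ae_all_iff]; intro a
    rw [ae_all_iff]; intro b
    by_cases hab : a = b
    · exact Eventually.of_forall fun g h => absurd hab h
    · filter_upwards [hpair a b hab] with g hg _ using hg
  filter_upwards [hall] with g hg a b hab
  by_contra hne
  exact hg a b hne hab

theorem pvqn_measurable_S (T : Finset ι) : Measurable fun g : ι → PvqlG => (⟨(pvqnS T g : Set ℂ)⟩ : Conf ℂ) := by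
  refine Conf.measurable_of_void fun B hB => ?_
  have e : (fun g : ι → PvqlG => (⟨(pvqnS T g : Set ℂ)⟩ : Conf ℂ)) ⁻¹' Conf.void B
      = ⋂ j ∈ T, ⋂ m : ℕ, ({g : ι → PvqlG | (g j).1 ≤ m} ∪ {g : ι → PvqlG | (g j).2 m ∈ Bᶜ}) := by
    ext g
    simp only [mem_preimage, Conf.mem_void, pvqnS, Finset.coe_image, mem_image, Finset.mem_coe, pvqn_mem_sites, forall_exists_index, and_imp,
      mem_iInter, mem_union, mem_ofPred_eq, mem_compl_iff]
    constructor
    · intro h j hj m
      by_cases hm : (g j).1 ≤ m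
      · exact Or.inl hm
      · exact Or.inr (h _ (j, m) hj (not_le.1 hm) rfl)
    · rintro h _ ⟨j, m⟩ hj hm rfl
      exact (h j hj m).resolve_left (not_le.2 hm)
  rw [e]
  refine Finset.measurableSet_biInter _ fun j _ => MeasurableSet.iInter fun m => MeasurableSet.union ?_ ?_
  · exact (measurable_fst.comp (measurable_pi_apply j)) (measurableSet_Iic (a := m))
  · exact ((measurable_pi_apply m).comp (measurable_snd.comp (measurable_pi_apply j))) hB.compl

/-- the law of the revealed positions (`pvqn_law_part`, `IsPpp.map` with `Prod.fst`, `IsPpp.eq_pppFin`) -/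
theorem pvqn_law_pos (r : ℝ≥0) (ν : Measure ℂ) [IsProbabilityMeasure ν] (T : Finset ι) :
    (pvqlPi ι (pvqlGam r ν)).map (fun g => (⟨(pvqnS T g : Set ℂ)⟩ : Conf ℂ)) = pppFin (((T.card : ℝ≥0∞) * r) • ν) := by
  have h := (pvqn_law_part r ν T).map (measurable_fst : Measurable (Prod.fst : PvPt → ℂ))
  have e1 : (((T.card : ℝ≥0∞) * r) • (ν.prod pvCoin)).map (Prod.fst : PvPt → ℂ) = ((T.card : ℝ≥0∞) * r) • ν := by
    rw [Measure.map_smul, Measure.map_fst_prod, measure_univ, one_smul]
  rw [e1] at h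
  have hfin : IsFiniteMeasure (((T.card : ℝ≥0∞) * r) • ν) := by
    refine ⟨?_⟩
    rw [Measure.smul_apply, measure_univ, smul_eq_mul, mul_one]
    exact ENNReal.mul_lt_top (ENNReal.natCast_lt_top _) ENNReal.coe_lt_top
  rw [← h.eq_pppFin, Measure.map_map (Conf.measurable_image measurable_fst) (pvqn_measurable_part T)]
  have e2 : (Conf.image (Prod.fst : PvPt → ℂ)) ∘ (fun p : (ι → PvqlG) × (ι → PvqlC) => pvqnPart T p.1 p.2)
      = (fun g => (⟨(pvqnS T g : Set ℂ)⟩ : Conf ℂ)) ∘ Prod.fst := by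
    funext p
    simp only [Function.comp, Conf.image, pvqnPart, pvqnS]
    congr 1
    ext z
    simp only [mem_image, mem_ofPred_eq, Finset.coe_image, Finset.mem_coe, pvqn_mem_sites, pvqlCfg, Conf.cell, pvqnPos, Prod.exists]
    constructor
    · rintro ⟨a, b, ⟨j, hj, m, hm, hab⟩, rfl⟩
      refine ⟨j, m, ⟨hj, hm⟩, ?_⟩
      rw [Prod.mk.injEq] at hab
      exact hab.1.symm
    · rintro ⟨j, m, ⟨hj, hm⟩, rfl⟩
      exact ⟨_, p.2 j m, ⟨j, hj, m, hm, rfl⟩, rfl⟩
  rw [e2, ← Measure.map_map (pvqn_measurable_S T) measurable_fst, Measure.map_fst_prod, measure_univ, one_smul]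

/-! ## 3. LINK -/

/-- **LINK**: at fixed (distinct) positions of the layers in `T`, the mean over the hidden layers and over all the colours -/
theorem pvqn_link (r : ℝ≥0) (ν : Measure ℂ) [IsProbabilityMeasure ν] (T : Finset ι) (g : ι → PvqlG) (hg : Set.InjOn (pvqnPos g) (pvqnSites T g))
    {H : Conf PvPt × Conf PvPt → ℝ} (hH : PvqlB H) :
    ∫ g', ∫ c, H (pvqnPart T g c, pvqnPart Tᶜ g' c) ∂(pvqlPi ι pvqlKap) ∂(pvqlPi ι (pvqlGam r ν))
      = ((2 : ℝ) ^ (pvqnS T g).card)⁻¹ * ∑ B ∈ (pvqnS T g).powerset,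
          ∫ ζ, H (pvqmCol (pvqnS T g) B, ζ) ∂pppFin (((Tᶜ.card : ℝ≥0∞) * r) • (ν.prod pvCoin)) := by
  classical
  set m : Measure PvPt := ((Tᶜ.card : ℝ≥0∞) * r) • (ν.prod pvCoin) with hm
  haveI : IsFiniteMeasure m := by
    rw [hm]
    refine ⟨?_⟩
    rw [Measure.smul_apply, measure_univ, smul_eq_mul, mul_one]
    exact ENNReal.mul_lt_top (ENNReal.natCast_lt_top _) ENNReal.coe_lt_top
  have hlaw : ((pvqlPi ι (pvqlGam r ν)).prod (pvqlPi ι pvqlKap)).map (fun p => pvqnPart Tᶜ p.1 p.2) = pppFin m :=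
    (pvqn_law_part r ν Tᶜ).eq_pppFin
  haveI : IsProbabilityMeasure (pppFin m) := (pvs_isPpp m).prob
  -- the mean over the hidden part
  let h : Conf PvPt → ℝ := fun ξ => ∫ ζ, H (ξ, ζ) ∂pppFin m
  have hh : PvqlB h := hH.integral_right
  have hPT : Measurable fun c : ι → PvqlC => pvqnPart T g c :=
    (pvqn_measurable_part T).comp (measurable_const.prodMk measurable_id)
  -- step 1: split the colours
  have hΦ : PvqlB fun q : (ι → PvqlG) × ((ι → PvqlC) × (ι → PvqlC)) => H (pvqnPart T g q.2.1, pvqnPart Tᶜ q.1 q.2.2) := by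
    refine hH.comp ?_
    refine (hPT.comp (measurable_fst.comp measurable_snd)).prodMk ?_
    exact (pvqn_measurable_part Tᶜ).comp (measurable_fst.prodMk (measurable_snd.comp measurable_snd))
  have s1 : ∀ g' : ι → PvqlG, ∫ c, H (pvqnPart T g c, pvqnPart Tᶜ g' c) ∂(pvqlPi ι pvqlKap)
      = ∫ c, ∫ c', H (pvqnPart T g c, pvqnPart Tᶜ g' c') ∂(pvqlPi ι pvqlKap) ∂(pvqlPi ι pvqlKap) := by
    intro g'
    have hb : PvqlB fun c : ι → PvqlC => H (pvqnPart T g c, pvqnPart Tᶜ g' c) :=
      hH.comp (hPT.prodMk ((pvqn_measurable_part Tᶜ).comp (measurable_const.prodMk measurable_id)))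
    conv_lhs => rw [← pvql_map_mix (γ := pvqlKap) T]
    rw [integral_map (pvql_measurable_mix T).aemeasurable hb.1.aestronglyMeasurable]
    have hb2 : PvqlB fun p : (ι → PvqlC) × (ι → PvqlC) => H (pvqnPart T g (pvqlMix T p.1 p.2), pvqnPart Tᶜ g' (pvqlMix T p.1 p.2)) :=
      hb.comp (pvql_measurable_mix T)
    rw [integral_prod _ hb2.integrable]
    simp only [pvqn_part_mix_left, pvqn_part_mix_right]
  simp only [s1]
  -- step 2: Fubini
  have s2 : ∫ g', ∫ c, ∫ c', H (pvqnPart T g c, pvqnPart Tᶜ g' c') ∂(pvqlPi ι pvqlKap) ∂(pvqlPi ι pvqlKap) ∂(pvqlPi ι (pvqlGam r ν))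
      = ∫ c, h (pvqnPart T g c) ∂(pvqlPi ι pvqlKap) := by
    have hb3 : PvqlB fun q : (ι → PvqlG) × (ι → PvqlC) => ∫ c', H (pvqnPart T g q.2, pvqnPart Tᶜ q.1 c') ∂(pvqlPi ι pvqlKap) := by
      have : PvqlB fun q : ((ι → PvqlG) × (ι → PvqlC)) × (ι → PvqlC) => H (pvqnPart T g q.1.2, pvqnPart Tᶜ q.1.1 q.2) :=
        hΦ.comp ((measurable_fst.comp measurable_fst).prodMk ((measurable_snd.comp measurable_fst).prodMk measurable_snd))
      exact this.integral_right
    rw [integral_integral_swap (f := fun g' c => ∫ c', H (pvqnPart T g c, pvqnPart Tᶜ g' c') ∂(pvqlPi ι pvqlKap)) hb3.integrable]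
    refine integral_congr_ae (Filter.Eventually.of_forall fun c => ?_)
    show ∫ g', ∫ c', H (pvqnPart T g c, pvqnPart Tᶜ g' c') ∂(pvqlPi ι pvqlKap) ∂(pvqlPi ι (pvqlGam r ν)) = ∫ ζ, H (pvqnPart T g c, ζ) ∂pppFin m
    have hb4 : PvqlB fun ζ : Conf PvPt => H (pvqnPart T g c, ζ) := hH.comp (measurable_const.prodMk measurable_id)
    rw [← hlaw, integral_map (pvqn_measurable_part Tᶜ).aemeasurable hb4.1.aestronglyMeasurable,
      integral_prod _ (hb4.comp (pvqn_measurable_part Tᶜ)).integrable]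
  rw [s2]
  -- step 3: uniform subset
  have hfl : Measurable fun (c : ι → PvqlC) (a : ι × ℕ) => c a.1 a.2 :=
    measurable_pi_lambda _ fun a => (measurable_pi_apply a.2).comp (measurable_pi_apply a.1)
  have s3 : ∫ c, h (pvqnPart T g c) ∂(pvqlPi ι pvqlKap) = ∫ y, h (pvqnCol (pvqnSites T g) (pvqnPos g) y) ∂(Measure.infinitePi fun _ : ι × ℕ => pvCoin) := by
    rw [← pvqn_kap_flat, integral_map hfl.aemeasurable (hh.comp (pvqn_measurable_col _ _)).1.aestronglyMeasurable]
    simp only [pvqn_part_eq]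
  rw [s3, pvqn_us (pvqnSites T g) (pvqnPos g) hg hh]
  rfl

/-! ## 4. the dictionary -/

/-- the layers `(r, ν)` fit the window `W`: `|ι|` layers together have the intensity `Leb_W` -/
structure PvqnFit (ι : Type) [Fintype ι] (r : ℝ≥0) (ν : Measure ℂ) (W : Set ℂ) : Prop where
  prob : IsProbabilityMeasure ν
  null : NullSingletonClass ν
  fit : ((Fintype.card ι : ℝ≥0∞) * r) • ν = (volume : Measure ℂ).restrict W

variable {r : ℝ≥0} {ν : Measure ℂ} {W : Set ℂ} {F : Conf PvPt → ℝ}

theorem PvqnFit.int_pos [Nonempty ι] (h : PvqnFit ι r ν W) (R : Finset ι) :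
    ((R.card : ℝ≥0∞) * r) • ν = pvqmIp W ((R.card : ℝ) / Fintype.card ι) := by
  have hn : (Fintype.card ι : ℝ) ≠ 0 := Nat.cast_ne_zero.2 Fintype.card_ne_zero
  have hn' : (0 : ℝ) < Fintype.card ι := Nat.cast_pos.2 Fintype.card_pos
  unfold pvqmIp pvqmL
  rw [← h.fit, smul_smul, ← mul_assoc]
  congr 2
  rw [ENNReal.ofReal_div_of_pos hn', ENNReal.ofReal_natCast, ENNReal.ofReal_natCast,
    ENNReal.div_mul_cancel (by simp) (ENNReal.natCast_ne_top _)]

theorem PvqnFit.int_col [Nonempty ι] (h : PvqnFit ι r ν W) (R : Finset ι) :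
    ((R.card : ℝ≥0∞) * r) • (ν.prod pvCoin) = pvqmI W ((R.card : ℝ) / Fintype.card ι) := by
  have := h.prob
  unfold pvqmI
  rw [← Measure.prod_smul_left, ← Measure.prod_smul_left]
  congr 1
  exact h.int_pos R

theorem pvqn_card_compl [Nonempty ι] (T : Finset ι) : ((Tᶜ.card : ℝ) / Fintype.card ι) = 1 - (T.card : ℝ) / Fintype.card ι := by
  have hn : (Fintype.card ι : ℝ) ≠ 0 := Nat.cast_ne_zero.2 Fintype.card_ne_zero
  rw [Finset.card_compl, Nat.cast_sub (Finset.card_le_univ T)]
  field_simp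

/-- every window is fitted: `r = area / n`, `ν` = normalised Lebesgue measure of `W` -/
theorem pvqn_fit_exists (hW : PvqmWin W) {n : ℕ} (hn : 0 < n) : ∃ (r : ℝ≥0) (ν : Measure ℂ), PvqnFit (Fin n) r ν W ∧ (r : ℝ) = (volume W).toReal / n := by
  have hn0 : (n : ℝ≥0) ≠ 0 := Nat.cast_ne_zero.2 hn.ne'
  refine ⟨(volume W).toNNReal / n, (volume W)⁻¹ • (volume : Measure ℂ).restrict W, ⟨⟨?_⟩, ⟨fun x => ?_⟩, ?_⟩, ?_⟩
  · rw [Measure.smul_apply, Measure.restrict_apply_univ, smul_eq_mul, ENNReal.inv_mul_cancel hW.pos hW.fin]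
  · rw [Measure.smul_apply, measure_singleton, smul_zero]
  · rw [smul_smul, Fintype.card_fin]
    have e : ((n : ℝ≥0∞) * (((volume W).toNNReal / n : ℝ≥0) : ℝ≥0∞)) = volume W := by
      rw [ENNReal.coe_div hn0, ENNReal.coe_toNNReal hW.fin, ENNReal.coe_natCast,
        ENNReal.mul_div_cancel (by simpa using hn.ne') (ENNReal.natCast_ne_top _)]
    rw [e, ENNReal.mul_inv_cancel hW.pos hW.fin, one_smul]
  · rw [NNReal.coe_div, NNReal.coe_natCast]; rfl

/-- the conditional probability given the positions of the layers in `T` is the quenched mean `pvqmY` -/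
theorem pvqn_E_X [Nonempty ι] (h : PvqnFit ι r ν W) (hF : PvqmBd F) (T : Finset ι) (g : ι → PvqlG) (hg : Set.InjOn (pvqnPos g) (pvqnSites T g)) :
    pvqlE (pvqlGam r ν) T (pvqlSys ι r ν F).X g = pvqmY W F ((T.card : ℝ) / Fintype.card ι) (pvqnS T g) := by
  haveI := h.prob
  have hH : PvqlB (fun p : Conf PvPt × Conf PvPt => F (Conf.union p.1 p.2)) := hF.b.comp Conf.measurable_union
  have hl := pvqn_link r ν T g hg hH
  have e1 : pvqlE (pvqlGam r ν) T (pvqlSys ι r ν F).X g
      = ∫ g', ∫ c, F (Conf.union (pvqnPart T g c) (pvqnPart Tᶜ g' c)) ∂(pvqlPi ι pvqlKap) ∂(pvqlPi ι (pvqlGam r ν)) := by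
    unfold pvqlE PvqlSys.X
    refine integral_congr_ae (Filter.Eventually.of_forall fun g' => ?_)
    refine integral_congr_ae (Filter.Eventually.of_forall fun c => ?_)
    show F (pvqlAll (pvqlMix T g g') c) = _
    rw [pvqn_all_mix]
  rw [e1, hl, h.int_col, pvqn_card_compl]
  rfl

/-- the level one coefficient of a layer of `T` (colour of its first point) is `pvqmC` -/
theorem pvqn_E_cf [Nonempty ι] (h : PvqnFit ι r ν W) (hF : PvqmBd F) (T : Finset ι) (g : ι → PvqlG) (hg : Set.InjOn (pvqnPos g) (pvqnSites T g))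
    {j : ι} (hj : j ∈ T) (h1 : 0 < (g j).1) :
    pvqlE (pvqlGam r ν) T ((pvqlSys ι r ν F).cf j) g = pvqmC W F ((T.card : ℝ) / Fintype.card ι) (pvqnS T g) ((g j).2 0) := by
  classical
  haveI := h.prob
  obtain ⟨x, hx⟩ : ∃ x, x = (g j).2 0 := ⟨_, rfl⟩
  rw [← hx]
  have hsite : ((j, 0) : ι × ℕ) ∈ pvqnSites T g := pvqn_mem_sites.2 ⟨hj, h1⟩
  have hxS : x ∈ pvqnS T g := Finset.mem_image.2 ⟨(j, 0), hsite, hx.symm⟩
  let φ : Conf PvPt → ℝ := fun a => if (x, true) ∈ a.pts then -1 else 1
  have hs : MeasurableSet {a : Conf PvPt | (x, true) ∈ a.pts} := by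
    have h2 : {a : Conf PvPt | (x, true) ∈ a.pts} = (Conf.void {((x, true) : PvPt)})ᶜ := by
      ext a
      simp only [Set.mem_setOf_eq, Set.mem_compl_iff, Conf.mem_void, Set.mem_singleton_iff]
      constructor
      · intro h3 h4
        exact h4 _ h3 rfl
      · intro h3
        by_contra h4
        exact h3 fun p hp hpe => h4 (hpe ▸ hp)
    rw [h2]
    exact (Conf.measurableSet_void (measurableSet_singleton _)).compl
  have hφ : PvqlB φ := by
    refine ⟨Measurable.ite hs measurable_const measurable_const, 1, fun a => ?_⟩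
    show |if (x, true) ∈ a.pts then (-1 : ℝ) else 1| ≤ 1
    split_ifs <;> simp
  have hH : PvqlB (fun p : Conf PvPt × Conf PvPt => F (Conf.union p.1 p.2) * φ p.1) :=
    (hF.b.comp Conf.measurable_union).mul (hφ.comp measurable_fst)
  have hl := pvqn_link r ν T g hg hH
  have hχ : ∀ c : ι → PvqlC, (pvqlSys ι r ν F).χ (c j) = φ (pvqnPart T g c) := by
    intro c
    show (if c j 0 = true then (-1 : ℝ) else 1) = if (x, true) ∈ (pvqnPart T g c).pts then -1 else 1
    refine if_congr ?_ rfl rfl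
    rw [pvqn_part_eq]
    constructor
    · intro hc
      exact ⟨(j, 0), hsite, by rw [hx, ← hc]; rfl⟩
    · rintro ⟨a, ha, hae⟩
      have h3 : pvqnPos g a = pvqnPos g (j, 0) := by
        have := congrArg Prod.fst hae
        exact this.symm.trans hx
      have h4 : a = (j, 0) := hg ha hsite h3
      subst h4
      exact (congrArg Prod.snd hae).symm
  have e1 : pvqlE (pvqlGam r ν) T ((pvqlSys ι r ν F).cf j) g
      = ∫ g', ∫ c, F (Conf.union (pvqnPart T g c) (pvqnPart Tᶜ g' c)) * φ (pvqnPart T g c) ∂(pvqlPi ι pvqlKap) ∂(pvqlPi ι (pvqlGam r ν)) := by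
    unfold pvqlE PvqlSys.cf
    refine integral_congr_ae (Filter.Eventually.of_forall fun g' => ?_)
    refine integral_congr_ae (Filter.Eventually.of_forall fun c => ?_)
    show F (pvqlAll (pvqlMix T g g') c) * (pvqlSys ι r ν F).χ (c j) = _
    rw [pvqn_all_mix, hχ]
  rw [e1, hl, h.int_col, pvqn_card_compl]
  unfold pvqmC pvqmAv
  congr 1
  refine Finset.sum_congr rfl fun B hB => ?_
  refine integral_congr_ae (Filter.Eventually.of_forall fun ζ => ?_)
  show F (Conf.union (pvqmCol (pvqnS T g) B) ζ) * (if (x, true) ∈ (pvqmCol (pvqnS T g) B).pts then (-1 : ℝ) else 1) = _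
  rw [mul_comm]
  congr 1
  refine if_congr ?_ rfl rfl
  show (x ∈ pvqnS T g ∧ (true = true ↔ x ∈ B)) ↔ x ∈ B
  simp [hxS]

/-- **(A)** the variance of the layered system is the canonical two replica value (`pvqr_v_eq` of 294 + `PvqnFit.fit`) -/
theorem pvqn_v_eq [Nonempty ι] (h : PvqnFit ι r ν W) (hF : PvqmBd F) (T : Finset ι) :
    (pvqlSys ι r ν F).v T = pvqmV W F ((T.card : ℝ) / Fintype.card ι) := by
  have := h.prob
  rw [pvqr_v_eq r ν T hF.b, h.fit]

/-- **(B)** the level one weight of the layered system is dominated -/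
theorem pvqn_w_le [Nonempty ι] (hW : PvqmWin W) (h : PvqnFit ι r ν W) (hF : PvqmBd F) (T : Finset ι) {G : Conf ℂ → ℝ}
    (hG : PvqmDom W F ((T.card : ℝ) / Fintype.card ι) G) :
    ∑ j ∈ T, (pvqlSys ι r ν F).w T j ≤ ∫ η, G η ∂pppFin (pvqmIp W ((T.card : ℝ) / Fintype.card ι)) := by
  classical
  haveI := h.prob
  haveI := h.null
  obtain ⟨t, ht⟩ : ∃ t : ℝ, t = (T.card : ℝ) / Fintype.card ι := ⟨_, rfl⟩
  rw [← ht] at hG ⊢
  obtain ⟨hGm, hGi, hGd⟩ := hG
  -- the law of the revealed positions
  have hlaw : (pvqlPi ι (pvqlGam r ν)).map (fun g => (⟨(pvqnS T g : Set ℂ)⟩ : Conf ℂ)) = pppFin (pvqmIp W t) := by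
    rw [pvqn_law_pos r ν T, h.int_pos T, ht]
  have hR : ∫ η, G η ∂pppFin (pvqmIp W t) = ∫ g, G ⟨(pvqnS T g : Set ℂ)⟩ ∂(pvqlPi ι (pvqlGam r ν)) := by
    rw [← hlaw, integral_map (pvqn_measurable_S T).aemeasurable hGm.aestronglyMeasurable]
  have hRi : Integrable (fun g => G ⟨(pvqnS T g : Set ℂ)⟩) (pvqlPi ι (pvqlGam r ν)) := by
    rw [← hlaw] at hGi
    exact (integrable_map_measure hGm.aestronglyMeasurable (pvqn_measurable_S T).aemeasurable).1 hGi
  -- the positions lie in the window
  have hνW : ν Wᶜ = 0 := by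
    have h1 := congrArg (fun m : Measure ℂ => m Wᶜ) h.fit
    have h2 := congrArg (fun m : Measure ℂ => m Set.univ) h.fit
    simp only [Measure.smul_apply, smul_eq_mul, Measure.restrict_apply hW.meas.compl, Set.compl_inter_self, measure_empty,
      Measure.restrict_apply MeasurableSet.univ, Set.univ_inter, measure_univ, mul_one] at h1 h2
    rcases mul_eq_zero.1 h1 with h3 | h3
    · rw [h3] at h2
      exact absurd h2.symm hW.pos
    · exact h3
  have hνae : ∀ᵐ x ∂ν, x ∈ W := by
    rw [ae_iff]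
    exact hνW
  have hin : ∀ᵐ g ∂(pvqlPi ι (pvqlGam r ν)), ∀ a : ι × ℕ, pvqnPos g a ∈ W := by
    rw [ae_all_iff]
    rintro ⟨j, m⟩
    have m1 : MeasurePreserving (Function.eval j) (pvqlPi ι (pvqlGam r ν)) (pvqlGam r ν) := measurePreserving_eval (fun _ : ι => pvqlGam r ν) j
    have m2 : MeasurePreserving (Prod.snd : PvqlG → (ℕ → ℂ)) (pvqlGam r ν) (Measure.infinitePi fun _ : ℕ => ν) := measurePreserving_snd
    have m3 : MeasurePreserving (Function.eval m) (Measure.infinitePi fun _ : ℕ => ν) ν := measurePreserving_eval_infinitePi (fun _ : ℕ => ν) m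
    exact ((m3.comp m2).comp m1).quasiMeasurePreserving.ae hνae
  -- boundedness
  have hχ : PvqlB (fun c : PvqlC => if c 0 = true then (-1 : ℝ) else 1) := by
    have hm0 : Measurable (fun c : PvqlC => c 0) := measurable_pi_apply 0
    have hs : MeasurableSet {c : PvqlC | c 0 = true} := hm0 (measurableSet_singleton true)
    refine ⟨Measurable.ite hs measurable_const measurable_const, 1, fun c => ?_⟩
    show |if c 0 = true then (-1 : ℝ) else 1| ≤ 1
    split_ifs <;> simp
  have hcf : ∀ j, PvqlB ((pvqlSys ι r ν F).cf j) := by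
    intro j
    have h1 : PvqlB (fun p : (ι → PvqlG) × (ι → PvqlC) => F (pvqlAll p.1 p.2) * (if p.2 j 0 = true then (-1 : ℝ) else 1)) :=
      (hF.b.comp pvql_measurable_all).mul (hχ.comp ((measurable_pi_apply j).comp measurable_snd))
    exact h1.integral_right (ν := pvqlPi ι pvqlKap)
  have hone : ∀ j : ι, MeasurableSet {g : ι → PvqlG | g j ∈ (pvqlSys ι r ν F).One} := fun j =>
    (measurable_fst.comp (measurable_pi_apply j)) (measurableSet_singleton 1)
  have hterm : ∀ j, PvqlB (fun g : ι → PvqlG => (if g j ∈ (pvqlSys ι r ν F).One then (1 : ℝ) else 0) * pvqlE (pvqlGam r ν) T ((pvqlSys ι r ν F).cf j) g ^ 2) :=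
    fun j => (PvqlB.ind (hone j)).mul ((hcf j).E T).sq
  have hL : ∑ j ∈ T, (pvqlSys ι r ν F).w T j
      = ∫ g, ∑ j ∈ T, (if g j ∈ (pvqlSys ι r ν F).One then (1 : ℝ) else 0) * pvqlE (pvqlGam r ν) T ((pvqlSys ι r ν F).cf j) g ^ 2 ∂(pvqlPi ι (pvqlGam r ν)) := by
    rw [integral_finsetSum T fun j _ => (hterm j).integrable]
    refine Finset.sum_congr rfl fun j _ => ?_
    unfold PvqlSys.w
    refine integral_congr_ae (Filter.Eventually.of_forall fun g => ?_)
    show (if g j ∈ (pvqlSys ι r ν F).One then (1 : ℝ) else 0) * _ = (if g j ∈ (pvqlSys ι r ν F).One then (1 : ℝ) else 0) * _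
    congr 2
  rw [hL, hR]
  refine integral_mono_ae (PvqlB.sum T fun j _ => hterm j).integrable hRi ?_
  filter_upwards [pvqn_ae_inj (ι := ι) r ν, hin] with g hinj hgW
  have hSW : ((pvqnS T g : Finset ℂ) : Set ℂ) ⊆ W := by
    intro x hx
    obtain ⟨a, -, rfl⟩ := Finset.mem_image.1 (Finset.mem_coe.1 hx)
    exact hgW a
  refine le_trans ?_ (hGd (pvqnS T g) hSW)
  have hstep : ∀ j ∈ T, (if g j ∈ (pvqlSys ι r ν F).One then (1 : ℝ) else 0) * pvqlE (pvqlGam r ν) T ((pvqlSys ι r ν F).cf j) g ^ 2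
      = if (g j).1 = 1 then pvqmC W F t (pvqnS T g) (pvqnPos g (j, 0)) ^ 2 else 0 := by
    intro j hj
    by_cases h1 : (g j).1 = 1
    · have h1' : g j ∈ (pvqlSys ι r ν F).One := h1
      rw [if_pos h1', if_pos h1, one_mul, pvqn_E_cf h hF T g hinj.injOn hj (by omega), ← ht]
      rfl
    · have h1' : g j ∉ (pvqlSys ι r ν F).One := h1
      rw [if_neg h1', if_neg h1, zero_mul]
  rw [Finset.sum_congr rfl hstep, ← Finset.sum_filter]
  have himg : ∑ j ∈ T.filter (fun j => (g j).1 = 1), pvqmC W F t (pvqnS T g) (pvqnPos g (j, 0)) ^ 2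
      = ∑ x ∈ (T.filter (fun j => (g j).1 = 1)).image (fun j => pvqnPos g (j, 0)), pvqmC W F t (pvqnS T g) x ^ 2 := by
    rw [Finset.sum_image]
    intro j _ j' _ hjj
    exact (Prod.mk.inj (hinj hjj)).1
  rw [himg]
  refine Finset.sum_le_sum_of_subset_of_nonneg ?_ fun x _ _ => sq_nonneg _
  intro x hx
  obtain ⟨j, hj, rfl⟩ := Finset.mem_image.1 hx
  obtain ⟨hjT, hj1⟩ := Finset.mem_filter.1 hj
  exact Finset.mem_image.2 ⟨(j, 0), pvqn_mem_sites.2 ⟨hjT, by show 0 < (g j).1; omega⟩, rfl⟩

end part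

/-! ## 5. the contract -/

/-- **[LAY]** -/
theorem pvqn_lay : PvqmLay := by
  intro W F hW hF
  have hb : PvqmBd F := pvqm_test_bd hF
  obtain ⟨A, hA⟩ : ∃ A : ℝ, A = (volume W).toReal := ⟨_, rfl⟩
  -- the value at the grid point `k / n`
  have key : ∀ n k : ℕ, 0 < n → k ≤ n → ∀ (r : ℝ≥0) (ν : Measure ℂ), PvqnFit (Fin n) r ν W →
      (pvqlSys (Fin n) r ν F).v (pvqlS n k) = pvqmV W F ((k : ℝ) / n) := by
    intro n k hn hk r ν hfit
    haveI : Nonempty (Fin n) := ⟨⟨0, hn⟩⟩
    rw [pvqn_v_eq hfit hb (pvqlS n k), pvql_S_card hk, Fintype.card_fin]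
  refine ⟨?_, A ^ 2, ?_, ?_⟩
  · obtain ⟨r, ν, hfit, -⟩ := pvqn_fit_exists hW (n := 1) one_pos
    haveI := hfit.prob
    have h1 := key 1 0 one_pos (Nat.zero_le 1) r ν hfit
    have h2 : pvqlS 1 0 = ∅ := by simp [pvqlS]
    rw [h2, (pvql_sys_ok r ν hF).v_empty] at h1
    have h3 : ((0 : ℕ) : ℝ) / ((1 : ℕ) : ℝ) = 0 := by simp
    rw [h3] at h1
    exact h1.symm.le
  · intro n k hk
    have hn : 0 < n := by omega
    have hn0 : (0 : ℝ) < n := by exact_mod_cast hn
    obtain ⟨r, ν, hfit, hr⟩ := pvqn_fit_exists hW hn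
    haveI := hfit.prob
    have h1 := pvql_TI1 n r ν hF hk
    unfold pvqlV at h1
    rw [key n (k + 1) hn hk r ν hfit, key n k hn hk.le r ν hfit, hr, ← hA] at h1
    have h2 : (A / n) ^ 2 = A ^ 2 / (n : ℝ) ^ 2 := by rw [div_pow]
    rw [h2] at h1
    push_cast at h1
    linarith
  · intro n k hn hk G hG
    have hn0 : (0 : ℝ) < n := by exact_mod_cast hn
    haveI : Nonempty (Fin n) := ⟨⟨0, hn⟩⟩
    obtain ⟨r, ν, hfit, hr⟩ := pvqn_fit_exists hW hn
    haveI := hfit.prob
    have h1 := (pvql_sys_ok (ι := Fin n) r ν hF).I1 (pvqlS n k)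
    have hcard : ((pvqlS n k).card : ℝ) / (Fintype.card (Fin n) : ℝ) = (k : ℝ) / n := by
      rw [pvql_S_card hk, Fintype.card_fin]
    have h2 := pvqn_w_le hW hfit hb (pvqlS n k) (G := G) (by rw [hcard]; exact hG)
    rw [hcard] at h2
    rw [key n k hn hk r ν hfit, pvql_S_card hk] at h1
    have h3 : (pvqlSys (Fin n) r ν F).δ = (A / n) ^ 2 := by
      show (r : ℝ) ^ 2 = _
      rw [hr, ← hA]
    rw [h3] at h1
    have h4 : (k : ℝ) * (A / n) ^ 2 ≤ A ^ 2 / n := by
      have hk' : (k : ℝ) ≤ n := by exact_mod_cast hk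
      have h5 : (k : ℝ) * (A / n) ^ 2 ≤ (n : ℝ) * (A / n) ^ 2 := mul_le_mul_of_nonneg_right hk' (sq_nonneg _)
      have h6 : (n : ℝ) * (A / n) ^ 2 = A ^ 2 / n := by
        field_simp
      linarith
    linarith

theorem pvqn_I_fin {W : Set ℂ} (hW : PvqmWin W) (t : ℝ) : IsFiniteMeasure (pvqmI W t) := by
  have : IsFiniteMeasure (pvqmL W) := ⟨by rw [Measure.restrict_apply_univ]; exact hW.fin.lt_top⟩
  unfold pvqmI
  exact Measure.smul_finite _ ENNReal.ofReal_ne_top

theorem pvqn_col_range (N : ℕ) (pos : ℕ → ℂ) (y : ℕ → Bool) : pvqnCol (Finset.range N) pos y = Conf.cell (N, fun i => (pos i, y i)) := by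
  ext p
  simp only [pvqnCol, Conf.cell, mem_ofPred_eq, Finset.mem_range]

/-- the mean over the hidden process -/
theorem pvqn_hid_B {W : Set ℂ} {F : Conf PvPt → ℝ} (hW : PvqmWin W) (hF : PvqmBd F) (t : ℝ) :
    PvqlB fun ξ : Conf PvPt => ∫ ζ, F (Conf.union ξ ζ) ∂pppFin (pvqmI W t) := by
  have := pvqn_I_fin hW t
  have : IsProbabilityMeasure (pppFin (pvqmI W t)) := (pvs_isPpp _).prob
  exact PvqlB.integral_right (Ψ := fun p : Conf PvPt × Conf PvPt => F (Conf.union p.1 p.2)) (hF.b.comp Conf.measurable_union)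

/-- measurability of the quenched mean as a function of the configuration of positions.      `pvcn_enum` (measurable enumeration WITHOUT repetition, see the proof of `pvs_T2` in Ppp/Series), `pvcn_fin`, and `pvqn_us` : for injective `x : Fin n → ℂ`, `pvqmY W F t (range x) = ∫ y, ∫ ζ, F (union (pvqnCol univ x y) ζ)`, measurable in `x`. -/
theorem pvqn_Y_meas {W : Set ℂ} {F : Conf PvPt → ℝ} (hW : PvqmWin W) (hF : PvqmBd F) (t : ℝ) : Measurable fun η : Conf ℂ => pvqmY W F t (pvqmFs η) := by
  classical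
  obtain ⟨X, hX, hX'⟩ := pvcn_enum (E := ℂ) MeasurableSet.univ
  have hh := pvqn_hid_B hW hF (1 - t)
  set h : Conf PvPt → ℝ := fun ξ => ∫ ζ, F (Conf.union ξ ζ) ∂pppFin (pvqmI W (1 - t)) with hdef
  have hY : ∀ S : Finset ℂ, pvqmY W F t S = ((2 : ℝ) ^ S.card)⁻¹ * ∑ B ∈ S.powerset, h (pvqmCol S B) := fun S => rfl
  -- the measurable representative
  have hm1 : Measurable fun z : Conf ℂ × (ℕ → Bool) => Conf.cell ((z.1.pts ∩ univ).ncard, fun i => (X z.1 i, z.2 i)) := by
    refine Conf.measurable_cell.comp (Measurable.prodMk ((pvcn_ncard MeasurableSet.univ).comp measurable_fst) ?_)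
    refine measurable_pi_lambda _ fun i => Measurable.prodMk ?_ ?_
    · exact (measurable_pi_apply i).comp (hX.comp measurable_fst)
    · exact (measurable_pi_apply i).comp measurable_snd
  have hm2 : Measurable fun η : Conf ℂ => ∫ y, h (Conf.cell ((η.pts ∩ univ).ncard, fun i => (X η i, y i))) ∂(Measure.infinitePi fun _ : ℕ => pvCoin) :=
    ((hh.1.comp hm1).stronglyMeasurable.integral_prod_right' (ν := Measure.infinitePi fun _ : ℕ => pvCoin)).measurable
  have key : (fun η : Conf ℂ => pvqmY W F t (pvqmFs η)) = fun η : Conf ℂ => if (η.pts ∩ univ).Finite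
      then ∫ y, h (Conf.cell ((η.pts ∩ univ).ncard, fun i => (X η i, y i))) ∂(Measure.infinitePi fun _ : ℕ => pvCoin)
      else pvqmY W F t ∅ := by
    funext η
    by_cases hfin : (η.pts ∩ univ).Finite
    · rw [if_pos hfin]
      have hfin' : η.pts.Finite := by rwa [inter_univ] at hfin
      have h1 := congrArg Conf.pts (hX' η hfin)
      simp only [Conf.restr, Conf.cell] at h1
      set N := (η.pts ∩ univ).ncard with hN
      have hS' : η.pts ∩ univ = X η '' (↑(Finset.range N) : Set ℕ) := by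
        rw [h1]; ext p
        simp only [mem_ofPred_eq, mem_image, Finset.coe_range, mem_Iio]
        exact ⟨fun ⟨j, hj, h⟩ => ⟨j, hj, h.symm⟩, fun ⟨j, hj, h⟩ => ⟨j, hj, h.symm⟩⟩
      have hinj : InjOn (X η) (↑(Finset.range N) : Set ℕ) := by
        refine injOn_of_ncard_image_eq ?_ (Finset.finite_toSet _)
        rw [← hS', ← hN, ncard_coe_finset, Finset.card_range]
      have hFs : pvqmFs η = (Finset.range N).image (X η) := by
        unfold pvqmFs
        rw [dif_pos hfin']
        ext p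
        rw [Set.Finite.mem_toFinset, ← Finset.mem_coe, Finset.coe_image, ← hS', inter_univ]
      have hus := pvqn_us (Finset.range N) (X η) hinj hh
      simp only [pvqn_col_range] at hus
      rw [hus, hY, hFs]
    · rw [if_neg hfin]
      have hfin' : ¬ η.pts.Finite := by rwa [inter_univ] at hfin
      unfold pvqmFs
      rw [dif_neg hfin']
  rw [key]
  exact Measurable.ite (pvcn_fin MeasurableSet.univ) hm2 measurable_const

theorem pvqn_Fs_coe (S : Finset ℂ) : pvqmFs ⟨(S : Set ℂ)⟩ = S := by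
  unfold pvqmFs
  rw [dif_pos (Finset.finite_toSet S)]
  ext p
  simp

/-- **[REP]** : `pvqr_REP` (294) + `pvqn_E_X` (D1) + `pvqn_ae_inj` (D0) + `pvqn_law_pos` (D2) + `pvqn_Y_meas` -/
theorem pvqn_repK : PvqmRepK := by
  intro W hW t ht
  refine ⟨fun F hF => pvqn_Y_meas hW hF t, fun k g hg => ?_⟩
  obtain ⟨n, k₀, hn, hk, rfl⟩ := ht
  obtain ⟨r, ν, hfit, -⟩ := pvqn_fit_exists hW hn
  have := hfit.prob
  have := hfit.null
  have : Nonempty (Fin n) := ⟨⟨0, hn⟩⟩
  have hcard : (pvqlS n k₀).card = k₀ := pvql_S_card hk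
  have hR := pvqr_REP r ν (pvqlS n k₀) (F := g) fun a => (hg a).b
  rw [hfit.fit, hcard, Fintype.card_fin] at hR
  refine Eq.trans ?_ hR
  have hpos := hfit.int_pos (pvqlS n k₀)
  rw [hcard, Fintype.card_fin] at hpos
  rw [← hpos, ← hcard, ← pvqn_law_pos r ν (pvqlS n k₀), hcard]
  have hΦ : Measurable fun η : Conf ℂ => ∏ i, pvqmY W (g i) ((k₀ : ℝ) / n) (pvqmFs η) :=
    Finset.measurable_prod _ fun i _ => pvqn_Y_meas hW (hg i) _
  rw [integral_map (pvqn_measurable_S _).aemeasurable hΦ.aestronglyMeasurable]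
  refine integral_congr_ae ?_
  filter_upwards [pvqn_ae_inj (ι := Fin n) r ν] with g' hg'
  refine Finset.prod_congr rfl fun a _ => ?_
  have h1 := pvqn_E_X hfit (hg a) (pvqlS n k₀) g' hg'.injOn
  rw [hcard, Fintype.card_fin] at h1
  rw [pvqn_Fs_coe, ← h1]
  rfl

end Claimed.Agent.R289
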