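import Claimed.Agent.R289.Qbx.Exit
import Claimed.Agent.R289.Qbx.Link
import Claimed.Agent.R289.FkgQ
import Claimed.Agent.R289.Rsw.Exports

/-!
# Row 289 (S0537), box QBX (quenched box crossing), file Qbx/Rect : STAGE 2 = QUENCHED CROSSINGS OF RECTANGLES, CIRCUITS      (owner helper298; head helper30; prefix `pvqy` / `Pvqy`)

STATUS: 0 sorry.      NO SECOND BOOTSTRAP, NO `PvqxRev2`: the rectangles follow from the BLOCKING exit (`pvqx_exit_unif`, Qbx/Exit) by duality + quenched Harris: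

    no black left-right crossing of `[x0,x1] x [y0,y1]`  ==>  white bottom-top crossing (`pvr_hex`, 262)  ==>  it meets the horizontal middle line in one of `K = ⌊5ρ⌋ + 1` boxes of radius `u/2`, `u = height / 5`,
    and goes on to the top side, at sup-distance `5u/2`  ==>  a white arm across one of `K` square annuli `(u/2, 5u/2)` (`pvre_arm_of_path`, 262).
    The `K` events "no white arm" increase with the black points: quenched Harris (`pvfq_up_finset`, 103) gives quenched probability `≥ q₀ ^ K` off the union of the `K` bad sets of geometries.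

HYPOTHESIS of everything: `PvqxS1` (= conclusion of stage 1 for 167's blocking family).      `pvqy_S1 : PvqmRev (pvqcO 0) (pvqcF 0) → PvqxS1` (`PvqmLay` is PROVED: `pvqn_lay`, 248).

EXPORTS (vocabulary of 261 `pvGeo`, `pvQc`; of 262 `pvrEv`, `pvrEvW`, `rswLR`, `rswTB`, `pvreAnn`)
* **`pvqy_rect`** `(h1 : PvqxS1) (ρ)` : EX q > 0, ALL δ > 0, EX U > 0, ALL ε > 0, ALL rectangles of aspect ratio `≤ ρ` and short side `≥ U ε`: `pvGeo ε {g | pvQc (crossing in the long direction) g < q} ≤ δ`;  LR and TB, black and white.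
* **`pvqy_circ`** : the same for the four crossings `pvreAnn cx cy t` of the square annulus `(t, 2t)` at once (circuit), black and white.
* `pvqy_rect_lim`, `pvqy_circ_lim` : fixed pattern, `Tendsto .. (𝓝[>] 0) (𝓝 0)`;      `pvqy_tendsto_of_unif` : the conversion.
* **`pvqy_family`** : GENERAL FORM: any event forced (on `PvrOk`) by "no white arm across `K` square annuli `(u/2, 5u/2)` of arbitrary centres" has quenched probability `≥ q₀ ^ K` off a set of probability `≤ δ`, if `u ≥ U(K, δ) ε`.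
* `pvqy_harris`, `pvqy_harris_pow` (finitely many `PvInc` events, at a geometry with `PvqyLF g`; a.e.: `pvqy_lf_ae`), `pvqy_harris_list`, **`pvqy_all`** (all the black patterns of a list at once: `q ^ length`), `pvqy_all_white`.
* deterministic: `pvqy_tb_arm`, `pvqy_lr_arm`, `pvqy_hex'`, `pvqy_lr_of_block`, `pvqy_tb_of_block`.
-/

set_option autoImplicit false
set_option linter.unusedSectionVars false

namespace Claimed.Agent.R289

open MeasureTheory ProbabilityTheory Set Filter Topology Metric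
open scoped ENNReal NNReal
open Claims.C0465

/-! ## 1. deterministic: a crossing of the short direction contains an arm across one of finitely many square annuli centred on the middle line -/

/-- a point of a path is joined to its end inside the same set -/
theorem pvqy_joined_of_im {F : Set ℂ} {a b : ℂ} (h : JoinedIn F a b) {m : ℝ} (h0 : a.im ≤ m) (h1 : m ≤ b.im) : ∃ p ∈ F, p.im = m ∧ JoinedIn F p b := by
  obtain ⟨γ, hγ⟩ := h
  have hc : Continuous fun t : unitInterval => (γ t).im := Complex.continuous_im.comp γ.continuous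
  obtain ⟨t, ht⟩ := mem_range_of_exists_le_of_exists_ge hc ⟨0, by simpa using h0⟩ ⟨1, by simpa using h1⟩
  have hI : PathConnectedSpace unitInterval :=
    isPathConnected_iff_pathConnectedSpace.1 ((convex_Icc (0 : ℝ) 1).isPathConnected ⟨0, by simp⟩)
  have hpc : IsPathConnected (range γ) := isPathConnected_range γ.continuous
  refine ⟨γ t, hγ t, ht, (hpc.joinedIn (γ t) ⟨t, rfl⟩ b ⟨1, by simp⟩).mono ?_⟩
  rintro _ ⟨s, rfl⟩
  exact hγ s

theorem pvqy_joined_of_re {F : Set ℂ} {a b : ℂ} (h : JoinedIn F a b) {m : ℝ} (h0 : a.re ≤ m) (h1 : m ≤ b.re) : ∃ p ∈ F, p.re = m ∧ JoinedIn F p b := by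
  obtain ⟨γ, hγ⟩ := h
  have hc : Continuous fun t : unitInterval => (γ t).re := Complex.continuous_re.comp γ.continuous
  obtain ⟨t, ht⟩ := mem_range_of_exists_le_of_exists_ge hc ⟨0, by simpa using h0⟩ ⟨1, by simpa using h1⟩
  have hI : PathConnectedSpace unitInterval :=
    isPathConnected_iff_pathConnectedSpace.1 ((convex_Icc (0 : ℝ) 1).isPathConnected ⟨0, by simp⟩)
  have hpc : IsPathConnected (range γ) := isPathConnected_range γ.continuous
  refine ⟨γ t, hγ t, ht, (hpc.joinedIn (γ t) ⟨t, rfl⟩ b ⟨1, by simp⟩).mono ?_⟩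
  rintro _ ⟨s, rfl⟩
  exact hγ s

/-- the interval `[x0, x0 + K u)` is covered by the `K` intervals of radius `u/2` centred at `x0 + u/2 + i u` -/
theorem pvqy_cover {x0 x u : ℝ} {K : ℕ} (hu : 0 < u) (h0 : x0 ≤ x) (h1 : x - x0 < K * u) :
    ∃ i < K, x0 + u / 2 + i * u - u / 2 ≤ x ∧ x ≤ x0 + u / 2 + i * u + u / 2 := by
  have hnn : 0 ≤ (x - x0) / u := div_nonneg (by linarith) hu.le
  refine ⟨⌊(x - x0) / u⌋₊, ?_, ?_, ?_⟩
  · rw [Nat.floor_lt hnn, div_lt_iff₀ hu]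
    exact h1
  · have := Nat.floor_le hnn
    rw [le_div_iff₀ hu] at this
    linarith
  · have := Nat.lt_floor_add_one ((x - x0) / u)
    rw [div_lt_iff₀ hu] at this
    linarith

/-- a bottom-top crossing of a rectangle of height `5u` contains an arm across a square annulus `(u/2, 5u/2)` centred on the horizontal middle line -/
theorem pvqy_tb_arm {B : Set ℂ} {x0 x1 y0 y1 u : ℝ} {K : ℕ} (hu : 0 < u) (hh : y1 - y0 = 5 * u) (hK : x1 - x0 < K * u) (h : (rswTB x0 x1 y0 y1).Holds B) :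
    ∃ i < K, (rswArm (x0 + u / 2 + i * u) ((y0 + y1) / 2) (u / 2) (5 * u / 2)).Holds B := by
  obtain ⟨a, ha, b, hb, hj⟩ := h
  obtain ⟨-, -, a3, a4⟩ := ha
  obtain ⟨-, -, b3, b4⟩ := hb
  obtain ⟨p, hp, hpm, hpb⟩ := pvqy_joined_of_im hj (m := (y0 + y1) / 2) (by linarith) (by linarith)
  obtain ⟨p1, p2, -, -⟩ := hp.2
  obtain ⟨i, hi, c1, c2⟩ := pvqy_cover hu p1 (lt_of_le_of_lt (by linarith) hK)
  refine ⟨i, hi, pvre_arm_of_path (by linarith) (hpb.mono inter_subset_left) ⟨c1, c2, by rw [hpm]; linarith, by rw [hpm]; linarith⟩ ?_⟩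
  rintro ⟨-, -, -, h4⟩
  linarith

/-- a left-right crossing of a rectangle of width `5u` contains an arm across a square annulus `(u/2, 5u/2)` centred on the vertical middle line -/
theorem pvqy_lr_arm {B : Set ℂ} {x0 x1 y0 y1 u : ℝ} {K : ℕ} (hu : 0 < u) (hh : x1 - x0 = 5 * u) (hK : y1 - y0 < K * u) (h : (rswLR x0 x1 y0 y1).Holds B) :
    ∃ i < K, (rswArm ((x0 + x1) / 2) (y0 + u / 2 + i * u) (u / 2) (5 * u / 2)).Holds B := by
  obtain ⟨a, ha, b, hb, hj⟩ := h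
  obtain ⟨a1, a2, -, -⟩ := ha
  obtain ⟨b1, b2, -, -⟩ := hb
  obtain ⟨p, hp, hpm, hpb⟩ := pvqy_joined_of_re hj (m := (x0 + x1) / 2) (by linarith) (by linarith)
  obtain ⟨-, -, p3, p4⟩ := hp.2
  obtain ⟨i, hi, c1, c2⟩ := pvqy_cover hu p3 (lt_of_le_of_lt (by linarith) hK)
  refine ⟨i, hi, pvre_arm_of_path (by linarith) (hpb.mono inter_subset_left) ⟨by rw [hpm]; linarith, by rw [hpm]; linarith, c1, c2⟩ ?_⟩
  rintro ⟨-, h2, -, -⟩
  linarith

/-! ## 2. quenched Harris for the events which increase with the black points -/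

/-- all the colourings of the geometry `g` are locally finite -/
def PvqyLF (g : PvGeoT) : Prop := ∀ c : PvColT, PvLF (pvConf (pvMerge (g, c)))

theorem pvqy_eqns_cite : True := by
  have := @PvqyLF.eq_1
  trivial

theorem PvgOk.pvqy_lf {g : PvGeoT} (h : PvgOk g) : PvqyLF g := fun c => pvcn_LF_conf _ (h.ok c).sq

theorem pvqy_lf_ae (ε : ℝ) : ∀ᵐ g ∂(pvGeo ε), PvqyLF g := (pvqu_ok_ae ε).mono fun _ h => h.pvqy_lf

theorem pvqy_measurable_conf (g : PvGeoT) : Measurable fun c : PvColT => pvConf (pvMerge (g, c)) :=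
  measurable_pvConf.comp (measurable_pvMerge.comp measurable_prodMk_left)

/-- more black colours: a larger configuration -/
theorem pvqy_le_conf (g : PvGeoT) {c c' : PvColT} (h : c ≤ c') : PvLe (pvConf (pvMerge (g, c))) (pvConf (pvMerge (g, c'))) := by
  constructor
  · intro v hv
    obtain ⟨i, hi, he⟩ := pvqu_mem_conf.1 (show (v, true) ∈ (pvConf (pvMerge (g, c))).pts from hv)
    have h1 : c i = true := (congrArg Prod.snd he).symm
    have h2 : c' i = true := by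
      have := h i
      rw [h1] at this
      exact top_le_iff.1 this
    refine pvqu_mem_conf.2 ⟨i, hi, ?_⟩
    have h3 : v = pvgSite g i := congrArg Prod.fst he
    rw [h2, h3]
  · intro v hv
    obtain ⟨i, hi, he⟩ := pvqu_mem_conf.1 (show (v, false) ∈ (pvConf (pvMerge (g, c'))).pts from hv)
    have h1 : c' i = false := (congrArg Prod.snd he).symm
    have h2 : c i = false := by
      have := h i
      rw [h1] at this
      exact le_bot_iff.1 this
    refine pvqu_mem_conf.2 ⟨i, hi, ?_⟩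
    have h3 : v = pvgSite g i := congrArg Prod.fst he
    rw [h2, h3]

/-- **QUENCHED HARRIS** in the vocabulary of 261 : finitely many increasing events -/
theorem pvqy_harris {g : PvGeoT} (hg : PvqyLF g) {κ : Type*} (s : Finset κ) (𝒜 : κ → Set (Conf PvPt))
    (hm : ∀ i ∈ s, MeasurableSet (𝒜 i ∩ {η | PvLF η})) (hinc : ∀ i ∈ s, PvInc (𝒜 i)) : ∏ i ∈ s, pvQc (𝒜 i) g ≤ pvQc (⋂ i ∈ s, 𝒜 i) g := by
  have h := pvfq_up_finset (fun _ : PvIx => pvCoin) s (fun i => {c : PvColT | pvConf (pvMerge (g, c)) ∈ 𝒜 i})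
    (fun i hi => by
      have e : {c : PvColT | pvConf (pvMerge (g, c)) ∈ 𝒜 i} = (fun c : PvColT => pvConf (pvMerge (g, c))) ⁻¹' (𝒜 i ∩ {η | PvLF η}) := by
        ext c
        exact ⟨fun h => ⟨h, hg c⟩, fun h => h.1⟩
      rw [e]
      exact pvqy_measurable_conf g (hm i hi))
    (fun i hi c c' hcc hc => hinc i hi _ _ (hg c) (hg c') (pvqy_le_conf g hcc) hc)
  have e : (⋂ i ∈ s, {c : PvColT | pvConf (pvMerge (g, c)) ∈ 𝒜 i}) = {c : PvColT | pvConf (pvMerge (g, c)) ∈ ⋂ i ∈ s, 𝒜 i} := by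
    ext c
    simp only [mem_iInter, mem_ofPred_eq]
  rw [e] at h
  exact h

/-- consumer form: every event has quenched probability `≥ q` -/
theorem pvqy_harris_pow {g : PvGeoT} (hg : PvqyLF g) {κ : Type*} (s : Finset κ) (𝒜 : κ → Set (Conf PvPt))
    (hm : ∀ i ∈ s, MeasurableSet (𝒜 i ∩ {η | PvLF η})) (hinc : ∀ i ∈ s, PvInc (𝒜 i)) {q : ℝ≥0∞} (hq : ∀ i ∈ s, q ≤ pvQc (𝒜 i) g) :
    q ^ s.card ≤ pvQc (⋂ i ∈ s, 𝒜 i) g := by
  refine le_trans ?_ (pvqy_harris hg s 𝒜 hm hinc)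
  rw [← Finset.prod_const]
  exact Finset.prod_le_prod' hq

/-- the white region decreases -/
theorem pvqy_W_anti {η η' : Conf PvPt} (h : PvLe η η') : cfW η' ⊆ cfW η := by
  rintro z ⟨w, hw, hz⟩
  exact ⟨w, h.2 hw, fun v hv => hz v (h.1 hv)⟩

/-- the event: the pattern `e` is NOT realised in the white region -/
def pvqyNoW (e : RswTri) : Set (Conf PvPt) := {η | ¬ e.Holds (cfW η)}

theorem pvqy_eqns_cite2 : True := by
  have := @pvqyNoW.eq_1
  trivial

theorem pvqy_noW_inc (e : RswTri) : PvInc (pvqyNoW e) := fun _ _ _ _ h hn hc =>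
  hn (rsw_det_mono (pvqy_W_anti h) Subset.rfl Subset.rfl Subset.rfl hc)

theorem pvqy_noW_meas {e : RswTri} (he : e.Nice) : MeasurableSet (pvqyNoW e ∩ {η | PvLF η}) := by
  have e1 : pvqyNoW e ∩ {η | PvLF η} = {η | PvLF η} \ (pvrEvW e ∩ {η | PvLF η}) := by
    ext η
    simp only [pvqyNoW, pvrEvW, mem_inter_iff, mem_ofPred_eq, Set.mem_sdiff]
    tauto
  rw [e1]
  exact pvcn_LF_meas.diff (pvr_evW_meas he)

/-! ## 3. crossings from blocked arms (HEX duality of 262) -/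

theorem pvqy_ok_flip {η : Conf PvPt} (h : PvrOk η) : PvrOk (cfFlip η) := by
  refine ⟨pvrm_LF_flip.2 h.lf, ?_⟩
  obtain ⟨p, hp⟩ := h.ne
  exact ⟨Prod.map id not p, p, hp, rfl⟩

/-- HEX, the other diagonal -/
theorem pvqy_hex' {η : Conf PvPt} (h : PvrOk η) {x0 x1 y0 y1 : ℝ} (hx : x0 ≤ x1) (hy : y0 ≤ y1) :
    (rswTB x0 x1 y0 y1).Holds (cfB η) ∨ (rswLR x0 x1 y0 y1).Holds (cfW η) := by
  have h1 := pvr_hex (pvqy_ok_flip h) hx hy
  rw [← pvr_W_eq, pvr_W_eq (cfFlip η), pvr_flip_flip] at h1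
  exact h1.symm

theorem pvqy_lr_of_block {η : Conf PvPt} (hok : PvrOk η) {x0 x1 y0 y1 u : ℝ} {K : ℕ} (hx : x0 ≤ x1) (hu : 0 < u) (hh : y1 - y0 = 5 * u) (hK : x1 - x0 < K * u)
    (hb : ∀ i < K, η ∈ pvqyNoW (rswArm (x0 + u / 2 + i * u) ((y0 + y1) / 2) (u / 2) (5 * u / 2))) : η ∈ pvrEv (rswLR x0 x1 y0 y1) :=
  (pvr_hex hok hx (by linarith)).resolve_right fun h => by
    obtain ⟨i, hi, ha⟩ := pvqy_tb_arm hu hh hK h
    exact hb i hi ha

theorem pvqy_tb_of_block {η : Conf PvPt} (hok : PvrOk η) {x0 x1 y0 y1 u : ℝ} {K : ℕ} (hy : y0 ≤ y1) (hu : 0 < u) (hh : x1 - x0 = 5 * u) (hK : y1 - y0 < K * u)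
    (hb : ∀ i < K, η ∈ pvqyNoW (rswArm ((x0 + x1) / 2) (y0 + u / 2 + i * u) (u / 2) (5 * u / 2))) : η ∈ pvrEv (rswTB x0 x1 y0 y1) :=
  (pvqy_hex' hok (by linarith) hy).resolve_right fun h => by
    obtain ⟨i, hi, ha⟩ := pvqy_lr_arm hu hh hK h
    exact hb i hi ha

/-! ## 4. from finitely many blocking events to any event which they force -/

theorem pvqy_good_ae {ε : ℝ} (hε : ε ≠ 0) : ∀ᵐ g ∂(pvGeo ε), PvqyLF g ∧ ∀ᵐ c ∂pvCol, PvrOk (pvConf (pvMerge (g, c))) :=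
  (pvqy_lf_ae ε).and (pvqu_Qc_ae ε (pvr_ok_ae ε hε))

/-- **GLUE**: an event forced by `K` blocking events has quenched probability `≥ q ^ K` off the union of their bad sets -/
theorem pvqy_glue {ε : ℝ} (hε : ε ≠ 0) {K : ℕ} (e : ℕ → RswTri) (he : ∀ i < K, (e i).Nice) {𝒯 : Set (Conf PvPt)}
    (hT : ∀ η, PvrOk η → (∀ i < K, η ∈ pvqyNoW (e i)) → η ∈ 𝒯) {q : ℝ} (hq : 0 ≤ q) :
    pvGeo ε {g | pvQc 𝒯 g < ENNReal.ofReal (q ^ K)} ≤ ∑ i ∈ Finset.range K, pvGeo ε {g | pvQc (pvqyNoW (e i)) g < ENNReal.ofReal q} := by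
  refine le_trans (measure_mono_ae ?_) (measure_biUnion_finset_le (Finset.range K) fun i => {g | pvQc (pvqyNoW (e i)) g < ENNReal.ofReal q})
  filter_upwards [pvqy_good_ae hε] with g hg hbad
  by_contra hcon
  have hall : ∀ i ∈ Finset.range K, ENNReal.ofReal q ≤ pvQc (pvqyNoW (e i)) g := by
    intro i hi
    by_contra hlt
    exact hcon (mem_iUnion₂.2 ⟨i, hi, not_le.1 hlt⟩)
  have h1 := pvqy_harris_pow hg.1 (Finset.range K) (fun i => pvqyNoW (e i)) (fun i hi => pvqy_noW_meas (he i (Finset.mem_range.1 hi)))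
    (fun i _ => pvqy_noW_inc (e i)) hall
  rw [Finset.card_range, ← ENNReal.ofReal_pow hq] at h1
  have h2 : pvQc (⋂ i ∈ Finset.range K, pvqyNoW (e i)) g ≤ pvQc 𝒯 g := by
    rw [pvqu_Qc_eq, pvqu_Qc_eq]
    refine measure_mono_ae ?_
    filter_upwards [hg.2] with c hc hmem
    refine hT _ hc fun i hi => ?_
    have := mem_iInter₂.1 hmem i (Finset.mem_range.2 hi)
    exact this
  exact absurd (h1.trans h2) (not_le.2 hbad)

/-- **FAMILY FORM OF THE EXIT**: `K` square annuli `(u/2, 5u/2)` with arbitrary centres, `𝒯` any event forced by "no white arm across any of them" -/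
theorem pvqy_family (h1 : PvqxS1) : ∃ q : ℝ, 0 < q ∧ ∀ (K : ℕ) (δ : ℝ), 0 < δ → ∃ U : ℝ, 0 < U ∧ ∀ ε : ℝ, 0 < ε → ∀ u : ℝ, U * ε ≤ u →
    ∀ (z : ℕ → ℂ) (𝒯 : Set (Conf PvPt)), (∀ η, PvrOk η → (∀ i < K, η ∈ pvqyNoW (rswArm (z i).re (z i).im (u / 2) (5 * u / 2))) → η ∈ 𝒯) →
      pvGeo ε {g | pvQc 𝒯 g < ENNReal.ofReal (q ^ K)} ≤ ENNReal.ofReal δ := by
  obtain ⟨q, hq, H⟩ := pvqx_exit_unif h1
  refine ⟨q, hq, fun K δ hδ => ?_⟩
  have hK1 : (0 : ℝ) < (K : ℝ) + 1 := by positivity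
  obtain ⟨U, hU, H⟩ := H (δ / (K + 1)) (by positivity)
  refine ⟨U, hU, fun ε hε u hu z 𝒯 hT => ?_⟩
  refine (pvqy_glue hε.ne' (fun i => rswArm (z i).re (z i).im (u / 2) (5 * u / 2)) (fun i _ => rsw_nice_Arm _ _ _ _) hT hq.le).trans ?_
  calc ∑ i ∈ Finset.range K, pvGeo ε {g | pvQc (pvqyNoW (rswArm (z i).re (z i).im (u / 2) (5 * u / 2))) g < ENNReal.ofReal q}
      ≤ ∑ _i ∈ Finset.range K, ENNReal.ofReal (δ / (K + 1)) := Finset.sum_le_sum fun i _ => (H ε hε u hu (z i)).2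
    _ = ENNReal.ofReal (K * (δ / (K + 1))) := by
        rw [Finset.sum_const, Finset.card_range, nsmul_eq_mul, ENNReal.ofReal_mul (Nat.cast_nonneg K), ENNReal.ofReal_natCast]
    _ ≤ ENNReal.ofReal δ := by
        refine ENNReal.ofReal_le_ofReal ?_
        rw [mul_div_assoc', div_le_iff₀ hK1]
        nlinarith

/-! ## 5. RECTANGLES -/

theorem pvqy_white (e : RswTri) (g : PvGeoT) : pvQc (pvrEvW e) g = pvQc (pvrEv e) g := by
  rw [pvr_evW_eq, pvqu_Qc_flip]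

/-- **QUENCHED BOX CROSSING**: rectangles of aspect ratio `≤ ρ` crossed in the LONG direction, every position, both directions, both colours; the bad set of geometries has probability `≤ δ` as soon as
`short side ≥ U(δ) * mesh`      (`q = q₀ ^ (⌊5ρ⌋ + 1)`, `q₀` = the constant of the blocking exit) -/
theorem pvqy_rect (h1 : PvqxS1) (ρ : ℝ) : ∃ q : ℝ, 0 < q ∧ ∀ δ : ℝ, 0 < δ → ∃ U : ℝ, 0 < U ∧ ∀ ε : ℝ, 0 < ε → ∀ x0 x1 y0 y1 : ℝ,
    (x0 ≤ x1 → U * ε ≤ y1 - y0 → x1 - x0 ≤ ρ * (y1 - y0) →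
      pvGeo ε {g | pvQc (pvrEv (rswLR x0 x1 y0 y1)) g < ENNReal.ofReal q} ≤ ENNReal.ofReal δ ∧
      pvGeo ε {g | pvQc (pvrEvW (rswLR x0 x1 y0 y1)) g < ENNReal.ofReal q} ≤ ENNReal.ofReal δ) ∧
    (y0 ≤ y1 → U * ε ≤ x1 - x0 → y1 - y0 ≤ ρ * (x1 - x0) →
      pvGeo ε {g | pvQc (pvrEv (rswTB x0 x1 y0 y1)) g < ENNReal.ofReal q} ≤ ENNReal.ofReal δ ∧
      pvGeo ε {g | pvQc (pvrEvW (rswTB x0 x1 y0 y1)) g < ENNReal.ofReal q} ≤ ENNReal.ofReal δ) := by
  obtain ⟨q, hq, H⟩ := pvqy_family h1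
  refine ⟨q ^ (⌊5 * ρ⌋₊ + 1), by positivity, fun δ hδ => ?_⟩
  obtain ⟨U, hU, H⟩ := H (⌊5 * ρ⌋₊ + 1) δ hδ
  refine ⟨5 * U, by positivity, fun ε hε x0 x1 y0 y1 => ⟨fun hx hh hr => ?_, fun hy hh hr => ?_⟩⟩
  · have hu : U * ε ≤ (y1 - y0) / 5 := by
      rw [le_div_iff₀ (by norm_num)]
      linarith
    have hu0 : 0 < (y1 - y0) / 5 := lt_of_lt_of_le (by positivity) hu
    have key := H ε hε ((y1 - y0) / 5) hu (fun i => ⟨x0 + (y1 - y0) / 5 / 2 + i * ((y1 - y0) / 5), (y0 + y1) / 2⟩) (pvrEv (rswLR x0 x1 y0 y1))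
      (fun η hok hb => pvqy_lr_of_block hok hx hu0 (by ring) (by
        have h5 := Nat.lt_floor_add_one (5 * ρ)
        push_cast
        nlinarith) hb)
    refine ⟨key, ?_⟩
    simp only [pvqy_white]
    exact key
  · have hu : U * ε ≤ (x1 - x0) / 5 := by
      rw [le_div_iff₀ (by norm_num)]
      linarith
    have hu0 : 0 < (x1 - x0) / 5 := lt_of_lt_of_le (by positivity) hu
    have key := H ε hε ((x1 - x0) / 5) hu (fun i => ⟨(x0 + x1) / 2, y0 + (x1 - x0) / 5 / 2 + i * ((x1 - x0) / 5)⟩) (pvrEv (rswTB x0 x1 y0 y1))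
      (fun η hok hb => pvqy_tb_of_block hok hy hu0 (by ring) (by
        have h5 := Nat.lt_floor_add_one (5 * ρ)
        push_cast
        nlinarith) hb)
    refine ⟨key, ?_⟩
    simp only [pvqy_white]
    exact key

/-! ## 6. finitely many patterns at once; circuits -/

theorem pvqy_list_union {G α : Type*} [MeasurableSpace G] (μ : Measure G) (l : List α) (S : α → Set G) :
    μ {g | ∃ a ∈ l, g ∈ S a} ≤ (l.map fun a => μ (S a)).sum := by
  induction l with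
  | nil => simp
  | cons x l ih =>
    have e : {g | ∃ a ∈ x :: l, g ∈ S a} = S x ∪ {g | ∃ a ∈ l, g ∈ S a} := by
      ext g
      simp only [List.mem_cons, exists_eq_or_imp, mem_ofPred_eq, mem_union]
    rw [e, List.map_cons, List.sum_cons]
    exact (measure_union_le _ _).trans (add_le_add le_rfl ih)

/-- quenched Harris for a list of black patterns -/
theorem pvqy_harris_list {g : PvGeoT} (hg : PvqyLF g) (l : List RswTri) (he : ∀ e ∈ l, e.Nice) :
    (l.map fun e => pvQc (pvrEv e) g).prod ≤ pvQc {η | ∀ e ∈ l, e.Holds (cfB η)} g :=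
  pvfq_up_list (fun _ : PvIx => pvCoin) l (fun e => {c : PvColT | pvConf (pvMerge (g, c)) ∈ pvrEv e})
    (fun e hel => by
      have e1 : {c : PvColT | pvConf (pvMerge (g, c)) ∈ pvrEv e} = (fun c : PvColT => pvConf (pvMerge (g, c))) ⁻¹' (pvrEv e ∩ {η | PvLF η}) := by
        ext c
        exact ⟨fun h => ⟨h, hg c⟩, fun h => h.1⟩
      rw [e1]
      exact pvqy_measurable_conf g (pvr_ev_meas (he e hel)))
    (fun e _ c c' hcc hc => pvr_ev_mono (pvqy_le_conf g hcc) hc)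

/-- **ALL THE PATTERNS OF A LIST AT ONCE** (one colour): quenched probability `≥ q ^ length` off the union of the bad sets -/
theorem pvqy_all (ε : ℝ) (l : List RswTri) (he : ∀ e ∈ l, e.Nice) {q : ℝ} (hq : 0 ≤ q) :
    pvGeo ε {g | pvQc {η | ∀ e ∈ l, e.Holds (cfB η)} g < ENNReal.ofReal (q ^ l.length)} ≤ (l.map fun e => pvGeo ε {g | pvQc (pvrEv e) g < ENNReal.ofReal q}).sum := by
  refine le_trans (measure_mono_ae ?_) (pvqy_list_union (pvGeo ε) l fun e => {g | pvQc (pvrEv e) g < ENNReal.ofReal q})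
  filter_upwards [pvqy_lf_ae ε] with g hg hbad
  by_contra hcon
  have hall : ∀ x ∈ l.map (fun e => pvQc (pvrEv e) g), ENNReal.ofReal q ≤ x := by
    intro x hx
    obtain ⟨e, hel, rfl⟩ := List.mem_map.1 hx
    by_contra hlt
    exact hcon ⟨e, hel, not_le.1 hlt⟩
  have h1 := List.pow_card_le_prod _ _ hall
  rw [List.length_map, ← ENNReal.ofReal_pow hq] at h1
  exact absurd (h1.trans (pvqy_harris_list hg l he)) (not_le.2 hbad)

theorem pvqy_all_white (l : List RswTri) (g : PvGeoT) : pvQc {η | ∀ e ∈ l, e.Holds (cfW η)} g = pvQc {η | ∀ e ∈ l, e.Holds (cfB η)} g := by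
  have e : {η : Conf PvPt | ∀ e ∈ l, e.Holds (cfW η)} = cfFlip ⁻¹' {η | ∀ e ∈ l, e.Holds (cfB η)} := by
    ext η
    simp only [mem_ofPred_eq, mem_preimage, pvr_W_eq]
  rw [e, pvqu_Qc_flip]

/-- **QUENCHED CIRCUITS**: the four crossings `pvreAnn cx cy t` (262) of the square annulus `(t, 2t)`, every centre, both colours -/
theorem pvqy_circ (h1 : PvqxS1) : ∃ q : ℝ, 0 < q ∧ ∀ δ : ℝ, 0 < δ → ∃ U : ℝ, 0 < U ∧ ∀ ε : ℝ, 0 < ε → ∀ t : ℝ, U * ε ≤ t → ∀ cx cy : ℝ,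
    pvGeo ε {g | pvQc {η | ∀ e ∈ pvreAnn cx cy t, e.Holds (cfB η)} g < ENNReal.ofReal q} ≤ ENNReal.ofReal δ ∧
    pvGeo ε {g | pvQc {η | ∀ e ∈ pvreAnn cx cy t, e.Holds (cfW η)} g < ENNReal.ofReal q} ≤ ENNReal.ofReal δ := by
  obtain ⟨q, hq, H⟩ := pvqy_rect h1 4
  refine ⟨q ^ 4, by positivity, fun δ hδ => ?_⟩
  obtain ⟨U, hU, H⟩ := H (δ / 4) (by positivity)
  refine ⟨U, hU, fun ε hε t ht cx cy => ?_⟩
  have ht0 : 0 < t := lt_of_lt_of_le (by positivity) ht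
  have key : pvGeo ε {g | pvQc {η | ∀ e ∈ pvreAnn cx cy t, e.Holds (cfB η)} g < ENNReal.ofReal (q ^ 4)} ≤ ENNReal.ofReal δ := by
    have h := pvqy_all ε (pvreAnn cx cy t) (pvre_ann_nice cx cy t) hq.le
    have hlen : (pvreAnn cx cy t).length = 4 := rfl
    rw [hlen] at h
    refine h.trans ?_
    simp only [pvreAnn, List.map_cons, List.map_nil, List.sum_cons, List.sum_nil, add_zero]
    have a1 := ((H ε hε (cx - 2 * t) (cx + 2 * t) (cy + t) (cy + 2 * t)).1 (by linarith) (by linarith) (by linarith)).1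
    have a2 := ((H ε hε (cx - 2 * t) (cx + 2 * t) (cy - 2 * t) (cy - t)).1 (by linarith) (by linarith) (by linarith)).1
    have a3 := ((H ε hε (cx - 2 * t) (cx - t) (cy - 2 * t) (cy + 2 * t)).2 (by linarith) (by linarith) (by linarith)).1
    have a4 := ((H ε hε (cx + t) (cx + 2 * t) (cy - 2 * t) (cy + 2 * t)).2 (by linarith) (by linarith) (by linarith)).1
    refine (add_le_add a1 (add_le_add a2 (add_le_add a3 a4))).trans (le_of_eq ?_)
    rw [← ENNReal.ofReal_add (by positivity) (by positivity), ← ENNReal.ofReal_add (by positivity) (by positivity),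
      ← ENNReal.ofReal_add (by positivity) (by positivity)]
    congr 1
    ring
  refine ⟨key, ?_⟩
  simp only [pvqy_all_white]
  exact key

/-! ## 7. fixed patterns, mesh `→ 0` -/

/-- from the uniform form to a limit at a fixed scale `s` -/
theorem pvqy_tendsto_of_unif {f : ℝ → ℝ≥0∞} {s : ℝ} (hs : 0 < s) (h : ∀ δ : ℝ, 0 < δ → ∃ U : ℝ, 0 < U ∧ ∀ ε : ℝ, 0 < ε → U * ε ≤ s → f ε ≤ ENNReal.ofReal δ) :
    Tendsto f (𝓝[>] 0) (𝓝 0) := by
  rw [ENNReal.tendsto_nhds_zero]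
  intro δ hδ
  obtain ⟨r, -, hr1, hr2⟩ := ENNReal.lt_iff_exists_real_btwn.1 hδ
  obtain ⟨U, hU, H⟩ := h r (ENNReal.ofReal_pos.1 hr1)
  have ev : ∀ᶠ ε : ℝ in 𝓝[>] 0, ε < s / U := by
    have : ∀ᶠ ε : ℝ in 𝓝 0, ε < s / U := eventually_lt_nhds (by positivity)
    exact this.filter_mono nhdsWithin_le_nhds
  filter_upwards [ev, self_mem_nhdsWithin] with ε e1 hε
  refine (H ε hε ?_).trans hr2.le
  rw [lt_div_iff₀ hU] at e1
  linarith

/-- a fixed rectangle, left-right, both colours -/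
theorem pvqy_rect_lim (h1 : PvqxS1) (ρ : ℝ) : ∃ q : ℝ, 0 < q ∧ ∀ x0 x1 y0 y1 : ℝ,
    (x0 ≤ x1 → y0 < y1 → x1 - x0 ≤ ρ * (y1 - y0) →
      Tendsto (fun ε : ℝ => pvGeo ε {g | pvQc (pvrEv (rswLR x0 x1 y0 y1)) g < ENNReal.ofReal q}) (𝓝[>] 0) (𝓝 0) ∧
      Tendsto (fun ε : ℝ => pvGeo ε {g | pvQc (pvrEvW (rswLR x0 x1 y0 y1)) g < ENNReal.ofReal q}) (𝓝[>] 0) (𝓝 0)) ∧
    (y0 ≤ y1 → x0 < x1 → y1 - y0 ≤ ρ * (x1 - x0) →
      Tendsto (fun ε : ℝ => pvGeo ε {g | pvQc (pvrEv (rswTB x0 x1 y0 y1)) g < ENNReal.ofReal q}) (𝓝[>] 0) (𝓝 0) ∧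
      Tendsto (fun ε : ℝ => pvGeo ε {g | pvQc (pvrEvW (rswTB x0 x1 y0 y1)) g < ENNReal.ofReal q}) (𝓝[>] 0) (𝓝 0)) := by
  obtain ⟨q, hq, H⟩ := pvqy_rect h1 ρ
  refine ⟨q, hq, fun x0 x1 y0 y1 => ⟨fun hx hy hr => ⟨?_, ?_⟩, fun hy hx hr => ⟨?_, ?_⟩⟩⟩
  · refine pvqy_tendsto_of_unif (s := y1 - y0) (by linarith) fun δ hδ => ?_
    obtain ⟨U, hU, H⟩ := H δ hδ
    exact ⟨U, hU, fun ε hε hs => ((H ε hε x0 x1 y0 y1).1 hx hs hr).1⟩
  · refine pvqy_tendsto_of_unif (s := y1 - y0) (by linarith) fun δ hδ => ?_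
    obtain ⟨U, hU, H⟩ := H δ hδ
    exact ⟨U, hU, fun ε hε hs => ((H ε hε x0 x1 y0 y1).1 hx hs hr).2⟩
  · refine pvqy_tendsto_of_unif (s := x1 - x0) (by linarith) fun δ hδ => ?_
    obtain ⟨U, hU, H⟩ := H δ hδ
    exact ⟨U, hU, fun ε hε hs => ((H ε hε x0 x1 y0 y1).2 hy hs hr).1⟩
  · refine pvqy_tendsto_of_unif (s := x1 - x0) (by linarith) fun δ hδ => ?_
    obtain ⟨U, hU, H⟩ := H δ hδ
    exact ⟨U, hU, fun ε hε hs => ((H ε hε x0 x1 y0 y1).2 hy hs hr).2⟩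

/-- a fixed square annulus `(t, 2t)`: quenched circuits, both colours -/
theorem pvqy_circ_lim (h1 : PvqxS1) : ∃ q : ℝ, 0 < q ∧ ∀ t : ℝ, 0 < t → ∀ cx cy : ℝ,
    Tendsto (fun ε : ℝ => pvGeo ε {g | pvQc {η | ∀ e ∈ pvreAnn cx cy t, e.Holds (cfB η)} g < ENNReal.ofReal q}) (𝓝[>] 0) (𝓝 0) ∧
    Tendsto (fun ε : ℝ => pvGeo ε {g | pvQc {η | ∀ e ∈ pvreAnn cx cy t, e.Holds (cfW η)} g < ENNReal.ofReal q}) (𝓝[>] 0) (𝓝 0) := by
  obtain ⟨q, hq, H⟩ := pvqy_circ h1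
  refine ⟨q, hq, fun t ht cx cy => ⟨?_, ?_⟩⟩
  · refine pvqy_tendsto_of_unif ht fun δ hδ => ?_
    obtain ⟨U, hU, H⟩ := H δ hδ
    exact ⟨U, hU, fun ε hε hs => (H ε hε t hs cx cy).1⟩
  · refine pvqy_tendsto_of_unif ht fun δ hδ => ?_
    obtain ⟨U, hU, H⟩ := H δ hδ
    exact ⟨U, hU, fun ε hε hs => (H ε hε t hs cx cy).2⟩

/-! ## 8. the only open hypothesis of the box -/

/-- **stage 1 from `[REV]` alone** (`[LAY]` is proved: `pvqn_lay` of 248) -/
theorem pvqy_S1 (hR : PvqmRev (fun u => pvqcO 0 u) (fun u => pvqcF 0 u)) : PvqxS1 :=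
  pvqm_stage1 pvqn_lay (fun _ hu => pvqc_win 0 hu) (fun u _ => pvqc_test 0 u) hR

end Claimed.Agent.R289
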