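import Mathlib
import Claimed.Agent.R289.Rsw.Topo
import Claimed.Agent.R289.Vor.Basic

/-!
# Row 289 (S0537), box L2 QBX, file Qbx/Expl : THE EXPLORATION (deterministic)      OWNER helper30 (second: helper279), prefix `pvqe` / `PvqeG`

Everything here is DETERMINISTIC.  This file delivers to SS1 (helper77, Qbx/Ss1) and to Qbx/Main (helper277) :

* part 1 (abstract): a site graph with seeds `M`, entrance sites `In`, exit sites `Out` and a side predicate `Ins` (`PvqeG`);  the crossing event `G.Cross σ`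
  of a colouring `σ : V → Bool` (true = black);  the REVEAL SET `G.J σ` = seeds + all neighbours of the black clusters of the black seeds, the clusters being grown
  through NON TERMINAL black sites only;  `pvqe_J_congr`, `pvqe_cross_congr` : if `σ' = σ` on `G.J σ` then `G.J σ' = G.J σ` and `G.Cross σ' ↔ G.Cross σ`
  (this is exactly the hypothesis of SS1 in the form of 248 / 155: no rounds, no decision tree, no cardinality).
* part 2 (geometry): closed convex cells `C i`, a pattern `e : RswTri` with convex `K`, a continuous height `φ` and a level `ℓ` with `φ < ℓ` on `S`, `ℓ < φ` on `T`: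
  `pvqeGeo`, `pvqe_holds_iff` : `e.Holds (black union) ↔ Cross`;  `pvqe_J_joined` : a revealed cell is a seed or touches (inside `K`) the black component of a point of
  the level set, at a point of a cell which is a seed or is not terminal.
* part 3 (arms, LOC): `pvqe_arm_of_joined`, `pvqe_arm_outer` (only the closed annulus matters), `pvqe_arm_loc` (Voronoi: the arm is seen in `Y ∩ N`), `pvqe_reveal` (final form).
-/

set_option autoImplicit false

namespace Claimed.Agent.R289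

open Set Relation

universe u

/-! ## 1. The abstract exploration -/

/-- abstract exploration data on a set `V` of sites -/
structure PvqeG (V : Type u) : Type u where
  /-- adjacency -/
  adj : V → V → Prop
  /-- seeds (cells meeting the level set) -/
  M : V → Prop
  /-- entrance sites -/
  In : V → Prop
  /-- exit sites -/
  Out : V → Prop
  /-- side predicate -/
  Ins : V → Prop
  symm : ∀ u v, adj u v → adj v u
  hIn : ∀ a, In a → M a ∨ Ins a
  hOut : ∀ b, Out b → M b ∨ ¬ Ins b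
  hAdj : ∀ u v, adj u v → ¬ M u → ¬ M v → (Ins u ↔ Ins v)

namespace PvqeG

variable {V : Type u} (G : PvqeG V) (σ : V → Bool)

/-- terminal sites -/
def Tm (a : V) : Prop := G.In a ∨ G.Out a

/-- a step into a black site -/
def Stp (a b : V) : Prop := G.adj a b ∧ σ b = true

/-- a step into a black non terminal site -/
def Gs (a b : V) : Prop := G.adj a b ∧ σ b = true ∧ ¬ G.Tm b

/-- the crossing event: a black chain from an entrance site to an exit site -/
def Cross : Prop := ∃ a b, G.In a ∧ G.Out b ∧ σ a = true ∧ ReflTransGen (G.Stp σ) a b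

/-- `s` has property `P`, or its non terminal black cluster has a black neighbour with property `P` -/
def Rch (P : V → Prop) (s : V) : Prop := P s ∨ ∃ y b, ReflTransGen (G.Gs σ) s y ∧ G.adj y b ∧ σ b = true ∧ P b

/-- the crossing event seen from the seeds -/
def CrossS : Prop := ∃ s, G.M s ∧ σ s = true ∧ G.Rch σ G.In s ∧ G.Rch σ G.Out s

/-- the reveal set -/
def J : Set V := {x | G.M x ∨ ∃ s y, G.M s ∧ σ s = true ∧ ReflTransGen (G.Gs σ) s y ∧ G.adj y x}

end PvqeG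

theorem pvqe_defs_eqns_cite : True := by
  have := @PvqeG.Tm.eq_1.{0}
  have := @PvqeG.Stp.eq_1.{0}
  have := @PvqeG.Gs.eq_1.{0}
  have := @PvqeG.Cross.eq_1.{0}
  have := @PvqeG.Rch.eq_1.{0}
  have := @PvqeG.CrossS.eq_1.{0}
  have := @PvqeG.J.eq_1.{0}
  trivial

section abs

variable {V : Type u} (G : PvqeG V) {σ σ' : V → Bool}

theorem pvqe_gs_stp {a b : V} (h : G.Gs σ a b) : G.Stp σ a b := ⟨h.1, h.2.1⟩

theorem pvqe_rg_stp {a b : V} (h : ReflTransGen (G.Gs σ) a b) : ReflTransGen (G.Stp σ) a b :=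
  ReflTransGen.mono (fun _ _ h => pvqe_gs_stp G h) a b h

/-- all sites of a chain issued from a black site are black -/
theorem pvqe_black_of_stp {a b : V} (ha : σ a = true) (h : ReflTransGen (G.Stp σ) a b) : σ b = true := by
  induction h with
  | refl => exact ha
  | tail _ h2 _ => exact h2.2

theorem pvqe_black_of_rg {a b : V} (ha : σ a = true) (h : ReflTransGen (G.Gs σ) a b) : σ b = true :=
  pvqe_black_of_stp G ha (pvqe_rg_stp G h)

/-- a non terminal chain which ends at a terminal site is trivial -/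
theorem pvqe_rg_tm {a b : V} (h : ReflTransGen (G.Gs σ) a b) (hb : G.Tm b) : a = b := by
  cases h with
  | refl => rfl
  | tail _ h2 => exact absurd hb h2.2.2

/-- reversal of a black chain -/
theorem pvqe_stp_rev {a b : V} (ha : σ a = true) (h : ReflTransGen (G.Stp σ) a b) : ReflTransGen (G.Stp σ) b a := by
  induction h with
  | refl => exact ReflTransGen.refl
  | tail h1 h2 ih => exact ReflTransGen.head ⟨G.symm _ _ h2.1, pvqe_black_of_stp G ha h1⟩ ih

/-- reversal of a non terminal chain: the first site may be terminal, it is put aside -/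
theorem pvqe_rg_rev {a b : V} (h : ReflTransGen (G.Gs σ) a b) :
    a = b ∨ (σ b = true ∧ ¬ G.Tm b ∧ ∃ x, G.adj a x ∧ ReflTransGen (G.Gs σ) b x) := by
  induction h with
  | refl => exact Or.inl rfl
  | @tail b c _ h2 ih =>
    refine Or.inr ⟨h2.2.1, h2.2.2, ?_⟩
    rcases ih with rfl | ⟨hb, hbt, x, hax, hbx⟩
    · exact ⟨c, h2.1, ReflTransGen.refl⟩
    · exact ⟨x, hax, ReflTransGen.head ⟨G.symm _ _ h2.1, hb, hbt⟩ hbx⟩

/-- Lemma A: every site of a non terminal chain issued from a black site with property `P` reaches `P` -/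
theorem pvqe_rch_back {P : V → Prop} {a s : V} (hP : P a) (ha : σ a = true) (h : ReflTransGen (G.Gs σ) a s) : G.Rch σ P s := by
  rcases pvqe_rg_rev G h with rfl | ⟨_, _, x, hax, hsx⟩
  · exact Or.inl hP
  · exact Or.inr ⟨x, a, hsx, G.symm _ _ hax, ha, hP⟩

/-- Lemma A': the same for a neighbour of the last site -/
theorem pvqe_rch_back' {P : V → Prop} {a y b : V} (hP : P a) (ha : σ a = true) (h : ReflTransGen (G.Gs σ) a y) (hyb : G.adj y b) : G.Rch σ P b := by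
  rcases pvqe_rg_rev G h with rfl | ⟨hy, hyt, x, hax, hyx⟩
  · exact Or.inr ⟨b, a, ReflTransGen.refl, G.symm _ _ hyb, ha, hP⟩
  · exact Or.inr ⟨x, a, ReflTransGen.head ⟨G.symm _ _ hyb, hy, hyt⟩ hyx, G.symm _ _ hax, ha, hP⟩

/-- refinement of a crossing: last entrance, then first exit -/
theorem pvqe_refine (h : G.Cross σ) :
    ∃ a y b, G.In a ∧ σ a = true ∧ ReflTransGen (G.Gs σ) a y ∧ (y = b ∨ (G.adj y b ∧ σ b = true)) ∧ G.Out b := by
  obtain ⟨a, b, ha, hb, hab, hch⟩ := h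
  have key : ∀ x, ReflTransGen (G.Stp σ) a x →
      (∃ a y b, G.In a ∧ σ a = true ∧ ReflTransGen (G.Gs σ) a y ∧ (y = b ∨ (G.adj y b ∧ σ b = true)) ∧ G.Out b) ∨
      (∃ a', G.In a' ∧ σ a' = true ∧ ReflTransGen (G.Gs σ) a' x) := by
    intro x hx
    induction hx with
    | refl => exact Or.inr ⟨a, ha, hab, ReflTransGen.refl⟩
    | @tail x x' _ h2 ih =>
      rcases ih with ih | ⟨a', ha', hb', hc'⟩
      · exact Or.inl ih
      · by_cases h3 : G.In x'
        · exact Or.inr ⟨x', h3, h2.2, ReflTransGen.refl⟩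
        · by_cases h4 : G.Out x'
          · exact Or.inl ⟨a', x, x', ha', hb', hc', Or.inr ⟨h2.1, h2.2⟩, h4⟩
          · exact Or.inr ⟨a', ha', hb', hc'.tail ⟨h2.1, h2.2, fun h => h.elim h3 h4⟩⟩
  rcases key b hch with h | ⟨a', ha', hb', hc'⟩
  · exact h
  · exact ⟨a', b, b, ha', hb', hc', Or.inl rfl, hb⟩

/-- Lemma B: a non terminal chain meets a seed or stays on one side -/
theorem pvqe_seed_or_side {a y : V} (ha : G.M a ∨ G.Ins a) (h : ReflTransGen (G.Gs σ) a y) :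
    (∃ s, G.M s ∧ ReflTransGen (G.Gs σ) a s ∧ ReflTransGen (G.Gs σ) s y) ∨ (¬ G.M y ∧ G.Ins y) := by
  induction h with
  | refl =>
    by_cases hM : G.M a
    · exact Or.inl ⟨a, hM, ReflTransGen.refl, ReflTransGen.refl⟩
    · exact Or.inr ⟨hM, ha.resolve_left hM⟩
  | @tail x x' h1 h2 ih =>
    rcases ih with ⟨s, hs, h3, h4⟩ | ⟨hx, hi⟩
    · exact Or.inl ⟨s, hs, h3, h4.tail h2⟩
    · by_cases hM : G.M x'
      · exact Or.inl ⟨x', hM, h1.tail h2, ReflTransGen.refl⟩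
      · exact Or.inr ⟨hM, (G.hAdj _ _ h2.1 hx hM).1 hi⟩

/-- a crossing is seen from a black seed -/
theorem pvqe_crossS_of_cross (h : G.Cross σ) : G.CrossS σ := by
  obtain ⟨a, y, b, ha, hab, hch, hyb, hb⟩ := pvqe_refine G h
  rcases pvqe_seed_or_side G (G.hIn a ha) hch with ⟨s, hs, h1, h2⟩ | ⟨hy, hi⟩
  · refine ⟨s, hs, pvqe_black_of_rg G hab h1, pvqe_rch_back G ha hab h1, ?_⟩
    rcases hyb with rfl | ⟨h3, h4⟩
    · have := pvqe_rg_tm G h2 (Or.inr hb)
      subst this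
      exact Or.inl hb
    · exact Or.inr ⟨y, b, h2, h3, h4, hb⟩
  · rcases hyb with rfl | ⟨h3, h4⟩
    · exact absurd hi ((G.hOut _ hb).resolve_left hy)
    · by_cases hM : G.M b
      · exact ⟨b, hM, h4, pvqe_rch_back' G ha hab hch h3, Or.inl hb⟩
      · exact absurd ((G.hAdj _ _ h3 hy hM).1 hi) ((G.hOut _ hb).resolve_left hM)

/-- conversely -/
theorem pvqe_cross_of_crossS (h : G.CrossS σ) : G.Cross σ := by
  obtain ⟨s, _, hsb, hi, ho⟩ := h
  -- a black chain from an entrance site to `s`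
  have h1 : ∃ a, G.In a ∧ σ a = true ∧ ReflTransGen (G.Stp σ) a s := by
    rcases hi with hi | ⟨y, a, hsy, hya, hab, ha⟩
    · exact ⟨s, hi, hsb, ReflTransGen.refl⟩
    · have h2 : ReflTransGen (G.Stp σ) s a := (pvqe_rg_stp G hsy).tail ⟨hya, hab⟩
      exact ⟨a, ha, hab, pvqe_stp_rev G hsb h2⟩
  have h2 : ∃ b, G.Out b ∧ ReflTransGen (G.Stp σ) s b := by
    rcases ho with ho | ⟨y, b, hsy, hyb, hbb, hb⟩
    · exact ⟨s, ho, ReflTransGen.refl⟩
    · exact ⟨b, hb, (pvqe_rg_stp G hsy).tail ⟨hyb, hbb⟩⟩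
  obtain ⟨a, ha, hab, hc1⟩ := h1
  obtain ⟨b, hb, hc2⟩ := h2
  exact ⟨a, b, ha, hb, hab, hc1.trans hc2⟩

theorem pvqe_cross_iff : G.Cross σ ↔ G.CrossS σ := ⟨pvqe_crossS_of_cross G, pvqe_cross_of_crossS G⟩

theorem pvqe_seed_mem_J {x : V} (h : G.M x) : x ∈ G.J σ := Or.inl h

theorem pvqe_nb_mem_J {s y x : V} (hs : G.M s) (hb : σ s = true) (h : ReflTransGen (G.Gs σ) s y) (hx : G.adj y x) : x ∈ G.J σ :=
  Or.inr ⟨s, y, hs, hb, h, hx⟩

/-- the clusters of the black seeds are read off the reveal set -/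
theorem pvqe_rg_congr (h : ∀ x ∈ G.J σ, σ' x = σ x) {s : V} (hs : G.M s) (hb : σ s = true) (y : V) :
    ReflTransGen (G.Gs σ') s y ↔ ReflTransGen (G.Gs σ) s y := by
  constructor
  · intro hy
    induction hy with
    | refl => exact ReflTransGen.refl
    | @tail x x' _ h2 ih =>
      have hx' : x' ∈ G.J σ := pvqe_nb_mem_J G hs hb ih h2.1
      exact ih.tail ⟨h2.1, by rw [← h x' hx']; exact h2.2.1, h2.2.2⟩
  · intro hy
    induction hy with
    | refl => exact ReflTransGen.refl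
    | @tail x x' h1 h2 ih =>
      have hx' : x' ∈ G.J σ := pvqe_nb_mem_J G hs hb h1 h2.1
      exact ih.tail ⟨h2.1, by rw [h x' hx']; exact h2.2.1, h2.2.2⟩

/-- **the reveal set is determined by the colours it reveals** -/
theorem pvqe_J_congr (h : ∀ x ∈ G.J σ, σ' x = σ x) : G.J σ' = G.J σ := by
  ext x
  constructor
  · rintro (hx | ⟨s, y, hs, hb, hy, hx⟩)
    · exact Or.inl hx
    · have hb' : σ s = true := by rw [← h s (pvqe_seed_mem_J G hs)]; exact hb
      exact Or.inr ⟨s, y, hs, hb', (pvqe_rg_congr G h hs hb' y).1 hy, hx⟩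
  · rintro (hx | ⟨s, y, hs, hb, hy, hx⟩)
    · exact Or.inl hx
    · exact Or.inr ⟨s, y, hs, by rw [h s (pvqe_seed_mem_J G hs)]; exact hb, (pvqe_rg_congr G h hs hb y).2 hy, hx⟩

theorem pvqe_rch_congr (h : ∀ x ∈ G.J σ, σ' x = σ x) {s : V} (hs : G.M s) (hb : σ s = true) (P : V → Prop) :
    G.Rch σ' P s ↔ G.Rch σ P s := by
  constructor
  · rintro (hP | ⟨y, b, hy, hyb, hbb, hP⟩)
    · exact Or.inl hP
    · have hy' := (pvqe_rg_congr G h hs hb y).1 hy
      exact Or.inr ⟨y, b, hy', hyb, by rw [← h b (pvqe_nb_mem_J G hs hb hy' hyb)]; exact hbb, hP⟩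
  · rintro (hP | ⟨y, b, hy, hyb, hbb, hP⟩)
    · exact Or.inl hP
    · exact Or.inr ⟨y, b, (pvqe_rg_congr G h hs hb y).2 hy, hyb, by rw [h b (pvqe_nb_mem_J G hs hb hy hyb)]; exact hbb, hP⟩

/-- **the crossing event is determined by the colours of the reveal set** -/
theorem pvqe_cross_congr (h : ∀ x ∈ G.J σ, σ' x = σ x) : G.Cross σ' ↔ G.Cross σ := by
  rw [pvqe_cross_iff, pvqe_cross_iff]
  constructor
  · rintro ⟨s, hs, hb, h1, h2⟩
    have hb' : σ s = true := by rw [← h s (pvqe_seed_mem_J G hs)]; exact hb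
    exact ⟨s, hs, hb', (pvqe_rch_congr G h hs hb' _).1 h1, (pvqe_rch_congr G h hs hb' _).1 h2⟩
  · rintro ⟨s, hs, hb, h1, h2⟩
    exact ⟨s, hs, by rw [h s (pvqe_seed_mem_J G hs)]; exact hb, (pvqe_rch_congr G h hs hb _).2 h1, (pvqe_rch_congr G h hs hb _).2 h2⟩

/-- the form consumed by SS1: bits `β`, a map `c ↦ σ c` such that the colour of a site is either one bit or does not depend on the bits -/
theorem pvqe_ss1_hyp {β : Type*} (col : (β → Bool) → V → Bool) (site : β → V)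
    (hcol : ∀ c c' : β → Bool, ∀ x, (∀ j, site j = x → c' j = c j) → col c' x = col c x)
    (c c' : β → Bool) (h : ∀ j, site j ∈ G.J (col c) → c' j = c j) :
    {j | site j ∈ G.J (col c')} = {j | site j ∈ G.J (col c)} ∧ (G.Cross (col c') ↔ G.Cross (col c)) := by
  have h1 : ∀ x ∈ G.J (col c), col c' x = col c x := fun x hx => hcol c c' x fun j hj => h j (hj ▸ hx)
  exact ⟨by rw [pvqe_J_congr G h1], pvqe_cross_congr G h1⟩

end abs

/-! ## 2. Geometry: closed convex cells, a pattern with convex `K`, a height function and a level -/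

section geo

variable {ι : Type u}

/-- the union of the black cells -/
def pvqeBlk (C : ι → Set ℂ) (σ : ι → Bool) : Set ℂ := {z | ∃ i, σ i = true ∧ z ∈ C i}

/-- hypotheses of the geometric exploration -/
structure PvqeH (C : ι → Set ℂ) (e : RswTri) (φ : ℂ → ℝ) (ℓ : ℝ) : Prop where
  cl : ∀ i, IsClosed (C i)
  cv : ∀ i, Convex ℝ (C i)
  cK : Convex ℝ e.K
  cφ : Continuous φ
  hS : ∀ z ∈ e.S, φ z < ℓ
  hT : ∀ z ∈ e.T, ℓ < φ z

variable {C : ι → Set ℂ} {e : RswTri} {φ : ℂ → ℝ} {ℓ : ℝ}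

/-- a clipped cell with points on both sides of the level meets the level set -/
theorem pvqe_ivt (H : PvqeH C e φ ℓ) {i : ι} {z w : ℂ} (hz : z ∈ C i ∩ e.K) (hw : w ∈ C i ∩ e.K) (h1 : φ z ≤ ℓ) (h2 : ℓ ≤ φ w) :
    ∃ q ∈ C i ∩ e.K, φ q = ℓ := by
  have hc : IsPreconnected (C i ∩ e.K) := ((H.cv i).inter H.cK).isPreconnected
  obtain ⟨q, hq, hql⟩ := hc.intermediate_value hz hw H.cφ.continuousOn ⟨h1, h2⟩
  exact ⟨q, hq, hql⟩

/-- the exploration data of the geometric situation -/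
def pvqeGeo (H : PvqeH C e φ ℓ) : PvqeG ι where
  adj i j := (C i ∩ C j ∩ e.K).Nonempty
  M i := ∃ z ∈ C i ∩ e.K, φ z = ℓ
  In i := (C i ∩ e.K ∩ e.S).Nonempty
  Out i := (C i ∩ e.K ∩ e.T).Nonempty
  Ins i := ∃ z ∈ C i ∩ e.K, φ z < ℓ
  symm := by
    rintro i j ⟨z, ⟨h1, h2⟩, h3⟩
    exact ⟨z, ⟨h2, h1⟩, h3⟩
  hIn := by
    rintro i ⟨z, hz, hzS⟩
    exact Or.inr ⟨z, hz, H.hS z hzS⟩
  hOut := by
    rintro i ⟨w, hw, hwT⟩
    by_cases h : ∃ z ∈ C i ∩ e.K, φ z < ℓ
    · obtain ⟨z, hz, hzl⟩ := h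
      exact Or.inl (pvqe_ivt H hz hw hzl.le (H.hT w hwT).le)
    · exact Or.inr h
  hAdj := by
    rintro i j ⟨q, ⟨hqi, hqj⟩, hqK⟩ hi hj
    have key : ∀ k, q ∈ C k → (¬ ∃ z ∈ C k ∩ e.K, φ z = ℓ) → ((∃ z ∈ C k ∩ e.K, φ z < ℓ) ↔ φ q < ℓ) := by
      intro k hqk hk
      constructor
      · rintro ⟨z, hz, hzl⟩
        by_contra hq
        exact hk (pvqe_ivt H hz ⟨hqk, hqK⟩ hzl.le (not_lt.1 hq))
      · intro hq
        exact ⟨q, ⟨hqk, hqK⟩, hq⟩
    rw [key i hqi hi, key j hqj hj]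

theorem pvqe_geo_eqns_cite : True := by
  have := @pvqeBlk.eq_1.{0}
  have := @pvqeGeo.eq_1.{0}
  trivial

/-- two points of one black clipped cell are joined in the black set -/
theorem pvqe_joined_cell (H : PvqeH C e φ ℓ) {σ : ι → Bool} {i : ι} (hi : σ i = true) {a b : ℂ} (ha : a ∈ C i ∩ e.K) (hb : b ∈ C i ∩ e.K) :
    JoinedIn (pvqeBlk C σ ∩ e.K) a b := by
  have hc : Convex ℝ (C i ∩ e.K) := (H.cv i).inter H.cK
  exact ((hc.isPathConnected ⟨a, ha⟩).joinedIn a ha b hb).mono fun z hz => ⟨⟨i, hi, hz.1⟩, hz.2⟩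

/-- a black chain gives a path in the black set -/
theorem pvqe_joined_chain (H : PvqeH C e φ ℓ) {σ : ι → Bool} {i j : ι} (hi : σ i = true) (h : ReflTransGen ((pvqeGeo H).Stp σ) i j)
    {a b : ℂ} (ha : a ∈ C i ∩ e.K) (hb : b ∈ C j ∩ e.K) : JoinedIn (pvqeBlk C σ ∩ e.K) a b := by
  induction h generalizing b with
  | refl => exact pvqe_joined_cell H hi ha hb
  | @tail j k _ h2 ih =>
    obtain ⟨⟨m, ⟨hmj, hmk⟩, hmK⟩, hk⟩ := h2
    exact (ih ⟨hmj, hmK⟩).trans (pvqe_joined_cell H hk ⟨hmk, hmK⟩ hb)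

/-- **the pattern holds in the black union iff the abstract crossing event holds** -/
theorem pvqe_holds_iff [Finite ι] (H : PvqeH C e φ ℓ) (σ : ι → Bool) : e.Holds (pvqeBlk C σ) ↔ (pvqeGeo H).Cross σ := by
  constructor
  · rintro ⟨x, hxS, y, hyT, hj⟩
    obtain ⟨γ, hγ⟩ : ∃ γ : Path x y, γ = hj.somePath := ⟨_, rfl⟩
    have hmem : ∀ t, γ t ∈ pvqeBlk C σ ∩ e.K := by rw [hγ]; exact hj.somePath_mem
    obtain ⟨⟨a, ha, hxa⟩, hxK⟩ : x ∈ pvqeBlk C σ ∩ e.K := hj.source_mem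
    obtain ⟨R, hR⟩ : ∃ R : Set ι, R = {i | ReflTransGen ((pvqeGeo H).Stp σ) a i} := ⟨_, rfl⟩
    obtain ⟨R', hR'⟩ : ∃ R' : Set ι, R' = {i | σ i = true ∧ i ∉ R} := ⟨_, rfl⟩
    obtain ⟨U, hUd⟩ : ∃ U : Set unitInterval, U = ⋃ i ∈ R, γ ⁻¹' (C i) := ⟨_, rfl⟩
    obtain ⟨V, hVd⟩ : ∃ V : Set unitInterval, V = ⋃ i ∈ R', γ ⁻¹' (C i) := ⟨_, rfl⟩
    have hU : IsClosed U := by
      rw [hUd]
      exact (Set.toFinite R).isClosed_biUnion fun i _ => (H.cl i).preimage γ.continuous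
    have hV : IsClosed V := by
      rw [hVd]
      exact (Set.toFinite R').isClosed_biUnion fun i _ => (H.cl i).preimage γ.continuous
    have hUV : (Set.univ : Set unitInterval) ⊆ U ∪ V := by
      intro t _
      obtain ⟨⟨i, hi, hti⟩, _⟩ := hmem t
      by_cases hiR : i ∈ R
      · left
        rw [hUd]
        exact Set.mem_biUnion hiR hti
      · right
        rw [hVd]
        exact Set.mem_biUnion (show i ∈ R' by rw [hR']; exact ⟨hi, hiR⟩) hti
    have hdis : ¬ (Set.univ ∩ (U ∩ V)).Nonempty := by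
      rintro ⟨t, -, htU, htV⟩
      rw [hUd] at htU
      rw [hVd] at htV
      obtain ⟨i, hiR, hti⟩ := Set.mem_iUnion₂.1 htU
      obtain ⟨j, hjR, htj⟩ := Set.mem_iUnion₂.1 htV
      rw [hR'] at hjR
      obtain ⟨hj1, hj2⟩ := hjR
      rw [hR] at hiR hj2
      exact hj2 (ReflTransGen.tail hiR ⟨⟨γ t, ⟨hti, htj⟩, (hmem t).2⟩, hj1⟩)
    have h0 : (0 : unitInterval) ∈ U := by
      rw [hUd]
      refine Set.mem_biUnion (show a ∈ R by rw [hR]; exact ReflTransGen.refl) ?_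
      show γ 0 ∈ C a
      rw [γ.source]
      exact hxa
    have h1 : (1 : unitInterval) ∈ U := by
      by_contra h1
      have h1V : (1 : unitInterval) ∈ V := (hUV (Set.mem_univ 1)).resolve_left h1
      exact hdis (isPreconnected_closed_iff.1 isPreconnected_univ U V hU hV hUV ⟨0, trivial, h0⟩ ⟨1, trivial, h1V⟩)
    rw [hUd] at h1
    obtain ⟨b, hbR, hb⟩ := Set.mem_iUnion₂.1 h1
    have hyb : y ∈ C b := by
      have : γ 1 ∈ C b := hb
      rwa [γ.target] at this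
    rw [hR] at hbR
    exact ⟨a, b, ⟨x, ⟨hxa, hxK⟩, hxS⟩, ⟨y, ⟨hyb, hj.target_mem.2⟩, hyT⟩, ha, hbR⟩
  · rintro ⟨a, b, ⟨x, hx, hxS⟩, ⟨y, hy, hyT⟩, ha, hch⟩
    exact ⟨x, hxS, y, hyT, pvqe_joined_chain H ha hch hx hy⟩

/-- **a revealed cell** is a seed, or touches inside `K` the black component of a point of the level set, at a point of a black cell which is a seed or is not terminal -/
theorem pvqe_J_joined (H : PvqeH C e φ ℓ) {σ : ι → Bool} {x : ι} (hx : x ∈ (pvqeGeo H).J σ) :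
    (∃ z ∈ C x ∩ e.K, φ z = ℓ) ∨
    ∃ y q z, σ y = true ∧ q ∈ C x ∩ C y ∩ e.K ∧ z ∈ e.K ∧ φ z = ℓ ∧ JoinedIn (pvqeBlk C σ ∩ e.K) z q ∧
      ((∃ w ∈ C y ∩ e.K, φ w = ℓ) ∨ (q ∉ e.S ∧ q ∉ e.T)) := by
  rcases hx with hx | ⟨s, y, hs, hb, hch, ⟨q, ⟨hqy, hqx⟩, hqK⟩⟩
  · exact Or.inl hx
  · right
    obtain ⟨z, hz, hzl⟩ := hs
    refine ⟨y, q, z, pvqe_black_of_rg _ hb hch, ⟨⟨hqx, hqy⟩, hqK⟩, hz.2, hzl,
      pvqe_joined_chain H hb (pvqe_rg_stp _ hch) hz ⟨hqy, hqK⟩, ?_⟩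
    rcases ReflTransGen.cases_tail hch with rfl | ⟨c, _, hcy⟩
    · exact Or.inl ⟨z, hz, hzl⟩
    · right
      have hT := hcy.2.2
      exact ⟨fun h => hT (Or.inl ⟨q, ⟨hqy, hqK⟩, h⟩), fun h => hT (Or.inr ⟨q, ⟨hqy, hqK⟩, h⟩)⟩

end geo

/-! ## 3. Boxes, arms, LOC -/

/-- the sup norm -/
def pvqeSup (z : ℂ) : ℝ := max |z.re| |z.im|

/-- the closed annulus `t ≤ |z - c|_∞ ≤ r` -/
def pvqeAnn (c : ℂ) (t r : ℝ) : Set ℂ := {z | t ≤ pvqeSup (z - c) ∧ pvqeSup (z - c) ≤ r}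

theorem pvqe_box_eqns_cite : True := by
  have := @pvqeSup.eq_1
  have := @pvqeAnn.eq_1
  trivial

theorem pvqe_sup_nonneg (z : ℂ) : 0 ≤ pvqeSup z := le_max_of_le_left (abs_nonneg _)

theorem pvqe_sup_le_norm (z : ℂ) : pvqeSup z ≤ ‖z‖ := max_le (Complex.abs_re_le_norm z) (Complex.abs_im_le_norm z)

theorem pvqe_sup_add (z w : ℂ) : pvqeSup (z + w) ≤ pvqeSup z + pvqeSup w := by
  unfold pvqeSup
  rw [Complex.add_re, Complex.add_im]
  refine max_le ?_ ?_
  · exact (abs_add_le _ _).trans (add_le_add (le_max_left _ _) (le_max_left _ _))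
  · exact (abs_add_le _ _).trans (add_le_add (le_max_right _ _) (le_max_right _ _))

theorem pvqe_sup_neg (z : ℂ) : pvqeSup (-z) = pvqeSup z := by
  simp [pvqeSup]

/-- the sup norm is `1`-Lipschitz for itself -/
theorem pvqe_sup_lip (z w : ℂ) : |pvqeSup z - pvqeSup w| ≤ pvqeSup (z - w) := by
  have h1 := pvqe_sup_add (z - w) w
  have h2 := pvqe_sup_add (w - z) z
  rw [sub_add_cancel] at h1 h2
  have h3 : pvqeSup (w - z) = pvqeSup (z - w) := by rw [← pvqe_sup_neg (z - w), neg_sub]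
  rw [h3] at h2
  rw [abs_le]
  constructor <;> linarith

theorem pvqe_sup_continuous : Continuous pvqeSup := by
  unfold pvqeSup
  fun_prop

theorem pvqe_mem_rect {c z : ℂ} {r : ℝ} : z ∈ rswRect (c.re - r) (c.re + r) (c.im - r) (c.im + r) ↔ pvqeSup (z - c) ≤ r := by
  unfold pvqeSup
  rw [rsw_mem_rect, max_le_iff, abs_le, abs_le, Complex.sub_re, Complex.sub_im]
  constructor
  · rintro ⟨h1, h2, h3, h4⟩
    exact ⟨⟨by linarith, by linarith⟩, by linarith, by linarith⟩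
  · rintro ⟨⟨h1, h2⟩, h3, h4⟩
    exact ⟨by linarith, by linarith, by linarith, by linarith⟩

/-- the open box -/
theorem pvqe_mem_open {c z : ℂ} {r : ℝ} : (c.re - r < z.re ∧ z.re < c.re + r ∧ c.im - r < z.im ∧ z.im < c.im + r) ↔ pvqeSup (z - c) < r := by
  unfold pvqeSup
  rw [max_lt_iff, abs_lt, abs_lt, Complex.sub_re, Complex.sub_im]
  constructor
  · rintro ⟨h1, h2, h3, h4⟩
    exact ⟨⟨by linarith, by linarith⟩, by linarith, by linarith⟩
  · rintro ⟨⟨h1, h2⟩, h3, h4⟩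
    exact ⟨by linarith, by linarith, by linarith, by linarith⟩

/-- the target of the arm pattern -/
theorem pvqe_mem_armT {c z : ℂ} {t r : ℝ} : z ∈ (rswArm c.re c.im t r).T ↔ pvqeSup (z - c) = r := by
  show (z ∈ rswRect (c.re - r) (c.re + r) (c.im - r) (c.im + r) ∧ (z.re = c.re - r ∨ z.re = c.re + r ∨ z.im = c.im - r ∨ z.im = c.im + r)) ↔ _
  constructor
  · rintro ⟨h1, h2⟩
    refine le_antisymm (pvqe_mem_rect.1 h1) ?_
    by_contra hlt
    obtain ⟨a1, a2, a3, a4⟩ := pvqe_mem_open.2 (not_le.1 hlt)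
    rcases h2 with h | h | h | h <;> linarith
  · intro h
    have h1 : z ∈ rswRect (c.re - r) (c.re + r) (c.im - r) (c.im + r) := pvqe_mem_rect.2 h.le
    refine ⟨h1, ?_⟩
    obtain ⟨c1, c2, c3, c4⟩ := h1
    by_contra hcon
    simp only [not_or] at hcon
    have := (pvqe_mem_open (c := c) (z := z) (r := r)).1
      ⟨lt_of_le_of_ne c1 (Ne.symm hcon.1), lt_of_le_of_ne c2 hcon.2.1, lt_of_le_of_ne c3 (Ne.symm hcon.2.2.1), lt_of_le_of_ne c4 hcon.2.2.2⟩
    linarith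

/-- a connection from the inner box to a point outside the open outer box contains an arm -/
theorem pvqe_arm_of_joined {B : Set ℂ} {c q z : ℂ} {t r : ℝ} (h : JoinedIn B q z) (hq : pvqeSup (q - c) ≤ t) (htr : t ≤ r)
    (hz : r ≤ pvqeSup (z - c)) : (rswArm c.re c.im t r).Holds B := by
  obtain ⟨w, hw, hb⟩ := rsw_first_exit (x0 := c.re - r) (x1 := c.re + r) (y0 := c.im - r) (y1 := c.im + r) h
    (pvqe_mem_rect.2 (hq.trans htr)) (fun hcon => absurd (pvqe_mem_open.1 hcon) (not_lt.2 hz))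
  exact ⟨q, pvqe_mem_rect.2 hq, w, ⟨hw.target_mem.2, hb⟩, hw⟩

/-- only the closed annulus matters (last exit from the inner box) -/
theorem pvqe_arm_outer {B B' : Set ℂ} {c : ℂ} {t r : ℝ} (htr : t ≤ r) (hBB : B ∩ pvqeAnn c t r ⊆ B')
    (h : (rswArm c.re c.im t r).Holds B) : (rswArm c.re c.im t r).Holds B' := by
  obtain ⟨x, hx, y, hy, hj⟩ := h
  obtain ⟨γ, hγ⟩ := hj.symm
  have hx' : pvqeSup (x - c) ≤ t := pvqe_mem_rect.1 hx
  have hy' : pvqeSup (y - c) = r := pvqe_mem_armT.1 hy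
  have hcont : Continuous fun w : ℂ => pvqeSup (w - c) := pvqe_sup_continuous.comp (continuous_id.sub continuous_const)
  obtain ⟨τ, hτ, hlt⟩ := rsw_first_time γ (S := {w : ℂ | pvqeSup (w - c) ≤ t}) (isClosed_le hcont continuous_const) hx'
  have h1 : γ τ ∈ {w : ℂ | t ≤ pvqeSup (w - c)} := rsw_closed_limit γ (isClosed_le continuous_const hcont) (show t ≤ pvqeSup (y - c) by rw [hy']; exact htr) τ
    fun s hs => show t ≤ pvqeSup (γ s - c) from (not_le.1 (hlt s hs)).le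
  have hK : ∀ s, pvqeSup (γ s - c) ≤ r := fun s => pvqe_mem_rect.1 (hγ s).2
  have hj' : JoinedIn (B' ∩ (rswArm c.re c.im t r).K) y (γ τ) := rsw_joined_init γ τ fun s hs => by
    refine ⟨hBB ⟨(hγ s).1, ?_, hK s⟩, (hγ s).2⟩
    rcases hs.lt_or_eq with h2 | h2
    · exact (not_le.1 (hlt s h2)).le
    · rw [h2]; exact h1
  exact ⟨γ τ, pvqe_mem_rect.2 hτ, y, hy, hj'.symm⟩

/-- **LOC for arms**: if `Y` is `ρ`-dense on the closed annulus, the arm event is seen in `Y ∩ N` for every `N` containing the `ρ`-neighbourhood of the annulus -/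
theorem pvqe_arm_loc {Y A N : Set ℂ} {c : ℂ} {t r ρ : ℝ} (hA : A ⊆ Y) (htr : t ≤ r) (hd : VorDense Y (pvqeAnn c t r) ρ)
    (hN : vorNbd (pvqeAnn c t r) ρ ⊆ N) :
    (rswArm c.re c.im t r).Holds (vorUn Y A) ↔ (rswArm c.re c.im t r).Holds (vorUn (Y ∩ N) (A ∩ N)) := by
  have key : vorUn Y A ∩ pvqeAnn c t r = vorUn (Y ∩ N) (A ∩ N) ∩ pvqeAnn c t r := by
    refine vor_loc_un hd ?_ hA (inter_subset_inter_left _ hA) ?_
    · rw [inter_assoc, inter_eq_self_of_subset_right hN]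
    · rw [inter_assoc, inter_eq_self_of_subset_right hN]
  constructor
  · exact pvqe_arm_outer htr (key ▸ inter_subset_left)
  · exact pvqe_arm_outer htr (key.symm ▸ inter_subset_left)

/-- the neighbourhood of an annulus -/
theorem pvqe_nbd_ann {c : ℂ} {t r ρ : ℝ} : vorNbd (pvqeAnn c t r) ρ ⊆ pvqeAnn c (t - ρ) (r + ρ) := by
  rintro w ⟨z, ⟨h1, h2⟩, hw⟩
  have h3 := pvqe_sup_lip (w - c) (z - c)
  rw [sub_sub_sub_cancel_right] at h3
  have h4 := (h3.trans (pvqe_sup_le_norm _)).trans hw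
  rw [abs_le] at h4
  exact ⟨by linarith [h4.1], by linarith [h4.2]⟩

/-! ## 4. Voronoi cells: the final form of the revealment inclusion -/

section vor

variable {ι : Type u} (p : ι → ℂ)

/-- the cells of the points `p i` -/
def pvqeCell (i : ι) : Set ℂ := vorCell (range p) (p i)

/-- the black sites -/
def pvqeA (σ : ι → Bool) : Set ℂ := p '' {i | σ i = true}

theorem pvqe_vor_eqns_cite : True := by
  have := @pvqeCell.eq_1.{0}
  have := @pvqeA.eq_1.{0}
  trivial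

theorem pvqe_A_subset (σ : ι → Bool) : pvqeA p σ ⊆ range p := image_subset_range _ _

theorem pvqe_blk_vor (σ : ι → Bool) : pvqeBlk (pvqeCell p) σ = vorUn (range p) (pvqeA p σ) := by
  ext z
  constructor
  · rintro ⟨i, hi, hz⟩
    exact ⟨p i, ⟨i, hi, rfl⟩, hz⟩
  · rintro ⟨_, ⟨i, hi, rfl⟩, hz⟩
    exact ⟨i, hi, hz⟩

/-- the arm pattern with the sup norm height -/
theorem pvqeH_arm (c0 : ℂ) {R1 R2 ℓ : ℝ} (h1 : R1 < ℓ) (h2 : ℓ < R2) :
    PvqeH (pvqeCell p) (rswArm c0.re c0.im R1 R2) (fun z => pvqeSup (z - c0)) ℓ := by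
  refine ⟨fun _ => vor_isClosed_cell _ _, fun _ => vor_convex_cell _ _, rsw_rect_convex _ _ _ _,
    pvqe_sup_continuous.comp (continuous_id.sub continuous_const), fun z hz => lt_of_le_of_lt (pvqe_mem_rect.1 hz) h1, fun z hz => ?_⟩
  show ℓ < pvqeSup (z - c0)
  rw [pvqe_mem_armT.1 hz]; exact h2

/-- the left-right pattern with the height `re` -/
theorem pvqeH_lr {x0 x1 y0 y1 ℓ : ℝ} (h1 : x0 < ℓ) (h2 : ℓ < x1) :
    PvqeH (pvqeCell p) (rswLR x0 x1 y0 y1) (fun z => z.re) ℓ := by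
  exact ⟨fun _ => vor_isClosed_cell _ _, fun _ => vor_convex_cell _ _, rsw_rect_convex _ _ _ _, Complex.continuous_re,
    fun z hz => lt_of_le_of_lt hz.2.1 h1, fun z hz => lt_of_lt_of_le h2 hz.1⟩

variable {p} {e : RswTri} {φ : ℂ → ℝ} {ℓ : ℝ}

/-- **the contact point of a revealed cell**.  `D` = the region where the sites are `ρ`-dense;  `K \ S ⊆ D`;  the `δ`-balls round the level set lie in `D`, `2 ρ < δ`. -/
theorem pvqe_reveal_pt (H : PvqeH (pvqeCell p) e φ ℓ) {D : Set ℂ} {ρ δ : ℝ} (hρ : 0 ≤ ρ) (hδ : 2 * ρ < δ) (hd : VorDense (range p) D ρ)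
    (hD1 : ∀ q ∈ e.K, q ∉ e.S → q ∈ D) (hD2 : ∀ w ∈ e.K, φ w = ℓ → Metric.closedBall w δ ⊆ D)
    {σ : ι → Bool} {x : ι} (hx : x ∈ (pvqeGeo H).J σ) :
    ∃ q ∈ pvqeCell p x ∩ e.K, q ∈ D ∧ ‖q - p x‖ ≤ ρ ∧
      (φ q = ℓ ∨ ∃ z, φ z = ℓ ∧ JoinedIn (vorUn (range p) (pvqeA p σ) ∩ e.K) z q) := by
  have hδ0 : 0 ≤ δ := by linarith
  rcases pvqe_J_joined H hx with ⟨z, hz, hzl⟩ | ⟨y, q, z, hy, hq, hzK, hzl, hj, hor⟩
  · have hzD : z ∈ D := hD2 z hz.2 hzl (Metric.mem_closedBall_self hδ0)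
    exact ⟨z, hz, hzD, vor_site_near hd hz.1 hzD, Or.inl hzl⟩
  · have hqD : q ∈ D := by
      rcases hor with ⟨w, hw, hwl⟩ | ⟨h1, _⟩
      · have hball := hD2 w hw.2 hwl
        have hwD : w ∈ D := hball (Metric.mem_closedBall_self hδ0)
        have h1 : ‖w - p y‖ ≤ ρ := vor_site_near hd hw.1 hwD
        have hsub : Metric.closedBall (p y) (δ - ρ) ⊆ D := by
          intro u hu
          apply hball
          rw [Metric.mem_closedBall, dist_eq_norm] at hu ⊢
          have : u - w = (u - p y) - (w - p y) := by ring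
          rw [this]
          exact (norm_sub_le _ _).trans (by linarith)
        have h2 := vor_cell_subset_ball (Y := range p) (v := p y) (R := δ - ρ) hρ (by linarith) (hd.mono subset_rfl hsub le_rfl) hq.1.2
        rw [Metric.mem_closedBall, dist_eq_norm] at h2
        apply hball
        rw [Metric.mem_closedBall, dist_eq_norm]
        have : q - w = (q - p y) - (w - p y) := by ring
        rw [this]
        exact (norm_sub_le _ _).trans (by linarith)
      · exact hD1 q hq.2 h1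
    refine ⟨q, ⟨hq.1.1, hq.2⟩, hqD, vor_site_near hd hq.1.1 hqD, Or.inr ⟨z, hzl, ?_⟩⟩
    rw [← pvqe_blk_vor]
    exact hj

/-- **REVEALMENT INCLUSION (final form)**: a revealed site `p x` in the box of radius `t - ρ` round `c`, the level set being at sup-distance `≥ r > t` of `c`:
the black arm from the box of radius `t` to the boundary of the box of radius `r` round `c` is present in the tessellation of `Y ∩ N`. -/
theorem pvqe_reveal (H : PvqeH (pvqeCell p) e φ ℓ) {D N : Set ℂ} {ρ δ : ℝ} (hρ : 0 ≤ ρ) (hδ : 2 * ρ < δ) (hd : VorDense (range p) D ρ)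
    (hD1 : ∀ q ∈ e.K, q ∉ e.S → q ∈ D) (hD2 : ∀ w ∈ e.K, φ w = ℓ → Metric.closedBall w δ ⊆ D)
    (hL : ∀ z w, |φ z - φ w| ≤ pvqeSup (z - w))
    {σ : ι → Bool} {x : ι} (hx : x ∈ (pvqeGeo H).J σ) {c : ℂ} {t r : ℝ} (hxc : pvqeSup (p x - c) + ρ ≤ t) (htr : t < r) (hr : r ≤ |φ c - ℓ|)
    (hAD : pvqeAnn c t r ⊆ D) (hN : vorNbd (pvqeAnn c t r) ρ ⊆ N) :
    (rswArm c.re c.im t r).Holds (vorUn (range p ∩ N) (pvqeA p σ ∩ N)) := by
  obtain ⟨q, hq, hqD, hqx, hor⟩ := pvqe_reveal_pt H hρ hδ hd hD1 hD2 hx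
  have hqc : pvqeSup (q - c) ≤ t := by
    have h1 := pvqe_sup_add (q - p x) (p x - c)
    have h2 : q - p x + (p x - c) = q - c := by ring
    rw [h2] at h1
    have h3 := (pvqe_sup_le_norm (q - p x)).trans hqx
    linarith
  refine (pvqe_arm_loc (pvqe_A_subset p σ) htr.le (hd.mono subset_rfl hAD le_rfl) hN).1 ?_
  rcases hor with h | ⟨z, hzl, hj⟩
  · exfalso
    have h1 := hL q c
    rw [h, abs_sub_comm] at h1
    linarith
  · have h1 := hL z c
    rw [hzl, abs_sub_comm] at h1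
    exact pvqe_arm_of_joined (hj.symm.mono inter_subset_left) hqc htr.le (hr.trans h1)

/-- location of the revealed sites -/
theorem pvqe_reveal_loc (H : PvqeH (pvqeCell p) e φ ℓ) {D : Set ℂ} {ρ δ : ℝ} (hρ : 0 ≤ ρ) (hδ : 2 * ρ < δ) (hd : VorDense (range p) D ρ)
    (hD1 : ∀ q ∈ e.K, q ∉ e.S → q ∈ D) (hD2 : ∀ w ∈ e.K, φ w = ℓ → Metric.closedBall w δ ⊆ D)
    {σ : ι → Bool} {x : ι} (hx : x ∈ (pvqeGeo H).J σ) : p x ∈ vorNbd (e.K ∩ D) ρ := by
  obtain ⟨q, hq, hqD, hqx, _⟩ := pvqe_reveal_pt H hρ hδ hd hD1 hD2 hx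
  exact ⟨q, ⟨hq.2, hqD⟩, by rw [norm_sub_rev]; exact hqx⟩

/-- the event itself, in Voronoi terms -/
theorem pvqe_holds_vor [Finite ι] (H : PvqeH (pvqeCell p) e φ ℓ) (σ : ι → Bool) :
    e.Holds (vorUn (range p) (pvqeA p σ)) ↔ (pvqeGeo H).Cross σ := by
  rw [← pvqe_blk_vor, pvqe_holds_iff H]

end vor

end Claimed.Agent.R289
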