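/- Row 289 (S0537), box QBX, file RbP (owner helper233): the PROBABILITY HALF of the revealment bound, model free. -/
import Mathlib
import Claimed.Agent.R289.Ppp

/-!
# Row 289, box QBX, file `RbP` : product Chebyshev, union over blocks, choice of the parameters

Everything here is PROVED (no hole).  Prefix `pvrb_`.

Setting: a probability space `(Ω, P)`, a finite type `B` of blocks, a finite type `ι` of scales (annuli round the block),
random variables `X j b : Ω → [0,1]` (`X j b` = quenched probability that the annulus `j` round the block `b` blocks the arm),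
numbers `mu j b ≥ c > 0` (annealed lower bound) and the PRODUCT CHEBYSHEV hypothesis
`(PC)  ∫ ∏_{j ∈ A} (X j b - mu j b)^2 ≤ ∏_{j ∈ A} v j b`, `0 ≤ v j b ≤ vmax`, for every `A : Finset ι`.

* `pvrb_prod_le`      : deterministic; `k` good scales give `∏ (1 - x j) ≤ (1 - a)^k`
* `pvrb_cheb`         : `P(∀ j ∈ A, t ≤ Z_j^2) t^#A ≤ ∫ ∏_{j ∈ A} Z_j^2`
* `pvrb_block`        : `P(∃ A, #A = k, all scales of A bad) ≤ 2^#ι (4 vmax / c^2)^k`
* `pvrb_max`          : `∫ rev ≤ (1 - c/2)^k' + #B 2^#ι (4 vmax / c^2)^k` when `rev ≤ 1`, `rev ω ≤ ∏_j (1 - X j b ω)` for some `b = b(ω)`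
* `pvrb_iSup`         : the same for `rev = ⨆ b, ∏ j, (1 - X j b ·)`
* `pvrb_rev`          : the same with additive errors `rev ω ≤ a + W ω + ∏_j (1 - X j b ω)`
* `pvrb_pc_of_indep`  : (PC) from independence in `j` and a variance bound
* `pvrb_iIndep_restr` : the restrictions of a Poisson process to pairwise disjoint sets are independent (any index type)
* `pvrb_pc_ppp`       : (PC) for functionals of the restrictions of a Poisson process to pairwise disjoint sets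
* `pvrbQ`, `pvrbQ_meas`, `pvrbQ_loc`, `pvrbQ_integral` : the average over a second independent layer `β`, the first layer `α` frozen
* `pvrb_cond_prod`    : conditional independence given the first layer
* `pvrb_layers`       : L6 + L7 of the thinning bootstrap assembled for two Poisson layers
* `pvrb_tail`, `pvrb_e0`, `pvrb_q_le` : the choice of `θ` and of the number of scales
* MOMENT FORM (sec. 8; only `p`-replica identities are consumed, no pointwise conditional independence):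
  `pvrb_pow_le`, `pvrb_prod_pow_le`, `pvrb_moment`, `pvrb_exists_p`, `pvrb_rho_le`, `pvrb_e0_moment`, `pvrb_ppp_prod_loc`, `PvrbLoc.prod`, `PvrbLoc.comp`
-/

set_option autoImplicit false
set_option linter.unusedSectionVars false

namespace Claimed.Agent.R289

open MeasureTheory ProbabilityTheory Set Filter Topology
open scoped ENNReal NNReal BigOperators

/-! ## 1. the deterministic step -/

/-- `k` scales with `a ≤ x j` give `∏ (1 - x j) ≤ (1 - a)^k` -/
theorem pvrb_prod_le {ι : Type*} [Fintype ι] (x : ι → ℝ) (h0 : ∀ j, 0 ≤ x j) (h1 : ∀ j, x j ≤ 1) {a : ℝ} (ha0 : 0 ≤ a) (ha1 : a ≤ 1)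
    {k : ℕ} {G : Finset ι} (hG : ∀ j ∈ G, a ≤ x j) (hk : k ≤ G.card) : ∏ j, (1 - x j) ≤ (1 - a) ^ k := by
  classical
  have e : ∏ j, (1 - x j) = (∏ j ∈ G, (1 - x j)) * ∏ j ∈ Gᶜ, (1 - x j) := (Finset.prod_mul_prod_compl G _).symm
  have hA : ∏ j ∈ G, (1 - x j) ≤ (1 - a) ^ G.card := by
    rw [← Finset.prod_const]
    exact Finset.prod_le_prod (fun j _ => by linarith [h1 j]) fun j hj => by linarith [hG j hj]
  have hB : ∏ j ∈ Gᶜ, (1 - x j) ≤ 1 := Finset.prod_le_one (fun j _ => by linarith [h1 j]) fun j _ => by linarith [h0 j]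
  have hB0 : 0 ≤ ∏ j ∈ Gᶜ, (1 - x j) := Finset.prod_nonneg fun j _ => by linarith [h1 j]
  have hA0 : 0 ≤ ∏ j ∈ G, (1 - x j) := Finset.prod_nonneg fun j _ => by linarith [h1 j]
  calc ∏ j, (1 - x j) = (∏ j ∈ G, (1 - x j)) * ∏ j ∈ Gᶜ, (1 - x j) := e
    _ ≤ (∏ j ∈ G, (1 - x j)) * 1 := mul_le_mul_of_nonneg_left hB hA0
    _ = ∏ j ∈ G, (1 - x j) := mul_one _
    _ ≤ (1 - a) ^ G.card := hA
    _ ≤ (1 - a) ^ k := pow_le_pow_of_le_one (by linarith) (by linarith) hk

/-- the dichotomy: either `k` bad scales or `k'` good ones, as soon as `k + k' ≤ #ι + 1` -/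
theorem pvrb_dich {ι : Type*} [Fintype ι] (bad : ι → Prop) {k k' : ℕ} (hkk : k + k' ≤ Fintype.card ι + 1) :
    (∃ A : Finset ι, A.card = k ∧ ∀ j ∈ A, bad j) ∨ ∃ G : Finset ι, k' ≤ G.card ∧ ∀ j ∈ G, ¬ bad j := by
  classical
  by_cases h : k ≤ (Finset.univ.filter bad).card
  · obtain ⟨A, hA, hc⟩ := Finset.exists_subset_card_eq h
    exact Or.inl ⟨A, hc, fun j hj => (Finset.mem_filter.1 (hA hj)).2⟩
  · refine Or.inr ⟨Finset.univ.filter fun j => ¬ bad j, ?_, fun j hj => (Finset.mem_filter.1 hj).2⟩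
    have := Finset.card_filter_add_card_filter_not (s := (Finset.univ : Finset ι)) bad
    rw [Finset.card_univ] at this
    omega

/-! ## 2. product Chebyshev -/

section prob

variable {Ω : Type*} [MeasurableSpace Ω] {P : Measure Ω}

/-- product Chebyshev -/
theorem pvrb_cheb [IsFiniteMeasure P] {ι : Type*} (A : Finset ι) (Z : ι → Ω → ℝ) {t : ℝ} (ht : 0 ≤ t)
    (hint : Integrable (fun ω => ∏ j ∈ A, (Z j ω) ^ 2) P) :
    t ^ A.card * P.real {ω | ∀ j ∈ A, t ≤ (Z j ω) ^ 2} ≤ ∫ ω, ∏ j ∈ A, (Z j ω) ^ 2 ∂P := by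
  have h1 := mul_meas_ge_le_integral_of_nonneg (μ := P) (f := fun ω => ∏ j ∈ A, (Z j ω) ^ 2)
    (Eventually.of_forall fun ω => Finset.prod_nonneg fun j _ => sq_nonneg _) hint (t ^ A.card)
  refine le_trans (mul_le_mul_of_nonneg_left (measureReal_mono ?_) (pow_nonneg ht _)) h1
  intro ω hω
  simp only [mem_ofPred_eq] at hω ⊢
  rw [← Finset.prod_const]
  exact Finset.prod_le_prod (fun _ _ => ht) hω

/-! ## 3. one block, then the maximum over the blocks -/

/-- the bad event of one block: `k` scales at which `X j < c/2` -/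
def pvrbBad {ι : Type*} (X : ι → Ω → ℝ) (c : ℝ) (k : ℕ) : Set Ω := {ω | ∃ A : Finset ι, A.card = k ∧ ∀ j ∈ A, X j ω < c / 2}

theorem pvrb_bad_meas {ι : Type*} [Fintype ι] {X : ι → Ω → ℝ} (hX : ∀ j, Measurable (X j)) (c : ℝ) (k : ℕ) :
    MeasurableSet (pvrbBad X c k) := by
  classical
  have : pvrbBad X c k = ⋃ A ∈ (Finset.univ : Finset (Finset ι)).filter (fun A => A.card = k), ⋂ j ∈ A, {ω | X j ω < c / 2} := by
    ext ω
    simp only [pvrbBad, mem_ofPred_eq, mem_iUnion, Finset.mem_filter, Finset.mem_univ, true_and, mem_iInter, exists_prop]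
  rw [this]
  refine Finset.measurableSet_biUnion _ fun A _ => Finset.measurableSet_biInter _ fun j _ => ?_
  exact measurableSet_lt (hX j) measurable_const

/-- **one block**: the probability of `k` bad scales -/
theorem pvrb_block [IsProbabilityMeasure P] {ι : Type*} [Fintype ι] (X : ι → Ω → ℝ) (mu v : ι → ℝ) {c vmax : ℝ} (hc : 0 < c)
    (hmu : ∀ j, c ≤ mu j) (hv0 : ∀ j, 0 ≤ v j) (hv : ∀ j, v j ≤ vmax) (hvm : 0 ≤ vmax)
    (hint : ∀ A : Finset ι, Integrable (fun ω => ∏ j ∈ A, (X j ω - mu j) ^ 2) P)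
    (hPC : ∀ A : Finset ι, ∫ ω, ∏ j ∈ A, (X j ω - mu j) ^ 2 ∂P ≤ ∏ j ∈ A, v j) (k : ℕ) :
    P.real (pvrbBad X c k) ≤ 2 ^ Fintype.card ι * (4 * vmax / c ^ 2) ^ k := by
  classical
  have hq : ∀ A : Finset ι, A.card = k → P.real {ω | ∀ j ∈ A, X j ω < c / 2} ≤ (4 * vmax / c ^ 2) ^ k := by
    intro A hA
    have h1 := pvrb_cheb (P := P) A (fun j ω => X j ω - mu j) (t := c ^ 2 / 4) (by positivity) (hint A)
    have h2 : P.real {ω | ∀ j ∈ A, X j ω < c / 2} ≤ P.real {ω | ∀ j ∈ A, c ^ 2 / 4 ≤ (X j ω - mu j) ^ 2} := by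
      refine measureReal_mono ?_
      intro ω hω j hj
      have h3 := hω j hj
      have h4 := hmu j
      nlinarith
    have h5 : ∏ j ∈ A, v j ≤ vmax ^ k := by
      rw [← hA, ← Finset.prod_const]
      exact Finset.prod_le_prod (fun j _ => hv0 j) fun j _ => hv j
    have h6 : (c ^ 2 / 4) ^ k * P.real {ω | ∀ j ∈ A, X j ω < c / 2} ≤ vmax ^ k := by
      rw [hA] at h1
      exact le_trans (mul_le_mul_of_nonneg_left h2 (by positivity)) (le_trans h1 (le_trans (hPC A) h5))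
    have h7 : (4 * vmax / c ^ 2) ^ k = vmax ^ k / (c ^ 2 / 4) ^ k := by
      rw [← div_pow]; congr 1; field_simp
    rw [h7, le_div_iff₀ (by positivity), mul_comm]
    exact h6
  have hsub : pvrbBad X c k ⊆ ⋃ A ∈ Finset.powersetCard k (Finset.univ : Finset ι), {ω | ∀ j ∈ A, X j ω < c / 2} := by
    rintro ω ⟨A, hA, h⟩
    simp only [mem_iUnion, Finset.mem_powersetCard, exists_prop]
    exact ⟨A, ⟨Finset.subset_univ _, hA⟩, h⟩
  have hq0 : 0 ≤ (4 * vmax / c ^ 2) ^ k := by positivity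
  calc P.real (pvrbBad X c k) ≤ P.real (⋃ A ∈ Finset.powersetCard k (Finset.univ : Finset ι), {ω | ∀ j ∈ A, X j ω < c / 2}) :=
        measureReal_mono hsub (measure_ne_top _ _)
    _ ≤ ∑ A ∈ Finset.powersetCard k (Finset.univ : Finset ι), P.real {ω | ∀ j ∈ A, X j ω < c / 2} :=
        measureReal_biUnion_finset_le _ _
    _ ≤ ∑ _A ∈ Finset.powersetCard k (Finset.univ : Finset ι), (4 * vmax / c ^ 2) ^ k :=
        Finset.sum_le_sum fun A hA => hq A (Finset.mem_powersetCard.1 hA).2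
    _ = ((Fintype.card ι).choose k : ℝ) * (4 * vmax / c ^ 2) ^ k := by
        rw [Finset.sum_const, Finset.card_powersetCard, Finset.card_univ, nsmul_eq_mul]
    _ ≤ 2 ^ Fintype.card ι * (4 * vmax / c ^ 2) ^ k := by
        refine mul_le_mul_of_nonneg_right ?_ hq0
        exact_mod_cast Nat.choose_le_two_pow _ _

/-- **the maximum over the blocks**, abstract form: `rev ≤ 1` and `rev ω ≤ ∏_j (1 - X j b ω)` for some block `b = b(ω)` -/
theorem pvrb_max [IsProbabilityMeasure P] {ι B : Type*} [Fintype ι] [Fintype B] (X : ι → B → Ω → ℝ) (mu v : ι → B → ℝ) {c vmax : ℝ}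
    (hc : 0 < c) (hc2 : c ≤ 2) (hXm : ∀ j b, Measurable (X j b)) (hX0 : ∀ j b ω, 0 ≤ X j b ω) (hX1 : ∀ j b ω, X j b ω ≤ 1)
    (hmu : ∀ j b, c ≤ mu j b) (hv0 : ∀ j b, 0 ≤ v j b) (hv : ∀ j b, v j b ≤ vmax) (hvm : 0 ≤ vmax)
    (hint : ∀ b (A : Finset ι), Integrable (fun ω => ∏ j ∈ A, (X j b ω - mu j b) ^ 2) P)
    (hPC : ∀ b (A : Finset ι), ∫ ω, ∏ j ∈ A, (X j b ω - mu j b) ^ 2 ∂P ≤ ∏ j ∈ A, v j b)
    {k k' : ℕ} (hkk : k + k' ≤ Fintype.card ι + 1)
    (rev : Ω → ℝ) (hrev : Integrable rev P) (hrev1 : ∀ ω, rev ω ≤ 1) (hle : ∀ ω, ∃ b, rev ω ≤ ∏ j, (1 - X j b ω)) :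
    ∫ ω, rev ω ∂P ≤ (1 - c / 2) ^ k' + Fintype.card B * (2 ^ Fintype.card ι * (4 * vmax / c ^ 2) ^ k) := by
  classical
  set E : Set Ω := ⋃ b, pvrbBad (fun j => X j b) c k with hE
  have hEm : MeasurableSet E := MeasurableSet.iUnion fun b => pvrb_bad_meas (fun j => hXm j b) c k
  have hPE : P.real E ≤ Fintype.card B * (2 ^ Fintype.card ι * (4 * vmax / c ^ 2) ^ k) := by
    calc P.real E ≤ ∑ b, P.real (pvrbBad (fun j => X j b) c k) := measureReal_iUnion_fintype_le _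
      _ ≤ ∑ _b : B, (2 ^ Fintype.card ι * (4 * vmax / c ^ 2) ^ k) :=
          Finset.sum_le_sum fun b _ => pvrb_block (fun j => X j b) (fun j => mu j b) (fun j => v j b) hc (fun j => hmu j b)
            (fun j => hv0 j b) (fun j => hv j b) hvm (hint b) (hPC b) k
      _ = Fintype.card B * (2 ^ Fintype.card ι * (4 * vmax / c ^ 2) ^ k) := by
          rw [Finset.sum_const, Finset.card_univ, nsmul_eq_mul]
  have hp0 : 0 ≤ (1 - c / 2) ^ k' := pow_nonneg (by linarith) _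
  have hpt : ∀ ω, rev ω ≤ (1 - c / 2) ^ k' + E.indicator (fun _ => (1 : ℝ)) ω := by
    intro ω
    by_cases hω : ω ∈ E
    · rw [indicator_of_mem hω]; linarith [hrev1 ω]
    · rw [indicator_of_notMem hω, add_zero]
      obtain ⟨b, hb⟩ := hle ω
      refine le_trans hb ?_
      rcases pvrb_dich (fun j => X j b ω < c / 2) hkk with ⟨A, hA, h⟩ | ⟨G, hG, h⟩
      · exact absurd (mem_iUnion.2 ⟨b, (⟨A, hA, h⟩ : ω ∈ pvrbBad (fun j => X j b) c k)⟩) hω
      · exact pvrb_prod_le (fun j => X j b ω) (fun j => hX0 j b ω) (fun j => hX1 j b ω) (by linarith) (by linarith)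
          (fun j hj => not_lt.1 (h j hj)) hG
  calc ∫ ω, rev ω ∂P ≤ ∫ ω, ((1 - c / 2) ^ k' + E.indicator (fun _ => (1 : ℝ)) ω) ∂P :=
        integral_mono hrev ((integrable_const _).add ((integrable_const _).indicator hEm)) hpt
    _ = (1 - c / 2) ^ k' + P.real E := by
        rw [integral_add (integrable_const _) ((integrable_const _).indicator hEm), integral_indicator hEm]
        simp
    _ ≤ _ := by linarith


/-- boundedness of the products: integrability is automatic for `X j ∈ [0,1]`, `mu j ∈ [0,1]` -/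
theorem pvrb_integrable [IsFiniteMeasure P] {ι : Type*} (X : ι → Ω → ℝ) (mu : ι → ℝ) (hXm : ∀ j, Measurable (X j))
    (hX0 : ∀ j ω, 0 ≤ X j ω) (hX1 : ∀ j ω, X j ω ≤ 1) (hm0 : ∀ j, 0 ≤ mu j) (hm1 : ∀ j, mu j ≤ 1) (A : Finset ι) :
    Integrable (fun ω => ∏ j ∈ A, (X j ω - mu j) ^ 2) P := by
  refine Integrable.of_bound (C := 1) ?_ (Eventually.of_forall fun ω => ?_)
  · exact (Finset.measurable_fun_prod A fun j _ => ((hXm j).sub_const _).pow_const 2).aestronglyMeasurable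
  · rw [Real.norm_of_nonneg (Finset.prod_nonneg fun j _ => sq_nonneg _)]
    refine Finset.prod_le_one (fun j _ => sq_nonneg _) fun j _ => ?_
    have h1 := hX0 j ω
    have h2 := hX1 j ω
    have h3 := hm0 j
    have h4 := hm1 j
    rw [sq_le_one_iff_abs_le_one, abs_le]
    constructor <;> linarith

/-- measurability of the maximum over the blocks -/
theorem pvrb_iSup_meas {ι B : Type*} [Fintype ι] [Finite B] (X : ι → B → Ω → ℝ) (hXm : ∀ j b, Measurable (X j b)) :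
    Measurable fun ω => ⨆ b, ∏ j, (1 - X j b ω) :=
  Measurable.iSup fun b => Finset.measurable_fun_prod _ fun j _ => measurable_const.sub (hXm j b)

theorem pvrb_iSup_nonneg {ι B : Type*} [Fintype ι] (X : ι → B → Ω → ℝ) (hX1 : ∀ j b ω, X j b ω ≤ 1) (ω : Ω) :
    0 ≤ ⨆ b, ∏ j, (1 - X j b ω) :=
  Real.iSup_nonneg fun b => Finset.prod_nonneg fun j _ => by linarith [hX1 j b ω]

theorem pvrb_iSup_le_one {ι B : Type*} [Fintype ι] (X : ι → B → Ω → ℝ) (hX0 : ∀ j b ω, 0 ≤ X j b ω) (hX1 : ∀ j b ω, X j b ω ≤ 1) (ω : Ω) :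
    ⨆ b, ∏ j, (1 - X j b ω) ≤ 1 :=
  Real.iSup_le (fun b => Finset.prod_le_one (fun j _ => by linarith [hX1 j b ω]) fun j _ => by linarith [hX0 j b ω]) zero_le_one

theorem pvrb_le_iSup {ι B : Type*} [Fintype ι] [Finite B] (X : ι → B → Ω → ℝ) (ω : Ω) (b : B) :
    ∏ j, (1 - X j b ω) ≤ ⨆ b, ∏ j, (1 - X j b ω) :=
  le_ciSup (f := fun b => ∏ j, (1 - X j b ω)) (Set.finite_range _).bddAbove b

theorem pvrb_iSup_integrable [IsFiniteMeasure P] {ι B : Type*} [Fintype ι] [Finite B] (X : ι → B → Ω → ℝ) (hXm : ∀ j b, Measurable (X j b))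
    (hX0 : ∀ j b ω, 0 ≤ X j b ω) (hX1 : ∀ j b ω, X j b ω ≤ 1) : Integrable (fun ω => ⨆ b, ∏ j, (1 - X j b ω)) P := by
  refine Integrable.of_bound (C := 1) (pvrb_iSup_meas X hXm).aestronglyMeasurable (Eventually.of_forall fun ω => ?_)
  rw [Real.norm_of_nonneg (pvrb_iSup_nonneg X hX1 ω)]
  exact pvrb_iSup_le_one X hX0 hX1 ω

/-- **the maximum over the blocks**, concrete form -/
theorem pvrb_iSup [IsProbabilityMeasure P] {ι B : Type*} [Fintype ι] [Fintype B] (X : ι → B → Ω → ℝ) (mu v : ι → B → ℝ) {c vmax : ℝ}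
    (hc : 0 < c) (hc2 : c ≤ 2) (hXm : ∀ j b, Measurable (X j b)) (hX0 : ∀ j b ω, 0 ≤ X j b ω) (hX1 : ∀ j b ω, X j b ω ≤ 1)
    (hmu : ∀ j b, c ≤ mu j b) (hv0 : ∀ j b, 0 ≤ v j b) (hv : ∀ j b, v j b ≤ vmax) (hvm : 0 ≤ vmax)
    (hint : ∀ b (A : Finset ι), Integrable (fun ω => ∏ j ∈ A, (X j b ω - mu j b) ^ 2) P)
    (hPC : ∀ b (A : Finset ι), ∫ ω, ∏ j ∈ A, (X j b ω - mu j b) ^ 2 ∂P ≤ ∏ j ∈ A, v j b)
    {k k' : ℕ} (hkk : k + k' ≤ Fintype.card ι + 1) :
    ∫ ω, ⨆ b, ∏ j, (1 - X j b ω) ∂P ≤ (1 - c / 2) ^ k' + Fintype.card B * (2 ^ Fintype.card ι * (4 * vmax / c ^ 2) ^ k) := by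
  rcases isEmpty_or_nonempty B with hB | hB
  · have h0 : ∀ ω, (⨆ b, ∏ j, (1 - X j b ω)) = 0 := fun ω => Real.iSup_of_isEmpty _
    simp only [h0, integral_zero]
    have : 0 ≤ (1 - c / 2) ^ k' := pow_nonneg (by linarith) _
    positivity
  · refine pvrb_max X mu v hc hc2 hXm hX0 hX1 hmu hv0 hv hvm hint hPC hkk _ (pvrb_iSup_integrable X hXm hX0 hX1)
      (pvrb_iSup_le_one X hX0 hX1) fun ω => ?_
    obtain ⟨b, hb⟩ := exists_eq_ciSup_of_finite (f := fun b => ∏ j, (1 - X j b ω))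
    exact ⟨b, hb.ge⟩

/-- **the revealment form**: additive errors `a` (the block is close to the random seed) and `W` (void events) -/
theorem pvrb_rev [IsProbabilityMeasure P] {ι B : Type*} [Fintype ι] [Fintype B] (X : ι → B → Ω → ℝ) (mu v : ι → B → ℝ) {c vmax : ℝ}
    (hc : 0 < c) (hc2 : c ≤ 2) (hXm : ∀ j b, Measurable (X j b)) (hX0 : ∀ j b ω, 0 ≤ X j b ω) (hX1 : ∀ j b ω, X j b ω ≤ 1)
    (hmu : ∀ j b, c ≤ mu j b) (hv0 : ∀ j b, 0 ≤ v j b) (hv : ∀ j b, v j b ≤ vmax) (hvm : 0 ≤ vmax)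
    (hint : ∀ b (A : Finset ι), Integrable (fun ω => ∏ j ∈ A, (X j b ω - mu j b) ^ 2) P)
    (hPC : ∀ b (A : Finset ι), ∫ ω, ∏ j ∈ A, (X j b ω - mu j b) ^ 2 ∂P ≤ ∏ j ∈ A, v j b)
    {k k' : ℕ} (hkk : k + k' ≤ Fintype.card ι + 1)
    (rev W : Ω → ℝ) (a : ℝ) (hrev : Integrable rev P) (hW : Integrable W P)
    (hle : ∀ ω, ∃ b, rev ω ≤ a + W ω + ∏ j, (1 - X j b ω)) :
    ∫ ω, rev ω ∂P ≤ a + ∫ ω, W ω ∂P + ((1 - c / 2) ^ k' + Fintype.card B * (2 ^ Fintype.card ι * (4 * vmax / c ^ 2) ^ k)) := by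
  have hS := pvrb_iSup_integrable (P := P) X hXm hX0 hX1
  have h1 : ∫ ω, rev ω ∂P ≤ ∫ ω, (a + W ω + ⨆ b, ∏ j, (1 - X j b ω)) ∂P := by
    refine integral_mono hrev (((integrable_const a).add hW).add hS) fun ω => ?_
    obtain ⟨b, hb⟩ := hle ω
    exact le_trans hb (by have := pvrb_le_iSup X ω b; linarith)
  have h2 : ∫ ω, (a + W ω + ⨆ b, ∏ j, (1 - X j b ω)) ∂P = a + ∫ ω, W ω ∂P + ∫ ω, ⨆ b, ∏ j, (1 - X j b ω) ∂P := by
    have hi : Integrable (fun ω => a + W ω) P := (integrable_const a).add hW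
    rw [integral_add hi hS, integral_add (integrable_const a) hW]
    simp
  have h3 := pvrb_iSup (P := P) X mu v hc hc2 hXm hX0 hX1 hmu hv0 hv hvm hint hPC hkk
  linarith

end prob

/-! ## 4. (PC) from independence -/

section indep
variable {Ω : Type*} [MeasurableSpace Ω] {P : Measure Ω}

/-- product formula on a sub-family of an independent family -/
theorem pvrb_integral_prod {ι : Type*} {𝓧 : ι → Type*} [∀ i, MeasurableSpace (𝓧 i)] {Y : ∀ i, Ω → 𝓧 i} (hind : iIndepFun Y P)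
    (hY : ∀ i, Measurable (Y i)) (f : ∀ i, 𝓧 i → ℝ) (hf : ∀ i, Measurable (f i)) (A : Finset ι) :
    ∫ ω, ∏ j ∈ A, f j (Y j ω) ∂P = ∏ j ∈ A, ∫ ω, f j (Y j ω) ∂P := by
  have h1 : iIndepFun (fun j : A => Y j) P := hind.precomp (g := fun j : A => (j : ι)) Subtype.val_injective
  have h2 := h1.integral_fun_prod_comp (f := fun j : A => f j) (fun j => (hY j).aemeasurable)
    (fun j => (hf j).aestronglyMeasurable)
  have e1 : ∀ ω, ∏ j ∈ A, f j (Y j ω) = ∏ j : A, f j (Y j ω) := fun ω => (Finset.prod_coe_sort A fun j => f j (Y j ω)).symm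
  have e2 : ∏ j ∈ A, ∫ ω, f j (Y j ω) ∂P = ∏ j : A, ∫ ω, f j (Y j ω) ∂P := (Finset.prod_coe_sort A fun j => ∫ ω, f j (Y j ω) ∂P).symm
  simp_rw [e1]
  rw [e2]
  exact h2

/-- **(PC) from independence** of the scales and a bound of the second moments round `mu j` -/
theorem pvrb_pc_of_indep {ι : Type*} {X : ι → Ω → ℝ} (hind : iIndepFun X P) (hX : ∀ j, Measurable (X j)) (mu v : ι → ℝ)
    (hvar : ∀ j, ∫ ω, (X j ω - mu j) ^ 2 ∂P ≤ v j) (A : Finset ι) :
    ∫ ω, ∏ j ∈ A, (X j ω - mu j) ^ 2 ∂P ≤ ∏ j ∈ A, v j := by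
  rw [pvrb_integral_prod hind hX (fun j x => (x - mu j) ^ 2) (fun j => (measurable_id.sub_const _).pow_const 2) A]
  exact Finset.prod_le_prod (fun j _ => integral_nonneg fun ω => sq_nonneg _) fun j _ => hvar j

end indep

/-! ## 5. Poisson processes: independence of the restrictions to pairwise disjoint sets -/

section ppp
variable {E : Type*} [MeasurableSpace E] {m : Measure E} {μ : Measure (Conf E)}

theorem pvrb_restr_preimage_void (U D : Set E) : Conf.restr U ⁻¹' Conf.void D = Conf.void (D ∩ U) := by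
  ext η; simp only [mem_preimage, Conf.mem_void, Conf.restr, mem_inter_iff, not_and, and_imp]
  exact ⟨fun h p hp hB hO => h p hp hO hB, fun h p hp hO hB => h p hp hB hO⟩

theorem pvrb_void_biUnion {ι : Type*} (s : Finset ι) (D : ι → Set E) : Conf.void (⋃ i ∈ s, D i) = ⋂ i ∈ s, Conf.void (D i) := by
  ext η
  simp only [Conf.mem_void, mem_iUnion, mem_iInter, not_exists, exists_prop, not_and]
  exact ⟨fun h i hi p hp => h p hp i hi, fun h p hp i hi => h i hi p hp⟩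

/-- **IND, many sets**: the restrictions of a Poisson process to pairwise disjoint measurable sets are independent -/
theorem pvrb_iIndep_restr {ι : Type*} (h : IsPpp m μ) {N : ι → Set E} (hN : ∀ j, MeasurableSet (N j))
    (hd : Pairwise (Function.onFun Disjoint N)) : iIndepFun (fun j => Conf.restr (N j)) μ := by
  have := h.prob
  have key : ∀ (U : Set E), MeasurableSpace.comap (Conf.restr U) (inferInstance : MeasurableSpace (Conf E))
      = MeasurableSpace.generateFrom {s | ∃ t ∈ Conf.voids E, Conf.restr U ⁻¹' t = s} := by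
    intro U
    have : (inferInstance : MeasurableSpace (Conf E)) = MeasurableSpace.generateFrom (Conf.voids E) := rfl
    rw [this, MeasurableSpace.comap_generateFrom]
    rfl
  rw [iIndepFun_iff_iIndep]
  refine iIndepSets.iIndep (fun j => (Conf.measurable_restr (hN j)).comap_le)
    (fun j => {s | ∃ t ∈ Conf.voids E, Conf.restr (N j) ⁻¹' t = s}) (fun j => Conf.isPiSystem_voids.comap _) (fun j => key (N j)) ?_
  rw [iIndepSets_iff]
  intro s f hf
  choose! t ht using hf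
  choose! D hD using fun i hi => (ht i hi).1
  have e : ∀ i ∈ s, f i = Conf.void (D i ∩ N i) := by
    intro i hi
    rw [← (ht i hi).2, (hD i hi).2, pvrb_restr_preimage_void]
  have e1 : ⋂ i ∈ s, f i = Conf.void (⋃ i ∈ s, (D i ∩ N i)) := by
    rw [pvrb_void_biUnion]
    exact iInter₂_congr e
  rw [e1, h.void _ (Finset.measurableSet_biUnion _ fun i hi => (hD i hi).1.inter (hN i)),
    measure_biUnion_finset (fun i _ j _ hij => (hd hij).mono inter_subset_right inter_subset_right)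
      (fun i hi => (hD i hi).1.inter (hN i)), expNeg_finset_sum]
  refine Finset.prod_congr rfl fun i hi => ?_
  rw [e i hi, h.void _ ((hD i hi).1.inter (hN i))]

/-- product formula for functionals of the restrictions to pairwise disjoint sets -/
theorem pvrb_ppp_prod {ι : Type*} (h : IsPpp m μ) {N : ι → Set E} (hN : ∀ j, MeasurableSet (N j))
    (hd : Pairwise (Function.onFun Disjoint N)) (F : ι → Conf E → ℝ) (hF : ∀ j, Measurable (F j)) (A : Finset ι) :
    ∫ η, ∏ j ∈ A, F j (Conf.restr (N j) η) ∂μ = ∏ j ∈ A, ∫ η, F j (Conf.restr (N j) η) ∂μ :=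
  pvrb_integral_prod (pvrb_iIndep_restr h hN hd) (fun j => Conf.measurable_restr (hN j)) F hF A

/-- **(PC) for a Poisson process**: `X j = F j (η ∩ N j)`, the `N j` pairwise disjoint -/
theorem pvrb_pc_ppp {ι : Type*} (h : IsPpp m μ) {N : ι → Set E} (hN : ∀ j, MeasurableSet (N j))
    (hd : Pairwise (Function.onFun Disjoint N)) (F : ι → Conf E → ℝ) (hF : ∀ j, Measurable (F j)) (mu v : ι → ℝ)
    (hvar : ∀ j, ∫ η, (F j (Conf.restr (N j) η) - mu j) ^ 2 ∂μ ≤ v j) (A : Finset ι) :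
    ∫ η, ∏ j ∈ A, (F j (Conf.restr (N j) η) - mu j) ^ 2 ∂μ ≤ ∏ j ∈ A, v j := by
  rw [pvrb_ppp_prod h hN hd (fun j η => (F j η - mu j) ^ 2) (fun j => ((hF j).sub_const _).pow_const 2) A]
  exact Finset.prod_le_prod (fun j _ => integral_nonneg fun ω => sq_nonneg _) fun j _ => hvar j

end ppp

/-! ## 6. two layers `α ∪ β` : quenched averages over the second layer, conditional independence, the assembled bound -/

section layers
variable {E : Type*} [MeasurableSpace E]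

theorem pvrb_restr_union (O : Set E) (a b : Conf E) : Conf.restr O (Conf.union a b) = Conf.union (Conf.restr O a) (Conf.restr O b) := by
  ext p; simp only [Conf.restr, Conf.union, mem_inter_iff, mem_union]; tauto

theorem pvrb_restr_idem (O : Set E) (a : Conf E) : Conf.restr O (Conf.restr O a) = Conf.restr O a := by
  ext p; simp only [Conf.restr, mem_inter_iff]; tauto

/-- `f` looks at the configuration only inside `N` -/
def PvrbLoc (N : Set E) (f : Conf E → ℝ) : Prop := ∀ η, f (Conf.restr N η) = f η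

/-- the average over the second layer `β`, the first layer `α` being frozen -/
noncomputable def pvrbQ (μb : Measure (Conf E)) (f : Conf E → ℝ) (α : Conf E) : ℝ := ∫ β, f (Conf.union α β) ∂μb

theorem pvrb_union_left_meas (α : Conf E) : Measurable fun β : Conf E => Conf.union α β :=
  Conf.measurable_union.comp (measurable_const.prodMk measurable_id)

theorem pvrbQ_meas (μb : Measure (Conf E)) [SFinite μb] {f : Conf E → ℝ} (hf : Measurable f) : Measurable (pvrbQ μb f) := by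
  have h : StronglyMeasurable (Function.uncurry fun α β : Conf E => f (Conf.union α β)) :=
    (hf.comp Conf.measurable_union).stronglyMeasurable
  exact h.integral_prod_right.measurable

theorem pvrb_loc_union {N : Set E} {f : Conf E → ℝ} (hl : PvrbLoc N f) (α β : Conf E) :
    f (Conf.union α β) = f (Conf.union (Conf.restr N α) (Conf.restr N β)) := by
  rw [← hl (Conf.union α β), pvrb_restr_union]

theorem pvrbQ_loc (μb : Measure (Conf E)) {N : Set E} {f : Conf E → ℝ} (hl : PvrbLoc N f) : PvrbLoc N (pvrbQ μb f) := by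
  intro α
  unfold pvrbQ
  refine integral_congr_ae (Eventually.of_forall fun β => ?_)
  simp only
  rw [pvrb_loc_union hl (Conf.restr N α) β, pvrb_restr_idem, ← pvrb_loc_union hl α β]

theorem pvrbQ_nonneg (μb : Measure (Conf E)) {f : Conf E → ℝ} (h0 : ∀ η, 0 ≤ f η) (α : Conf E) : 0 ≤ pvrbQ μb f α :=
  integral_nonneg fun _ => h0 _

theorem pvrbQ_le_one (μb : Measure (Conf E)) [IsProbabilityMeasure μb] {f : Conf E → ℝ} (h1 : ∀ η, f η ≤ 1) (α : Conf E) :
    pvrbQ μb f α ≤ 1 := by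
  unfold pvrbQ
  by_cases hi : Integrable (fun β => f (Conf.union α β)) μb
  · calc ∫ β, f (Conf.union α β) ∂μb ≤ ∫ _β, (1 : ℝ) ∂μb := integral_mono hi (integrable_const _) fun _ => h1 _
      _ = 1 := by simp
  · rw [integral_undef hi]; exact zero_le_one

/-- the total average: `∫ Q f dμa = ∫ f d(law of α ∪ β)` -/
theorem pvrbQ_integral {μa μb : Measure (Conf E)} [IsProbabilityMeasure μa] [IsProbabilityMeasure μb] {f : Conf E → ℝ} (hf : Measurable f)
    {C : ℝ} (hb : ∀ η, |f η| ≤ C) :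
    ∫ α, pvrbQ μb f α ∂μa = ∫ η, f η ∂((μa.prod μb).map fun x => Conf.union x.1 x.2) := by
  rw [integral_map Conf.measurable_union.aemeasurable hf.aestronglyMeasurable]
  have hi : Integrable (fun x : Conf E × Conf E => f (Conf.union x.1 x.2)) (μa.prod μb) :=
    Integrable.of_bound (hf.comp Conf.measurable_union).aestronglyMeasurable C (Eventually.of_forall fun x => hb _)
  rw [integral_prod _ hi]
  rfl

/-- **conditional independence given the first layer** -/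
theorem pvrb_cond_prod {mb : Measure E} {μb : Measure (Conf E)} {ι : Type*} (h : IsPpp mb μb) {N : ι → Set E} (hN : ∀ j, MeasurableSet (N j))
    (hd : Pairwise (Function.onFun Disjoint N)) (f : ι → Conf E → ℝ) (hf : ∀ j, Measurable (f j)) (hl : ∀ j, PvrbLoc (N j) (f j))
    (α : Conf E) (A : Finset ι) :
    ∫ β, ∏ j ∈ A, f j (Conf.union α β) ∂μb = ∏ j ∈ A, pvrbQ μb (f j) α := by
  have h1 := pvrb_ppp_prod h hN hd (fun j σ => f j (Conf.union (Conf.restr (N j) α) σ))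
    (fun j => (hf j).comp (pvrb_union_left_meas _)) A
  simp only [← pvrb_loc_union (hl _)] at h1
  exact h1

/-- **L6 + L7 assembled.**  `α ~ μa`, `β ~ μb` independent Poisson layers; for every block `b` the sets `N j b` are pairwise disjoint, `f j b ∈ [0,1]`
is local in `N j b`; `X j b (α) = ∫ f j b (α ∪ β) dβ` has mean `≥ c` and second moment round its "mean" `mu j b` at most `v j b ≤ vmax`.  Then
the expected maximum over the blocks of the conditional probability that NO scale blocks is small. -/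
theorem pvrb_layers {ma mb : Measure E} {μa μb : Measure (Conf E)} (ha : IsPpp ma μa) (hb : IsPpp mb μb)
    {ι B : Type*} [Fintype ι] [Fintype B] {N : ι → B → Set E} (hN : ∀ j b, MeasurableSet (N j b))
    (hd : ∀ b, Pairwise (Function.onFun Disjoint fun j => N j b))
    (f : ι → B → Conf E → ℝ) (hf : ∀ j b, Measurable (f j b)) (hl : ∀ j b, PvrbLoc (N j b) (f j b))
    (hf0 : ∀ j b η, 0 ≤ f j b η) (hf1 : ∀ j b η, f j b η ≤ 1)
    (mu v : ι → B → ℝ) {c vmax : ℝ} (hc : 0 < c) (hc2 : c ≤ 2) (hmu : ∀ j b, c ≤ mu j b) (hmu1 : ∀ j b, mu j b ≤ 1)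
    (hvar : ∀ j b, ∫ α, (pvrbQ μb (f j b) α - mu j b) ^ 2 ∂μa ≤ v j b) (hv : ∀ j b, v j b ≤ vmax) (hvm : 0 ≤ vmax)
    {k k' : ℕ} (hkk : k + k' ≤ Fintype.card ι + 1) :
    ∫ α, ⨆ b, ∫ β, ∏ j, (1 - f j b (Conf.union α β)) ∂μb ∂μa
      ≤ (1 - c / 2) ^ k' + Fintype.card B * (2 ^ Fintype.card ι * (4 * vmax / c ^ 2) ^ k) := by
  have := ha.prob
  have := hb.prob
  have e : ∀ α b, ∫ β, ∏ j, (1 - f j b (Conf.union α β)) ∂μb = ∏ j, (1 - pvrbQ μb (f j b) α) := by
    intro α b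
    rw [pvrb_cond_prod hb (fun j => hN j b) (hd b) (fun j η => 1 - f j b η) (fun j => measurable_const.sub (hf j b))
      (fun j η => by simp only [hl j b η]) α Finset.univ]
    refine Finset.prod_congr rfl fun j _ => ?_
    unfold pvrbQ
    have hi : Integrable (fun β => f j b (Conf.union α β)) μb :=
      Integrable.of_bound ((hf j b).comp (pvrb_union_left_meas α)).aestronglyMeasurable 1
        (Eventually.of_forall fun β => by rw [Real.norm_of_nonneg (hf0 j b _)]; exact hf1 j b _)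
    rw [integral_sub (integrable_const _) hi]
    simp
  simp_rw [e]
  refine pvrb_iSup (P := μa) (fun j b => pvrbQ μb (f j b)) mu v hc hc2 (fun j b => pvrbQ_meas μb (hf j b))
    (fun j b => pvrbQ_nonneg μb (hf0 j b)) (fun j b => pvrbQ_le_one μb (hf1 j b)) hmu
    (fun j b => le_trans (integral_nonneg fun _ => sq_nonneg _) (hvar j b)) hv hvm
    (fun b A => pvrb_integrable (fun j => pvrbQ μb (f j b)) (fun j => mu j b) (fun j => pvrbQ_meas μb (hf j b))
      (fun j => pvrbQ_nonneg μb (hf0 j b)) (fun j => pvrbQ_le_one μb (hf1 j b)) (fun j => le_trans hc.le (hmu j b)) (fun j => hmu1 j b) A)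
    (fun b A => ?_) hkk
  have h1 := pvrb_pc_ppp ha (fun j => hN j b) (hd b) (fun j => pvrbQ μb (f j b)) (fun j => pvrbQ_meas μb (hf j b))
    (fun j => mu j b) (fun j => v j b) (fun j => by simp only [pvrbQ_loc μb (hl j b) _]; exact hvar j b) A
  simp only [pvrbQ_loc μb (hl _ b) _] at h1
  exact h1

end layers

/-! ## 7. the choice of the parameters -/

/-- the two tails: for `q ≤ 1/(8 D)` both `(1 - c/2)^n` and `C D^n 4^n q^n` are small for `n` large -/
theorem pvrb_tail {c e C D : ℝ} (hc : 0 < c) (hc2 : c ≤ 2) (he : 0 < e) (hC : 0 ≤ C) (hD : 0 < D) :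
    ∃ n0 : ℕ, ∀ n ≥ n0, ∀ q : ℝ, 0 ≤ q → q ≤ 1 / (8 * D) → ∀ N : ℝ, N ≤ C * D ^ n →
      (1 - c / 2) ^ n + N * (2 ^ (2 * n) * q ^ n) ≤ e := by
  have h1 : Tendsto (fun n : ℕ => (1 - c / 2) ^ n) atTop (𝓝 0) :=
    tendsto_pow_atTop_nhds_zero_of_lt_one (by linarith) (by linarith)
  have h2 : Tendsto (fun n : ℕ => C * (1 / 2 : ℝ) ^ n) atTop (𝓝 0) := by
    simpa using (tendsto_pow_atTop_nhds_zero_of_lt_one (r := (1 / 2 : ℝ)) (by norm_num) (by norm_num)).const_mul C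
  have h3 := (h1.eventually (gt_mem_nhds (show (0 : ℝ) < e / 2 by positivity))).and
    (h2.eventually (gt_mem_nhds (show (0 : ℝ) < e / 2 by positivity)))
  obtain ⟨n0, hn0⟩ := eventually_atTop.1 h3
  refine ⟨n0, fun n hn q hq0 hq N hN => ?_⟩
  obtain ⟨a1, a2⟩ := hn0 n hn
  have b0 : 0 ≤ (2 : ℝ) ^ (2 * n) * q ^ n := by positivity
  have b1 : N * (2 ^ (2 * n) * q ^ n) ≤ C * D ^ n * (2 ^ (2 * n) * q ^ n) := mul_le_mul_of_nonneg_right hN b0
  have b2 : D ^ n * (2 ^ (2 * n) * q ^ n) = (4 * D * q) ^ n := by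
    rw [pow_mul, mul_pow, mul_pow]; norm_num; ring
  have b3 : (4 * D * q) ^ n ≤ (1 / 2 : ℝ) ^ n := by
    refine pow_le_pow_left₀ (by positivity) ?_ n
    have : 4 * D * q ≤ 4 * D * (1 / (8 * D)) := mul_le_mul_of_nonneg_left hq (by positivity)
    have e1 : 4 * D * (1 / (8 * D)) = 1 / 2 := by field_simp; norm_num
    linarith
  have b4 : C * D ^ n * (2 ^ (2 * n) * q ^ n) ≤ C * (1 / 2 : ℝ) ^ n := by
    rw [mul_assoc, b2]; exact mul_le_mul_of_nonneg_left b3 hC
  linarith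

/-- **the choice of `θ` and of the number `2 n` of scales.**  `C1 θ` = probability that the block is close to the random seed,
`N ≤ C2 θ⁻² D^n` = number of blocks (`D = 256` for scales in ratio `4`: `κ = θ 4^(-2n)`), `q = 4 vmax / c²`. -/
theorem pvrb_e0 {c e C1 C2 D θ0 : ℝ} (hc : 0 < c) (hc2 : c ≤ 2) (he : 0 < e) (hC1 : 0 ≤ C1) (hC2 : 0 ≤ C2) (hD : 0 < D) (hθ0 : 0 < θ0) :
    ∃ θ : ℝ, 0 < θ ∧ θ ≤ θ0 ∧ ∃ n0 : ℕ, ∀ n ≥ n0, ∀ q : ℝ, 0 ≤ q → q ≤ 1 / (8 * D) → ∀ N : ℝ, N ≤ C2 * θ⁻¹ ^ 2 * D ^ n →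
      C1 * θ + ((1 - c / 2) ^ n + N * (2 ^ (2 * n) * q ^ n)) ≤ e := by
  set θ : ℝ := min θ0 (e / (2 * (C1 + 1))) with hθ
  have hθpos : 0 < θ := lt_min hθ0 (by positivity)
  have h1 : C1 * θ ≤ e / 2 := by
    have : θ ≤ e / (2 * (C1 + 1)) := min_le_right _ _
    have h2 : C1 * θ ≤ C1 * (e / (2 * (C1 + 1))) := mul_le_mul_of_nonneg_left this hC1
    have h3 : C1 * (e / (2 * (C1 + 1))) ≤ e / 2 := by
      rw [mul_div_assoc', div_le_div_iff₀ (by positivity) (by norm_num)]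
      nlinarith
    linarith
  obtain ⟨n0, hn0⟩ := pvrb_tail (e := e / 2) (C := C2 * θ⁻¹ ^ 2) hc hc2 (by positivity) (by positivity) hD
  refine ⟨θ, hθpos, min_le_left _ _, n0, fun n hn q hq0 hq N hN => ?_⟩
  have := hn0 n hn q hq0 hq N hN
  linarith

/-- the threshold of the variance: `vmax ≤ c² / (32 D)` gives `q = 4 vmax / c² ≤ 1 / (8 D)` -/
theorem pvrb_q_le {c vmax D : ℝ} (hc : 0 < c) (hD : 0 < D) (hv : vmax ≤ c ^ 2 / (32 * D)) : 4 * vmax / c ^ 2 ≤ 1 / (8 * D) := by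
  rw [div_le_div_iff₀ (by positivity) (by positivity)]
  have : vmax * (32 * D) ≤ c ^ 2 := by rwa [le_div_iff₀ (by positivity)] at hv
  nlinarith

/-! ## 8. the MOMENT FORM (no pointwise conditional independence needed: only `p`-replica identities)

`Z b` = conditional probability (given the frozen layers) that no scale round the block `b` blocks the arm.  The consumer proves, by the `p`-replica
representation and the independence of the replica process on disjoint sets, `∫ (Z b)^p ≤ ∏_j ∫ (1 - X j b)^p`.  Then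
`∫ max_b Z b ≤ lam + #B lam^(-p) ((1 - c/2)^p + 4 vmax / c^2)^#ι`. -/

section moment
variable {Ω : Type*} [MeasurableSpace Ω] {P : Measure Ω}

/-- one scale: `∫ (1 - X)^p ≤ (1 - c/2)^p + 4 v / c^2` -/
theorem pvrb_pow_le [IsProbabilityMeasure P] (X : Ω → ℝ) (hXm : Measurable X) (hX0 : ∀ ω, 0 ≤ X ω) (hX1 : ∀ ω, X ω ≤ 1) {mu c v : ℝ}
    (hc : 0 < c) (hc2 : c ≤ 2) (hmu : c ≤ mu) (hvar : ∫ ω, (X ω - mu) ^ 2 ∂P ≤ v) (p : ℕ) :
    ∫ ω, (1 - X ω) ^ p ∂P ≤ (1 - c / 2) ^ p + 4 * v / c ^ 2 := by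
  have hb : ∀ ω, |X ω - mu| ≤ 1 + |mu| := fun ω => by
    have h1 : |X ω| ≤ 1 := abs_le.2 ⟨by linarith [hX0 ω], hX1 ω⟩
    calc |X ω - mu| ≤ |X ω| + |mu| := abs_sub _ _
      _ ≤ 1 + |mu| := by linarith
  have hi2 : Integrable (fun ω => (X ω - mu) ^ 2) P := by
    refine Integrable.of_bound ((hXm.sub_const _).pow_const 2).aestronglyMeasurable ((1 + |mu|) ^ 2) (Eventually.of_forall fun ω => ?_)
    rw [Real.norm_of_nonneg (sq_nonneg _), ← sq_abs]
    exact pow_le_pow_left₀ (abs_nonneg _) (hb ω) 2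
  have hi1 : Integrable (fun ω => (1 - X ω) ^ p) P := by
    refine Integrable.of_bound ((measurable_const.sub hXm).pow_const p).aestronglyMeasurable 1 (Eventually.of_forall fun ω => ?_)
    rw [Real.norm_of_nonneg (pow_nonneg (by linarith [hX1 ω]) _)]
    exact pow_le_one₀ (by linarith [hX1 ω]) (by linarith [hX0 ω])
  have hpt : ∀ ω, (1 - X ω) ^ p ≤ (1 - c / 2) ^ p + 4 / c ^ 2 * (X ω - mu) ^ 2 := by
    intro ω
    have hp0 : 0 ≤ (1 - c / 2) ^ p := pow_nonneg (by linarith) _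
    have hs0 : 0 ≤ 4 / c ^ 2 * (X ω - mu) ^ 2 := by positivity
    by_cases h : c / 2 ≤ X ω
    · have : (1 - X ω) ^ p ≤ (1 - c / 2) ^ p := pow_le_pow_left₀ (by linarith [hX1 ω]) (by linarith) p
      linarith
    · have h1 : (1 - X ω) ^ p ≤ 1 := pow_le_one₀ (by linarith [hX1 ω]) (by linarith [hX0 ω])
      have h2 : c ^ 2 / 4 ≤ (X ω - mu) ^ 2 := by
        have := not_le.1 h
        nlinarith
      have h3 : 1 ≤ 4 / c ^ 2 * (X ω - mu) ^ 2 := by
        rw [div_mul_eq_mul_div, le_div_iff₀ (by positivity)]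
        linarith
      linarith
  calc ∫ ω, (1 - X ω) ^ p ∂P ≤ ∫ ω, ((1 - c / 2) ^ p + 4 / c ^ 2 * (X ω - mu) ^ 2) ∂P :=
        integral_mono hi1 ((integrable_const _).add (hi2.const_mul _)) hpt
    _ = (1 - c / 2) ^ p + 4 / c ^ 2 * ∫ ω, (X ω - mu) ^ 2 ∂P := by
        rw [integral_add (integrable_const _) (hi2.const_mul _), integral_const_mul]
        simp
    _ ≤ (1 - c / 2) ^ p + 4 / c ^ 2 * v := by
        have : 4 / c ^ 2 * ∫ ω, (X ω - mu) ^ 2 ∂P ≤ 4 / c ^ 2 * v := mul_le_mul_of_nonneg_left hvar (by positivity)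
        linarith
    _ = (1 - c / 2) ^ p + 4 * v / c ^ 2 := by ring

/-- pointwise: `Z b ≤ lam + ∑_b (Z b)^p / lam^p` for `Z ∈ [0,1]` -/
theorem pvrb_moment_pt {B : Type*} [Fintype B] (z : B → ℝ) (h0 : ∀ b, 0 ≤ z b) (h1 : ∀ b, z b ≤ 1) {lam : ℝ} (hl : 0 < lam) (p : ℕ) (b : B) :
    z b ≤ lam + ∑ b, z b ^ p / lam ^ p := by
  have hs : z b ^ p / lam ^ p ≤ ∑ b, z b ^ p / lam ^ p :=
    Finset.single_le_sum (f := fun b => z b ^ p / lam ^ p) (fun b _ => div_nonneg (pow_nonneg (h0 b) _) (pow_nonneg hl.le _)) (Finset.mem_univ b)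
  by_cases h : z b ≤ lam
  · have : 0 ≤ z b ^ p / lam ^ p := div_nonneg (pow_nonneg (h0 b) _) (pow_nonneg hl.le _)
    linarith
  · have h2 : 1 ≤ z b ^ p / lam ^ p := by
      rw [le_div_iff₀ (pow_pos hl _), one_mul]
      exact pow_le_pow_left₀ hl.le (not_le.1 h).le p
    linarith [h1 b]

/-- **the revealment bound, moment form** -/
theorem pvrb_moment [IsProbabilityMeasure P] {B : Type*} [Fintype B] (Z : B → Ω → ℝ) (hZm : ∀ b, Measurable (Z b)) (hZ0 : ∀ b ω, 0 ≤ Z b ω)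
    (hZ1 : ∀ b ω, Z b ω ≤ 1) (p : ℕ) {M lam : ℝ} (hM : ∀ b, ∫ ω, Z b ω ^ p ∂P ≤ M) (hl : 0 < lam)
    (rev W : Ω → ℝ) (a : ℝ) (hrev : Integrable rev P) (hW : Integrable W P) (hle : ∀ ω, ∃ b, rev ω ≤ a + W ω + Z b ω) :
    ∫ ω, rev ω ∂P ≤ a + ∫ ω, W ω ∂P + (lam + Fintype.card B * (M / lam ^ p)) := by
  have hi : ∀ b, Integrable (fun ω => Z b ω ^ p / lam ^ p) P := by
    intro b
    refine Integrable.div_const (Integrable.of_bound ((hZm b).pow_const p).aestronglyMeasurable 1 (Eventually.of_forall fun ω => ?_)) _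
    rw [Real.norm_of_nonneg (pow_nonneg (hZ0 b ω) _)]
    exact pow_le_one₀ (hZ0 b ω) (hZ1 b ω)
  have hS : Integrable (fun ω => ∑ b, Z b ω ^ p / lam ^ p) P := integrable_finsetSum _ fun b _ => hi b
  have hiW : Integrable (fun ω => a + W ω) P := (integrable_const a).add hW
  have hiL : Integrable (fun ω => lam + ∑ b, Z b ω ^ p / lam ^ p) P := (integrable_const lam).add hS
  have h1 : ∫ ω, rev ω ∂P ≤ ∫ ω, ((a + W ω) + (lam + ∑ b, Z b ω ^ p / lam ^ p)) ∂P := by
    refine integral_mono hrev (hiW.add hiL) fun ω => ?_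
    obtain ⟨b, hb⟩ := hle ω
    have := pvrb_moment_pt (fun b => Z b ω) (fun b => hZ0 b ω) (fun b => hZ1 b ω) hl p b
    simp only at this ⊢
    linarith
  have h2 : ∫ ω, ((a + W ω) + (lam + ∑ b, Z b ω ^ p / lam ^ p)) ∂P
      = a + ∫ ω, W ω ∂P + (lam + ∑ b, (∫ ω, Z b ω ^ p ∂P) / lam ^ p) := by
    rw [integral_add hiW hiL, integral_add (integrable_const a) hW, integral_add (integrable_const lam) hS,
      integral_finsetSum _ fun b _ => hi b]
    simp [integral_div]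
  have h3 : ∑ b, (∫ ω, Z b ω ^ p ∂P) / lam ^ p ≤ Fintype.card B * (M / lam ^ p) := by
    calc ∑ b, (∫ ω, Z b ω ^ p ∂P) / lam ^ p ≤ ∑ _b : B, M / lam ^ p :=
          Finset.sum_le_sum fun b _ => div_le_div_of_nonneg_right (hM b) (pow_nonneg hl.le _)
      _ = Fintype.card B * (M / lam ^ p) := by rw [Finset.sum_const, Finset.card_univ, nsmul_eq_mul]
  linarith

/-- the product of the one-scale bounds -/
theorem pvrb_prod_pow_le [IsProbabilityMeasure P] {ι : Type*} [Fintype ι] (X : ι → Ω → ℝ) (hXm : ∀ j, Measurable (X j)) (hX0 : ∀ j ω, 0 ≤ X j ω)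
    (hX1 : ∀ j ω, X j ω ≤ 1) (mu : ι → ℝ) {c vmax : ℝ} (hc : 0 < c) (hc2 : c ≤ 2) (hmu : ∀ j, c ≤ mu j)
    (hvar : ∀ j, ∫ ω, (X j ω - mu j) ^ 2 ∂P ≤ vmax) (p : ℕ) :
    ∏ j, ∫ ω, (1 - X j ω) ^ p ∂P ≤ ((1 - c / 2) ^ p + 4 * vmax / c ^ 2) ^ Fintype.card ι := by
  rw [← Finset.card_univ, ← Finset.prod_const]
  exact Finset.prod_le_prod (fun j _ => integral_nonneg fun ω => pow_nonneg (by linarith [hX1 j ω]) _)
    fun j _ => pvrb_pow_le (X j) (hXm j) (hX0 j) (hX1 j) hc hc2 (hmu j) (hvar j) p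

end moment

/-- the exponent `p` : `(1 - c/2)^p ≤ 1/(4 D)` -/
theorem pvrb_exists_p {c D : ℝ} (hc : 0 < c) (hc2 : c ≤ 2) (hD : 0 < D) : ∃ p : ℕ, (1 - c / 2) ^ p ≤ 1 / (4 * D) := by
  have h1 : Tendsto (fun n : ℕ => (1 - c / 2) ^ n) atTop (𝓝 0) :=
    tendsto_pow_atTop_nhds_zero_of_lt_one (by linarith) (by linarith)
  obtain ⟨p, hp⟩ := (h1.eventually (gt_mem_nhds (show (0 : ℝ) < 1 / (4 * D) by positivity))).exists
  exact ⟨p, hp.le⟩

/-- `rho ≤ 1/(2 D)` as soon as `(1 - c/2)^p ≤ 1/(4 D)` and `vmax ≤ c^2/(16 D)` -/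
theorem pvrb_rho_le {c D vmax : ℝ} {p : ℕ} (hc : 0 < c) (hD : 0 < D) (hp : (1 - c / 2) ^ p ≤ 1 / (4 * D)) (hv : vmax ≤ c ^ 2 / (16 * D)) :
    (1 - c / 2) ^ p + 4 * vmax / c ^ 2 ≤ 1 / (2 * D) := by
  have h1 : 4 * vmax / c ^ 2 ≤ 1 / (4 * D) := by
    rw [div_le_div_iff₀ (by positivity) (by positivity)]
    have : vmax * (16 * D) ≤ c ^ 2 := by rwa [le_div_iff₀ (by positivity)] at hv
    nlinarith
  have h2 : 1 / (4 * D) + 1 / (4 * D) = 1 / (2 * D) := by field_simp; norm_num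
  linarith

/-- **the choice of the parameters, moment form**: `n` = number of scales, `N ≤ C2 θ⁻² D^n` = number of blocks (`D = 16` for scales in ratio `4`),
`rho ≤ 1/(2D)` the one-scale bound, `p` fixed. -/
theorem pvrb_e0_moment {e C1 C2 D θ0 : ℝ} (p : ℕ) (he : 0 < e) (hC1 : 0 ≤ C1) (hC2 : 0 ≤ C2) (hD : 0 < D) (hθ0 : 0 < θ0) :
    ∃ θ : ℝ, 0 < θ ∧ θ ≤ θ0 ∧ ∃ lam : ℝ, 0 < lam ∧ ∃ n0 : ℕ, ∀ n ≥ n0, ∀ rho : ℝ, 0 ≤ rho → rho ≤ 1 / (2 * D) → ∀ N : ℝ,
      N ≤ C2 * θ⁻¹ ^ 2 * D ^ n → C1 * θ + (lam + N * (rho ^ n / lam ^ p)) ≤ e := by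
  set θ : ℝ := min θ0 (e / (3 * (C1 + 1))) with hθ
  have hθpos : 0 < θ := lt_min hθ0 (by positivity)
  have h1 : C1 * θ ≤ e / 3 := by
    have : θ ≤ e / (3 * (C1 + 1)) := min_le_right _ _
    have h2 : C1 * θ ≤ C1 * (e / (3 * (C1 + 1))) := mul_le_mul_of_nonneg_left this hC1
    have h3 : C1 * (e / (3 * (C1 + 1))) ≤ e / 3 := by
      rw [mul_div_assoc', div_le_div_iff₀ (by positivity) (by norm_num)]
      nlinarith
    linarith
  set K : ℝ := C2 * θ⁻¹ ^ 2 / (e / 3) ^ p with hK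
  have hK0 : 0 ≤ K := by positivity
  have h2 : Tendsto (fun n : ℕ => K * (1 / 2 : ℝ) ^ n) atTop (𝓝 0) := by
    simpa using (tendsto_pow_atTop_nhds_zero_of_lt_one (r := (1 / 2 : ℝ)) (by norm_num) (by norm_num)).const_mul K
  obtain ⟨n0, hn0⟩ := eventually_atTop.1 (h2.eventually (gt_mem_nhds (show (0 : ℝ) < e / 3 by positivity)))
  refine ⟨θ, hθpos, min_le_left _ _, e / 3, by positivity, n0, fun n hn rho hr0 hr N hN => ?_⟩
  have a2 := hn0 n hn
  have b0 : 0 ≤ rho ^ n / (e / 3) ^ p := by positivity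
  have b1 : N * (rho ^ n / (e / 3) ^ p) ≤ C2 * θ⁻¹ ^ 2 * D ^ n * (rho ^ n / (e / 3) ^ p) := mul_le_mul_of_nonneg_right hN b0
  have b2 : C2 * θ⁻¹ ^ 2 * D ^ n * (rho ^ n / (e / 3) ^ p) = K * (D * rho) ^ n := by
    rw [hK, mul_pow]; ring
  have b3 : (D * rho) ^ n ≤ (1 / 2 : ℝ) ^ n := by
    refine pow_le_pow_left₀ (by positivity) ?_ n
    have : D * rho ≤ D * (1 / (2 * D)) := mul_le_mul_of_nonneg_left hr hD.le
    have e1 : D * (1 / (2 * D)) = 1 / 2 := by field_simp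
    linarith
  have b4 : K * (D * rho) ^ n ≤ K * (1 / 2 : ℝ) ^ n := mul_le_mul_of_nonneg_left b3 hK0
  linarith

/-- product formula for LOCAL functionals (no restriction written): the form consumed on the replica process -/
theorem pvrb_ppp_prod_loc {E : Type*} [MeasurableSpace E] {m : Measure E} {μ : Measure (Conf E)} {ι : Type*} (h : IsPpp m μ) {N : ι → Set E}
    (hN : ∀ j, MeasurableSet (N j)) (hd : Pairwise (Function.onFun Disjoint N)) (F : ι → Conf E → ℝ) (hF : ∀ j, Measurable (F j))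
    (hl : ∀ j, PvrbLoc (N j) (F j)) (A : Finset ι) : ∫ η, ∏ j ∈ A, F j η ∂μ = ∏ j ∈ A, ∫ η, F j η ∂μ := by
  have h1 := pvrb_ppp_prod h hN hd F hF A
  simp only [hl _ _] at h1
  exact h1

/-- a finite product of functionals local in `N` is local in `N` -/
theorem PvrbLoc.prod {E κ : Type*} {N : Set E} (s : Finset κ) {F : κ → Conf E → ℝ} (h : ∀ a ∈ s, PvrbLoc N (F a)) :
    PvrbLoc N fun η => ∏ a ∈ s, F a η := fun η => Finset.prod_congr rfl fun a ha => h a ha η

/-- locality through a map of configurations which commutes with the restrictions (e.g. the projection of the replica process on one replica) -/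
theorem PvrbLoc.comp {E E' : Type*} {N : Set E} {N' : Set E'} {f : Conf E → ℝ} (h : PvrbLoc N f) {r : Conf E' → Conf E}
    (hr : ∀ Ξ, Conf.restr N (r (Conf.restr N' Ξ)) = Conf.restr N (r Ξ)) : PvrbLoc N' fun Ξ => f (r Ξ) := fun Ξ => by
  show f (r (Conf.restr N' Ξ)) = f (r Ξ)
  rw [← h (r (Conf.restr N' Ξ)), hr, h]

end Claimed.Agent.R289
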