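/- Row 289 (S0537), box QBX, file RevP (owner helper233): the REPLICA IDENTITIES + the probability half of [REV], vocabulary of Qbx/Main. -/
import Claimed.Agent.R289.Qbx.Main
import Claimed.Agent.R289.Qbx.RbP
import Claimed.Agent.R289.PppPv

/-!
# Row 289, box QBX, file `RevP` : replica identities, probability half of `PvqmRev`

Everything here is PROVED (no hole); the only hypothesis is the contract `PvqmRepK` of `Qbx/Main`.  Prefix `pvqi_`.

* sec. 0 : `pvqi_J_ppp`, `pvqi_I_ppp`, `pvqi_Ip_ppp` (the processes of `Qbx/Main` are Poisson), `pvqi_rep_meas`, `pvqi_rep_preimage_void`,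
  `pvqi_rep_restr` (replica of a restriction), `pvqi_rep_image` (replica of a translate)
* sec. 1 : **(R-a)** `pvqi_M_prod` : `M_k(fun i => ∏_j h j i) = ∏_j M_k(h j)` for `h j i` local in `N j ×ˢ univ`, the `N j` pairwise disjoint
* sec. 2 : **(R-b)** `pvqiSh z F = F ∘ cfMap (· - z)`; `pvqi_M_shift`, `pvqi_E_shift`, `pvqi_V_shift` : for tests local in `W' ×ˢ univ` and `W' + z ⊆ W`,
  `M_k`, `E`, `V` in the window `W` of the shifted tests = `M_k`, `E`, `V` in the window `W'`; `pvqi_sh_loc`, `pvqi_sh_bd`; `pvqi_cut_law`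
* sec. 3 : calculus of `pvqmAv`, `pvqmY` : `pvqi_Y_nonneg`, `pvqi_Y_le_one`, `pvqi_Y_one_sub`
* sec. 4 : from `PvqmRepK` : `pvqi_Y_meas`, `pvqi_Y_pow` (`∫ Y^p = M_p`), `pvqi_Y_integral` (`∫ Y = E`), `pvqi_Y_var` (`∫ (Y - E)^2 = V`),
  **(R-c)** `pvqi_M_one_sub_le` : `M_p(1 - F) ≤ (1 - c/2)^p + 4 V / c^2`,
  `pvqi_Z_pow_le` : `∫ Y(∏_j (1 - f j))^p ≤ ((1 - c/2)^p + 4 vmax / c^2)^#ι`,
  **(P3)** `pvqi_rev` : `G η ≤ a + Y(Vd) + Y(∏_j (1 - f j b))` for some `b = b(η)`  ⟹  `∫ G ≤ a + E Vd + lam + #B rho^#ι / lam^p`.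
The numbers: `pvrb_exists_p`, `pvrb_rho_le`, `pvrb_e0_moment` of `Qbx/RbP`.
-/

set_option autoImplicit false
set_option linter.unusedSectionVars false
set_option linter.unusedVariables false

namespace Claimed.Agent.R289
open MeasureTheory ProbabilityTheory Set Filter Topology
open scoped ENNReal NNReal BigOperators

/-! ## 0. the replica process is a Poisson process; the replica maps -/

theorem pvqi_restrict_fin {W : Set ℂ} (hW : PvqmWin W) : IsFiniteMeasure ((volume : Measure ℂ).restrict W) :=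
  ⟨by rw [Measure.restrict_apply_univ]; exact hW.fin.lt_top⟩

theorem pvqi_J_fin {W : Set ℂ} (hW : PvqmWin W) (k : ℕ) (t : ℝ) : IsFiniteMeasure (pvqmJ k W t) := by
  have := pvqi_restrict_fin hW
  unfold pvqmJ pvqmL; infer_instance

theorem pvqi_J_ppp {W : Set ℂ} (hW : PvqmWin W) (k : ℕ) (t : ℝ) : IsPpp (pvqmJ k W t) (pppFin (pvqmJ k W t)) := by
  have := pvqi_J_fin hW k t
  exact pvs_isPpp _

theorem pvqi_I_fin {W : Set ℂ} (hW : PvqmWin W) (t : ℝ) : IsFiniteMeasure (pvqmI W t) := by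
  have := pvqi_restrict_fin hW
  unfold pvqmI
  exact Measure.smul_finite _ ENNReal.ofReal_ne_top

theorem pvqi_I_ppp {W : Set ℂ} (hW : PvqmWin W) (t : ℝ) : IsPpp (pvqmI W t) (pppFin (pvqmI W t)) := by
  have := pvqi_I_fin hW t
  exact pvs_isPpp _

theorem pvqi_Ip_fin {W : Set ℂ} (hW : PvqmWin W) (t : ℝ) : IsFiniteMeasure (pvqmIp W t) := by
  have := pvqi_restrict_fin hW
  unfold pvqmIp
  exact Measure.smul_finite _ ENNReal.ofReal_ne_top

theorem pvqi_Ip_ppp {W : Set ℂ} (hW : PvqmWin W) (t : ℝ) : IsPpp (pvqmIp W t) (pppFin (pvqmIp W t)) := by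
  have := pvqi_Ip_fin hW t
  exact pvs_isPpp _

/-- the set of marked points seen by replica `i` inside `B` (= `pvqrLift` of Qbx/Rep) -/
abbrev pvqiPre {k : ℕ} (i : Fin k) (B : Set PvPt) : Set (ℂ × PvqrMk k) := pvqrLift i B

theorem pvqi_pre_meas {k : ℕ} (i : Fin k) {B : Set PvPt} (hB : MeasurableSet B) : MeasurableSet (pvqiPre i B) :=
  pvqr_measurableSet_lift i hB

theorem pvqi_rep_preimage_void {k : ℕ} (i : Fin k) (B : Set PvPt) : pvqmRep i ⁻¹' Conf.void B = Conf.void (pvqiPre i B) :=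
  pvqr_rep_preimage_void i B

theorem pvqi_rep_meas {k : ℕ} (i : Fin k) : Measurable (pvqmRep i : Conf (ℂ × PvqrMk k) → Conf PvPt) :=
  pvqr_measurable_rep i

theorem pvqi_rep_restr {k : ℕ} (i : Fin k) (N : Set ℂ) (Ξ : Conf (ℂ × PvqrMk k)) :
    pvqmRep i (Conf.restr (N ×ˢ univ) Ξ) = Conf.restr (N ×ˢ univ) (pvqmRep i Ξ) :=
  pvqr_rep_restr i N Ξ

theorem pvqi_rep_image {k : ℕ} (i : Fin k) (τ : ℂ → ℂ) (Ξ : Conf (ℂ × PvqrMk k)) :
    pvqmRep i (Conf.image (Prod.map τ id) Ξ) = cfMap τ (pvqmRep i Ξ) :=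
  pvqr_rep_map i τ Ξ

/-! ## 1. (P1) the moments factorise over pairwise disjoint windows -/

/-- locality of a function of the replicas -/
theorem pvqi_loc_rep {k : ℕ} (i : Fin k) {N : Set ℂ} {h : Conf PvPt → ℝ} (hl : PvrbLoc (N ×ˢ univ) h) :
    PvrbLoc (N ×ˢ (univ : Set (PvqrMk k))) fun Ξ => h (pvqmRep i Ξ) := fun Ξ => by
  show h (pvqmRep i (Conf.restr (N ×ˢ univ) Ξ)) = h (pvqmRep i Ξ)
  rw [pvqi_rep_restr, hl]

/-- **(P1)** -/
theorem pvqi_M_prod {W : Set ℂ} (hW : PvqmWin W) (k : ℕ) (t : ℝ) {ι : Type*} [Fintype ι] {N : ι → Set ℂ} (hN : ∀ j, MeasurableSet (N j))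
    (hd : Pairwise (Function.onFun Disjoint N)) (h : ι → Fin k → Conf PvPt → ℝ) (hm : ∀ j i, Measurable (h j i))
    (hl : ∀ j i, PvrbLoc (N j ×ˢ univ) (h j i)) :
    pvqmM k W t (fun i ζ => ∏ j, h j i ζ) = ∏ j, pvqmM k W t (h j) := by
  unfold pvqmM pvqrM pvqrLaw
  have e : ∀ Ξ : Conf (ℂ × PvqrMk k), ∏ i, ∏ j, h j i (pvqmRep i Ξ) = ∏ j, ∏ i, h j i (pvqmRep i Ξ) := fun Ξ => Finset.prod_comm
  simp_rw [e]
  refine pvrb_ppp_prod_loc (pvqi_J_ppp hW k t) (N := fun j => N j ×ˢ (univ : Set (PvqrMk k))) (fun j => (hN j).prod MeasurableSet.univ) ?_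
    (fun j Ξ => ∏ i, h j i (pvqmRep i Ξ)) (fun j => Finset.measurable_fun_prod _ fun i _ => (hm j i).comp (pvqi_rep_meas i))
    (fun j => PvrbLoc.prod _ fun i _ => pvqi_loc_rep i (hl j i)) Finset.univ
  intro a b hab
  exact Set.disjoint_left.2 fun q h1 h2 => Set.disjoint_left.1 (hd hab) h1.1 h2.1

/-! ## 2. (P2) restriction to a translated window + translation -/

theorem pvqi_image_restr {E E' : Type*} (g : E → E') (U : Set E') (η : Conf E) :
    Conf.image g (Conf.restr (g ⁻¹' U) η) = Conf.restr U (Conf.image g η) := by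
  ext p
  simp only [Conf.image, Conf.restr, mem_image, mem_inter_iff, mem_preimage]
  constructor
  · rintro ⟨x, ⟨h1, h2⟩, rfl⟩; exact ⟨⟨x, h1, rfl⟩, h2⟩
  · rintro ⟨⟨x, h1, rfl⟩, h2⟩; exact ⟨x, ⟨h1, h2⟩, rfl⟩

/-- cut out the translated window `z + W'` and bring it back to `W'` -/
def pvqiCut {K : Type*} (z : ℂ) (W' : Set ℂ) (Ξ : Conf (ℂ × K)) : Conf (ℂ × K) :=
  Conf.restr (W' ×ˢ univ) (Conf.image (Prod.map (fun x => x - z) id) Ξ)

theorem pvqi_cut_meas {K : Type*} [MeasurableSpace K] (z : ℂ) {W' : Set ℂ} (hW' : MeasurableSet W') :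
    Measurable (pvqiCut z W' : Conf (ℂ × K) → Conf (ℂ × K)) :=
  (Conf.measurable_restr (hW'.prod MeasurableSet.univ)).comp
    (Conf.measurable_image ((measurable_id.sub_const z).prodMap measurable_id))

/-- the intensity of the cut -/
theorem pvqi_cut_int {K : Type*} [MeasurableSpace K] (κ : Measure K) [IsFiniteMeasure κ] {W W' : Set ℂ} (hW' : MeasurableSet W')
    (z : ℂ) (hsub : ∀ x ∈ W', x + z ∈ W) :
    ((((volume : Measure ℂ).restrict W).prod κ).map (Prod.map (fun x => x - z) id)).restrict (W' ×ˢ univ)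
      = ((volume : Measure ℂ).restrict W').prod κ := by
  have hτ : Measurable fun x : ℂ => x - z := measurable_id.sub_const z
  have hmp : MeasurePreserving (fun x : ℂ => x - z) volume volume := measurePreserving_sub_right volume z
  rw [← Measure.map_prod_map _ _ hτ measurable_id, Measure.map_id, ← Measure.prod_restrict, Measure.restrict_univ]
  congr 1
  rw [Measure.restrict_map hτ hW', Measure.restrict_restrict (hτ hW')]
  have e : (fun x : ℂ => x - z) ⁻¹' W' ∩ W = (fun x : ℂ => x - z) ⁻¹' W' := by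
    refine inter_eq_left.2 fun x hx => ?_
    have := hsub _ hx
    simpa using this
  rw [e, ← Measure.restrict_map hτ hW', hmp.map_eq]

/-- **the law of the cut** -/
theorem pvqi_cut_law {K : Type*} [MeasurableSpace K] (κ : Measure K) [IsFiniteMeasure κ] {W W' : Set ℂ} (hW : PvqmWin W) (hW' : PvqmWin W')
    (z : ℂ) (hsub : ∀ x ∈ W', x + z ∈ W) :
    (pppFin (((volume : Measure ℂ).restrict W).prod κ)).map (pvqiCut z W') = pppFin (((volume : Measure ℂ).restrict W').prod κ) := by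
  have := pvqi_restrict_fin hW
  have := pvqi_restrict_fin hW'
  have h0 : IsPpp _ (pppFin (((volume : Measure ℂ).restrict W).prod κ)) := pvs_isPpp _
  have hT : Measurable (Prod.map (fun x : ℂ => x - z) (id : K → K)) := (measurable_id.sub_const z).prodMap measurable_id
  have h1 := (h0.map hT).restr (hW'.meas.prod (MeasurableSet.univ : MeasurableSet (univ : Set K)))
  rw [pvqi_cut_int κ hW'.meas z hsub, Measure.map_map (Conf.measurable_restr (hW'.meas.prod MeasurableSet.univ)) (Conf.measurable_image hT)] at h1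
  exact h1.unique (pvs_isPpp _)


/-- the shifted test: `F` looked at from the point `z` -/
def pvqiSh (z : ℂ) (F : Conf PvPt → ℝ) : Conf PvPt → ℝ := fun ζ => F (cfMap (fun x => x - z) ζ)

theorem pvqi_sh_meas (z : ℂ) {F : Conf PvPt → ℝ} (hF : Measurable F) : Measurable (pvqiSh z F) :=
  hF.comp (measurable_cfMap (measurable_id.sub_const z))

theorem pvqi_sh_bd (z : ℂ) {F : Conf PvPt → ℝ} (hF : PvqmBd F) : PvqmBd (pvqiSh z F) :=
  ⟨pvqi_sh_meas z hF.meas, fun _ => hF.nonneg _, fun _ => hF.le_one _⟩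

/-- the shifted test is local in the shifted window -/
theorem pvqi_sh_loc (z : ℂ) {W' : Set ℂ} {F : Conf PvPt → ℝ} (hl : PvrbLoc (W' ×ˢ univ) F) :
    PvrbLoc (((fun x : ℂ => x - z) ⁻¹' W') ×ˢ univ) (pvqiSh z F) := fun ζ => by
  have e : ((fun x : ℂ => x - z) ⁻¹' W') ×ˢ (univ : Set Bool) = Prod.map (fun x : ℂ => x - z) id ⁻¹' (W' ×ˢ univ) := by
    ext p; simp
  show F (cfMap _ (Conf.restr _ ζ)) = F (cfMap _ ζ)
  rw [e, cfMap, pvqi_image_restr, hl]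
  rfl

theorem pvqi_rep_cut {k : ℕ} (i : Fin k) (z : ℂ) (W' : Set ℂ) (Ξ : Conf (ℂ × PvqrMk k)) :
    pvqmRep i (pvqiCut z W' Ξ) = Conf.restr (W' ×ˢ univ) (cfMap (fun x => x - z) (pvqmRep i Ξ)) := by
  rw [pvqiCut, pvqi_rep_restr, pvqi_rep_image]

/-- **(P2)** for the moments -/
theorem pvqi_M_shift {W W' : Set ℂ} (hW : PvqmWin W) (hW' : PvqmWin W') (z : ℂ) (hsub : ∀ x ∈ W', x + z ∈ W) (k : ℕ) (t : ℝ)
    (g : Fin k → Conf PvPt → ℝ) (hm : ∀ i, Measurable (g i)) (hl : ∀ i, PvrbLoc (W' ×ˢ univ) (g i)) :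
    pvqmM k W t (fun i => pvqiSh z (g i)) = pvqmM k W' t g := by
  unfold pvqmM pvqrM pvqrLaw pvqrInt pvqmL
  have hmm : Measurable fun Ξ : Conf (ℂ × PvqrMk k) => ∏ i, g i (pvqmRep i Ξ) :=
    Finset.measurable_fun_prod _ fun i _ => (hm i).comp (pvqi_rep_meas i)
  rw [← pvqi_cut_law (pvqrKap k t) hW hW' z hsub, integral_map (pvqi_cut_meas z hW'.meas).aemeasurable hmm.aestronglyMeasurable]
  refine integral_congr_ae (Eventually.of_forall fun Ξ => Finset.prod_congr rfl fun i _ => ?_)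
  rw [pvqi_rep_cut, hl i]
  rfl

/-- **(P2)** for the annealed mean -/
theorem pvqi_E_shift {W W' : Set ℂ} (hW : PvqmWin W) (hW' : PvqmWin W') (z : ℂ) (hsub : ∀ x ∈ W', x + z ∈ W)
    (F : Conf PvPt → ℝ) (hm : Measurable F) (hl : PvrbLoc (W' ×ˢ univ) F) : pvqmE W (pvqiSh z F) = pvqmE W' F := by
  unfold pvqmE pvqmL
  rw [← pvqi_cut_law pvCoin hW hW' z hsub, integral_map (pvqi_cut_meas z hW'.meas).aemeasurable hm.aestronglyMeasurable]
  refine integral_congr_ae (Eventually.of_forall fun ζ => ?_)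
  show F (cfMap _ ζ) = F (Conf.restr _ (Conf.image _ ζ))
  rw [hl]
  rfl

/-- **(P2)** for the two-replica value -/
theorem pvqi_V_shift {W W' : Set ℂ} (hW : PvqmWin W) (hW' : PvqmWin W') (z : ℂ) (hsub : ∀ x ∈ W', x + z ∈ W) (t : ℝ)
    (F : Conf PvPt → ℝ) (hm : Measurable F) (hl : PvrbLoc (W' ×ˢ univ) F) : pvqmV W (pvqiSh z F) t = pvqmV W' F t := by
  rw [pvqmV_eq, pvqmV_eq, pvqi_M_shift hW hW' z hsub 2 t (fun _ => F) (fun _ => hm) (fun _ => hl), pvqi_E_shift hW hW' z hsub F hm hl]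


/-! ## 3. calculus of the quenched means -/

theorem pvqi_I_prob {W : Set ℂ} (hW : PvqmWin W) (t : ℝ) : IsProbabilityMeasure (pppFin (pvqmI W t)) := (pvqi_I_ppp hW t).prob

theorem pvqi_Ip_prob {W : Set ℂ} (hW : PvqmWin W) (t : ℝ) : IsProbabilityMeasure (pppFin (pvqmIp W t)) := (pvqi_Ip_ppp hW t).prob

theorem pvqi_J_prob {W : Set ℂ} (hW : PvqmWin W) (k : ℕ) (t : ℝ) : IsProbabilityMeasure (pppFin (pvqmJ k W t)) := (pvqi_J_ppp hW k t).prob

theorem pvqi_Av_const {W : Set ℂ} (hW : PvqmWin W) (t : ℝ) (S : Finset ℂ) (a : ℝ) : pvqmAv W t S (fun _ _ => a) = a := by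
  have := pvqi_I_prob hW (1 - t)
  unfold pvqmAv
  simp only [integral_const, probReal_univ, smul_eq_mul, one_mul, Finset.sum_const, Finset.card_powerset, nsmul_eq_mul, Nat.cast_pow,
    Nat.cast_ofNat]
  rw [← mul_assoc, inv_mul_cancel₀ (by positivity), one_mul]

theorem pvqi_Av_mono {W : Set ℂ} (t : ℝ) (S : Finset ℂ) {Φ Ψ : Finset ℂ → Conf PvPt → ℝ}
    (hΦ : ∀ T, Integrable (Φ T) (pppFin (pvqmI W (1 - t)))) (hΨ : ∀ T, Integrable (Ψ T) (pppFin (pvqmI W (1 - t))))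
    (h : ∀ T ζ, Φ T ζ ≤ Ψ T ζ) : pvqmAv W t S Φ ≤ pvqmAv W t S Ψ := by
  unfold pvqmAv
  exact mul_le_mul_of_nonneg_left (Finset.sum_le_sum fun T _ => integral_mono (hΦ T) (hΨ T) (h T)) (by positivity)

theorem pvqi_Av_sub {W : Set ℂ} (t : ℝ) (S : Finset ℂ) {Φ Ψ : Finset ℂ → Conf PvPt → ℝ}
    (hΦ : ∀ T, Integrable (Φ T) (pppFin (pvqmI W (1 - t)))) (hΨ : ∀ T, Integrable (Ψ T) (pppFin (pvqmI W (1 - t)))) :
    pvqmAv W t S (fun T ζ => Φ T ζ - Ψ T ζ) = pvqmAv W t S Φ - pvqmAv W t S Ψ := by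
  unfold pvqmAv
  rw [← mul_sub, ← Finset.sum_sub_distrib]
  congr 1
  exact Finset.sum_congr rfl fun T _ => integral_sub (hΦ T) (hΨ T)

theorem pvqi_bd_integrable {F : Conf PvPt → ℝ} (hF : PvqmBd F) (μ : Measure (Conf PvPt)) [IsFiniteMeasure μ] (σ : Conf PvPt) :
    Integrable (fun ζ => F (Conf.union σ ζ)) μ :=
  Integrable.of_bound (hF.meas.comp (pvrb_union_left_meas σ)).aestronglyMeasurable 1
    (Eventually.of_forall fun ζ => by rw [Real.norm_of_nonneg (hF.nonneg _)]; exact hF.le_one _)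

theorem pvqi_Y_nonneg {W : Set ℂ} {F : Conf PvPt → ℝ} (hF : PvqmBd F) (t : ℝ) (S : Finset ℂ) : 0 ≤ pvqmY W F t S := by
  unfold pvqmY pvqmAv
  exact mul_nonneg (by positivity) (Finset.sum_nonneg fun T _ => integral_nonneg fun ζ => hF.nonneg _)

theorem pvqi_Y_le_one {W : Set ℂ} (hW : PvqmWin W) {F : Conf PvPt → ℝ} (hF : PvqmBd F) (t : ℝ) (S : Finset ℂ) : pvqmY W F t S ≤ 1 := by
  have := pvqi_I_prob hW (1 - t)
  rw [← pvqi_Av_const hW t S 1]
  exact pvqi_Av_mono t S (fun T => pvqi_bd_integrable hF _ _) (fun _ => integrable_const _) fun T ζ => hF.le_one _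

theorem pvqi_Y_one_sub {W : Set ℂ} (hW : PvqmWin W) {F : Conf PvPt → ℝ} (hF : PvqmBd F) (t : ℝ) (S : Finset ℂ) :
    pvqmY W (fun ζ => 1 - F ζ) t S = 1 - pvqmY W F t S := by
  have := pvqi_I_prob hW (1 - t)
  unfold pvqmY
  rw [pvqi_Av_sub t S (Φ := fun _ _ => (1 : ℝ)) (fun _ => integrable_const _) (fun T => pvqi_bd_integrable hF _ _), pvqi_Av_const hW]

theorem pvqi_bd_one_sub {F : Conf PvPt → ℝ} (hF : PvqmBd F) : PvqmBd fun ζ => 1 - F ζ :=
  ⟨measurable_const.sub hF.meas, fun ζ => by linarith [hF.le_one ζ], fun ζ => by linarith [hF.nonneg ζ]⟩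

theorem pvqi_bd_prod {κ : Type*} (s : Finset κ) {F : κ → Conf PvPt → ℝ} (hF : ∀ a ∈ s, PvqmBd (F a)) : PvqmBd fun ζ => ∏ a ∈ s, F a ζ :=
  ⟨Finset.measurable_fun_prod _ fun a ha => (hF a ha).meas, fun ζ => Finset.prod_nonneg fun a ha => (hF a ha).nonneg ζ,
    fun ζ => Finset.prod_le_one (fun a ha => (hF a ha).nonneg ζ) fun a ha => (hF a ha).le_one ζ⟩

theorem pvqi_loc_one_sub {E : Type*} {N : Set E} {F : Conf E → ℝ} (h : PvrbLoc N F) : PvrbLoc N fun ζ => 1 - F ζ := fun ζ => by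
  show 1 - F _ = 1 - F ζ
  rw [h]

/-! ## 4. consequences of the replica contract -/

section rep
variable (hK : PvqmRepK) {W : Set ℂ} (hW : PvqmWin W) {t : ℝ} (ht : PvqmGrid t)
include hK hW ht

theorem pvqi_Y_meas {F : Conf PvPt → ℝ} (hF : PvqmBd F) : Measurable fun η : Conf ℂ => pvqmY W F t (pvqmFs η) :=
  (hK W hW t ht).1 F hF

/-- `p`-th moment of a quenched mean -/
theorem pvqi_Y_pow {F : Conf PvPt → ℝ} (hF : PvqmBd F) (p : ℕ) :
    ∫ η, pvqmY W F t (pvqmFs η) ^ p ∂pppFin (pvqmIp W t) = pvqmM p W t fun _ => F := by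
  rw [← (hK W hW t ht).2 p (fun _ => F) fun _ => hF]
  simp

/-- first moment of a quenched mean = annealed mean -/
theorem pvqi_Y_integral {F : Conf PvPt → ℝ} (hF : PvqmBd F) : ∫ η, pvqmY W F t (pvqmFs η) ∂pppFin (pvqmIp W t) = pvqmE W F := by
  have h1 := pvqi_Y_pow hK hW ht hF 1
  simp only [pow_one] at h1
  rw [h1]
  have := pvqi_restrict_fin hW
  unfold pvqmM pvqrM pvqmE
  rw [← pvqr_rep_law 1 (pvqmL W) ht.nonneg ht.le_one 0, integral_map (pvqi_rep_meas 0).aemeasurable hF.meas.aestronglyMeasurable]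
  simp

theorem pvqi_Y_integrable {F : Conf PvPt → ℝ} (hF : PvqmBd F) : Integrable (fun η : Conf ℂ => pvqmY W F t (pvqmFs η)) (pppFin (pvqmIp W t)) := by
  have := pvqi_Ip_prob hW t
  exact Integrable.of_bound (pvqi_Y_meas hK hW ht hF).aestronglyMeasurable 1
    (Eventually.of_forall fun η => by rw [Real.norm_of_nonneg (pvqi_Y_nonneg hF _ _)]; exact pvqi_Y_le_one hW hF _ _)

/-- the variance of the quenched mean is the two-replica value -/
theorem pvqi_Y_var {F : Conf PvPt → ℝ} (hF : PvqmBd F) :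
    ∫ η, (pvqmY W F t (pvqmFs η) - pvqmE W F) ^ 2 ∂pppFin (pvqmIp W t) = pvqmV W F t := by
  have := pvqi_Ip_prob hW t
  have hi := pvqi_Y_integrable hK hW ht hF
  have hi2 : Integrable (fun η : Conf ℂ => pvqmY W F t (pvqmFs η) ^ 2) (pppFin (pvqmIp W t)) :=
    Integrable.of_bound ((pvqi_Y_meas hK hW ht hF).pow_const 2).aestronglyMeasurable 1
      (Eventually.of_forall fun η => by
        rw [Real.norm_of_nonneg (sq_nonneg _)]
        exact pow_le_one₀ (pvqi_Y_nonneg hF _ _) (pvqi_Y_le_one hW hF _ _))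
  have e : ∀ η : Conf ℂ, (pvqmY W F t (pvqmFs η) - pvqmE W F) ^ 2
      = pvqmY W F t (pvqmFs η) ^ 2 - 2 * pvqmE W F * pvqmY W F t (pvqmFs η) + pvqmE W F ^ 2 := fun η => by ring
  simp_rw [e]
  have hi3 : Integrable (fun η : Conf ℂ => 2 * pvqmE W F * pvqmY W F t (pvqmFs η)) (pppFin (pvqmIp W t)) := hi.const_mul _
  have hi4 : Integrable (fun η : Conf ℂ => pvqmY W F t (pvqmFs η) ^ 2 - 2 * pvqmE W F * pvqmY W F t (pvqmFs η)) (pppFin (pvqmIp W t)) :=
    hi2.sub hi3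
  rw [integral_add hi4 (integrable_const _), integral_sub hi2 hi3, integral_const_mul,
    pvqi_Y_pow hK hW ht hF 2, pvqi_Y_integral hK hW ht hF, pvqmV_eq]
  simp
  ring

/-- **(R-c)** one scale: `M_p(1 - F) ≤ (1 - c/2)^p + 4 V / c^2` as soon as `c ≤ E F` -/
theorem pvqi_M_one_sub_le {F : Conf PvPt → ℝ} (hF : PvqmBd F) {c : ℝ} (hc : 0 < c) (hc2 : c ≤ 2) (hE : c ≤ pvqmE W F) (p : ℕ) :
    pvqmM p W t (fun _ ζ => 1 - F ζ) ≤ (1 - c / 2) ^ p + 4 * pvqmV W F t / c ^ 2 := by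
  have := pvqi_Ip_prob hW t
  rw [← pvqi_Y_pow hK hW ht (pvqi_bd_one_sub hF) p]
  simp_rw [pvqi_Y_one_sub hW hF]
  exact pvrb_pow_le _ (pvqi_Y_meas hK hW ht hF) (fun η => pvqi_Y_nonneg hF _ _) (fun η => pvqi_Y_le_one hW hF _ _) hc hc2 hE
    (pvqi_Y_var hK hW ht hF).le p

/-- **(R-a) + (R-c)**: the `p`-th moment of the quenched probability that no scale blocks -/
theorem pvqi_Z_pow_le {ι : Type*} [Fintype ι] {N : ι → Set ℂ} (hN : ∀ j, MeasurableSet (N j)) (hd : Pairwise (Function.onFun Disjoint N))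
    (f : ι → Conf PvPt → ℝ) (hf : ∀ j, PvqmBd (f j)) (hl : ∀ j, PvrbLoc (N j ×ˢ univ) (f j)) {c vmax : ℝ} (hc : 0 < c) (hc2 : c ≤ 2)
    (hE : ∀ j, c ≤ pvqmE W (f j)) (hV : ∀ j, pvqmV W (f j) t ≤ vmax) (p : ℕ) :
    ∫ η, pvqmY W (fun ζ => ∏ j, (1 - f j ζ)) t (pvqmFs η) ^ p ∂pppFin (pvqmIp W t)
      ≤ ((1 - c / 2) ^ p + 4 * vmax / c ^ 2) ^ Fintype.card ι := by
  rw [pvqi_Y_pow hK hW ht (pvqi_bd_prod _ fun j _ => pvqi_bd_one_sub (hf j)) p,
    pvqi_M_prod hW p t hN hd (fun j _ ζ => 1 - f j ζ) (fun j _ => (pvqi_bd_one_sub (hf j)).meas) (fun j _ => pvqi_loc_one_sub (hl j)),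
    ← Finset.card_univ, ← Finset.prod_const]
  refine Finset.prod_le_prod (fun j _ => ?_) fun j _ => ?_
  · rw [← pvqi_Y_pow hK hW ht (pvqi_bd_one_sub (hf j)) p]
    exact integral_nonneg fun η => pow_nonneg (pvqi_Y_nonneg (pvqi_bd_one_sub (hf j)) _ _) _
  · refine le_trans (pvqi_M_one_sub_le hK hW ht (hf j) hc hc2 (hE j) p) ?_
    have : 4 * pvqmV W (f j) t / c ^ 2 ≤ 4 * vmax / c ^ 2 :=
      div_le_div_of_nonneg_right (by linarith [hV j]) (by positivity)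
    linarith

/-- **(P3)** the revealment bound in the vocabulary of `Qbx/Main`: blocks `b`, scales `j`, windows `N j b` pairwise disjoint in `j`. -/
theorem pvqi_rev {ι B : Type*} [Fintype ι] [Fintype B] {N : ι → B → Set ℂ} (hN : ∀ j b, MeasurableSet (N j b))
    (hd : ∀ b, Pairwise (Function.onFun Disjoint fun j => N j b))
    (f : ι → B → Conf PvPt → ℝ) (hf : ∀ j b, PvqmBd (f j b)) (hl : ∀ j b, PvrbLoc (N j b ×ˢ univ) (f j b)) {c vmax : ℝ} (hc : 0 < c) (hc2 : c ≤ 2)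
    (hE : ∀ j b, c ≤ pvqmE W (f j b)) (hV : ∀ j b, pvqmV W (f j b) t ≤ vmax) (p : ℕ) {lam : ℝ} (hlam : 0 < lam)
    (Vd : Conf PvPt → ℝ) (hVd : PvqmBd Vd) (a : ℝ) (G : Conf ℂ → ℝ) (hG : Integrable G (pppFin (pvqmIp W t)))
    (hle : ∀ η, ∃ b, G η ≤ a + pvqmY W Vd t (pvqmFs η) + pvqmY W (fun ζ => ∏ j, (1 - f j b ζ)) t (pvqmFs η)) :
    ∫ η, G η ∂pppFin (pvqmIp W t)
      ≤ a + pvqmE W Vd + (lam + Fintype.card B * (((1 - c / 2) ^ p + 4 * vmax / c ^ 2) ^ Fintype.card ι / lam ^ p)) := by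
  have := pvqi_Ip_prob hW t
  have hb : ∀ b, PvqmBd fun ζ => ∏ j, (1 - f j b ζ) := fun b => pvqi_bd_prod _ fun j _ => pvqi_bd_one_sub (hf j b)
  rw [← pvqi_Y_integral hK hW ht hVd]
  exact pvrb_moment (fun b η => pvqmY W (fun ζ => ∏ j, (1 - f j b ζ)) t (pvqmFs η)) (fun b => pvqi_Y_meas hK hW ht (hb b))
    (fun b η => pvqi_Y_nonneg (hb b) _ _) (fun b η => pvqi_Y_le_one hW (hb b) _ _) p
    (fun b => pvqi_Z_pow_le hK hW ht (fun j => hN j b) (hd b) (fun j => f j b) (fun j => hf j b) (fun j => hl j b) hc hc2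
      (fun j => hE j b) (fun j => hV j b) p) hlam G _ a hG (pvqi_Y_integrable hK hW ht hVd) hle

end rep

end Claimed.Agent.R289
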