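import Claimed.Agent.R289.Qbx.C0
import Claimed.Agent.R289.Qbx.RevP
import Claimed.Agent.R289.Qbx.Expl

/-!
# Row 289 (S0537), box QBX, file Qbx/Blocks : BLOCKS, SCALES, WINDOWS, THE FINE GRID EVENT, THE NUMBERS OF [REV]      (owner helper167, head helper30: ruling #2 item (2c), ROAD A; prefix `pvqz`)

`w` = centre, `u` = scale of the big annulus, `ρ₀` = the finest scale, scales `16^j ρ₀` (`j < m`), standing hypothesis `18 · 16^(m-1) ρ₀ ≤ u`.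
* sec. 1 TRANSLATION      `pvqz_F_shift0 : pvqcF z u = pvqiSh z (pvqcF 0 u)` (`pvqz_LF_map_iff`, `pvqz_blk_map`), `pvqz_F_loc : PvrbLoc (pvqcO w u ×ˢ univ) (pvqcF w u)`, `pvqz_F_bd`;
* sec. 2 WINDOWS          `pvqz_mem_O`, `pvqz_mem_K` (sup norm form), `pvqz_O_sub` (small window inside the big one), **`pvqz_E`, `pvqz_V`** (mean and two-replica value of a small observable computed in the big window = those of the centred family);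
* sec. 3 BLOCKS           centres `pvqzC w ρ₀ k = w + (ρ₀/2)(k₁ + i k₂)`, indices `pvqzB u ρ₀ : Finset (ℤ × ℤ)`, `pvqz_B_pos`, **`pvqz_cover`** (`u/2 - ρ₀/4 ≤ ‖x - w‖_∞ ≤ 5u/2 + ρ₀/4` ⟹ a centre within `ρ₀/4`), `pvqz_B_nonempty`,
                          **`pvqz_B_card`** (`≤ 225 (u/ρ₀)²`), `pvqz_B_win`, `pvqz_N_sub`;
* sec. 4 GOOD EVENT       `pvqzGd w u ρ₀ m` = fine net event + all `pvqcG z_k (16^j ρ₀)`: `pvqz_Gd_net` (`PvNet (ρ₀/8) (pvqcK w u)`), `pvqz_Gd_grid`, measurable, increasing, read in the big window (`pvqz_Gd_loc`), `pvqz_Gd_prob`;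
                          `pvqzVd` = indicator of the bad event (`pvqz_Vd_bd : PvqmBd`), `pvqz_E_Vd_le`, **`pvqz_Vd_small`** (`E Vd → 0` at fixed `κ = ρ₀/u`, `m`);
* sec. 5 CONTRACT + GLUE  **`PvqzDom C1`** = [DOM] (103 / 96, Qbx/Dom.lean), `pvqz_rev` = `pvqi_rev` of 233 at the blocks, **`pvqz_Rev : PvqmRepK → PvqzDom C1 → PvqmRev (pvqcO 0) (pvqcF 0)`**.
-/

set_option autoImplicit false

namespace Claimed.Agent.R289

open MeasureTheory ProbabilityTheory Set Filter Topology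
open scoped ENNReal NNReal

/-! ## 1. translation covariance of the observable -/

/-- the translation `x ↦ x - z` -/
noncomputable def pvqzTr (z : ℂ) : ℂ ≃ₜ ℂ := Homeomorph.addRight (-z)

theorem pvqz_T_apply (z x : ℂ) : pvqzTr z x = x - z := (sub_eq_add_neg x z).symm

theorem pvqz_T_fun (z : ℂ) : (fun x : ℂ => x - z) = pvqzTr z := funext fun x => (pvqz_T_apply z x).symm

theorem pvqz_T_fun' (z : ℂ) : (fun x : ℂ => x + -z) = pvqzTr z := rfl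

theorem pvqz_defs_eqns_cite : True := by
  have := @pvqzTr.eq_1
  trivial

theorem pvqz_map_map (z : ℂ) (ζ : Conf PvPt) : cfMap (fun x => x - -z) (cfMap (fun x => x - z) ζ) = ζ := by
  ext p
  simp only [cfMap, Conf.image, mem_image, Prod.exists, Prod.map_apply, id_eq]
  constructor
  · rintro ⟨a, c, ⟨a', c', h, h'⟩, rfl⟩
    obtain ⟨rfl, rfl⟩ := Prod.mk.inj h'
    simpa using h
  · intro h
    exact ⟨p.1 - z, p.2, ⟨p.1, p.2, h, rfl⟩, by simp⟩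

/-- local finiteness is translation invariant -/
theorem pvqz_LF_map {ζ : Conf PvPt} (h : PvLF ζ) (z : ℂ) : PvLF (cfMap (fun x => x - z) ζ) := by
  intro k
  have hfin := pvfm_lf_ball h ((⟨k.1, k.2⟩ : ℂ) + z) 2
  refine (hfin.image (Prod.map (fun x => x - z) id)).subset ?_
  rintro _ ⟨⟨p, hp, rfl⟩, hk⟩
  refine ⟨p, ⟨hp, ?_⟩, rfl⟩
  obtain ⟨⟨h1, h2⟩, h3, h4⟩ := hk
  simp only [Prod.map_fst, Complex.sub_re, Complex.sub_im] at h1 h2 h3 h4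
  show ‖(⟨k.1, k.2⟩ : ℂ) + z - p.1‖ ≤ 2
  refine (Complex.norm_le_abs_re_add_abs_im _).trans ?_
  have a1 : |((⟨k.1, k.2⟩ : ℂ) + z - p.1).re| ≤ 1 := by
    simp only [Complex.sub_re, Complex.add_re]
    rw [abs_le]; constructor <;> linarith
  have a2 : |((⟨k.1, k.2⟩ : ℂ) + z - p.1).im| ≤ 1 := by
    simp only [Complex.sub_im, Complex.add_im]
    rw [abs_le]; constructor <;> linarith
  linarith

theorem pvqz_LF_map_iff (ζ : Conf PvPt) (z : ℂ) : PvLF (cfMap (fun x => x - z) ζ) ↔ PvLF ζ :=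
  ⟨fun h => by have := pvqz_LF_map h (-z); rwa [pvqz_map_map] at this, fun h => pvqz_LF_map h z⟩

/-- the blocking event is translation covariant -/
theorem pvqz_blk_map (w z : ℂ) (u : ℝ) (ζ : Conf PvPt) : PvqcBlk w u (cfMap (fun x => x - z) ζ) ↔ PvqcBlk (w + z) u ζ := by
  have hB : cfB (cfMap (fun x => x - z) ζ) = pvqzTr z '' cfB ζ := by
    rw [pvqz_T_fun]
    exact pvr_B_sim (g := (pvqzTr z).toEquiv) (r := 1) one_pos (fun a b => by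
      show ‖pvqzTr z a - pvqzTr z b‖ = 1 * ‖a - b‖
      rw [pvqz_T_apply, pvqz_T_apply, one_mul]; congr 1; ring) ζ
  have hA : rswArm w.re w.im (u / 2) (5 * u / 2) = (rswArm (w + z).re (w + z).im (u / 2) (5 * u / 2)).map (pvqzTr z) := by
    rw [← pvqz_T_fun', rsw_map_tr_Arm]
    simp
  show ¬ (rswArm w.re w.im (u / 2) (5 * u / 2)).Holds (cfB (cfMap (fun x => x - z) ζ)) ↔
    ¬ (rswArm (w + z).re (w + z).im (u / 2) (5 * u / 2)).Holds (cfB ζ)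
  rw [hB, hA, pvr_holds_map]

theorem pvqz_N_pre (w z : ℂ) (u : ℝ) : Prod.map (fun x : ℂ => x - z) (id : Bool → Bool) ⁻¹' pvqcN w u = pvqcN (w + z) u := by
  ext p
  simp only [pvqcN, pvqcO, mem_preimage, Prod.map_fst, mem_ofPred_eq, Complex.sub_re, Complex.sub_im, Complex.add_re, Complex.add_im]
  have e1 : p.1.re - z.re - w.re = p.1.re - (w.re + z.re) := by ring
  have e2 : p.1.im - z.im - w.im = p.1.im - (w.im + z.im) := by ring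
  rw [e1, e2]

/-- **TRANSLATION**: the observable of centre `w + z` is the observable of centre `w` looked at from `z` -/
theorem pvqz_F_shift (w z : ℂ) (u : ℝ) : pvqcF (w + z) u = pvqiSh z (pvqcF w u) := by
  funext ζ
  have e : Conf.restr (pvqcN w u) (cfMap (fun x => x - z) ζ) = cfMap (fun x => x - z) (Conf.restr (pvqcN (w + z) u) ζ) := by
    rw [← pvqz_N_pre, cfMap, cfMap, pvqi_image_restr]
  show pvqcF (w + z) u ζ = pvqcF w u (cfMap (fun x => x - z) ζ)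
  by_cases h : PvLF (Conf.restr (pvqcN (w + z) u) ζ) ∧ PvqcBlk (w + z) u (Conf.restr (pvqcN (w + z) u) ζ)
  · rw [pvqc_F_of h.1 h.2, pvqc_F_of (by rw [e]; exact pvqz_LF_map h.1 z) (by rw [e]; exact (pvqz_blk_map w z u _).2 h.2)]
  · rw [pvqc_F_of_not h, pvqc_F_of_not]
    rw [e, pvqz_LF_map_iff, pvqz_blk_map]
    exact h

theorem pvqz_F_shift0 (z : ℂ) (u : ℝ) : pvqcF z u = pvqiSh z (pvqcF 0 u) := by
  rw [← pvqz_F_shift, zero_add]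

/-- locality in the vocabulary of 233 -/
theorem pvqz_F_loc (w : ℂ) (u : ℝ) : PvrbLoc (pvqcO w u ×ˢ (univ : Set Bool)) (pvqcF w u) := by
  rw [← pvqc_N_eq]
  exact pvqc_F_reads w u

theorem pvqz_F_bd (w : ℂ) (u : ℝ) : PvqmBd (pvqcF w u) := pvqm_test_bd (pvqc_test w u)

/-! ## 2. windows inside windows: transfer of the mean and of the two-replica value -/

theorem pvqz_mem_O {w x : ℂ} {u : ℝ} : x ∈ pvqcO w u ↔ pvqeSup (x - w) < 4 * u ∧ u / 4 ≤ pvqeSup (x - w) := by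
  unfold pvqcO pvqeSup
  rw [mem_ofPred_eq, Complex.sub_re, Complex.sub_im, max_lt_iff, le_max_iff, not_and_or, not_lt, not_lt]

theorem pvqz_mem_K {w x : ℂ} {u : ℝ} : x ∈ pvqcK w u ↔ pvqeSup (x - w) ≤ 7 * u / 2 ∧ u / 2 ≤ pvqeSup (x - w) := by
  unfold pvqcK pvmSq pvqeSup
  simp only [mem_ofPred_eq]
  rw [Complex.sub_re, Complex.sub_im, max_le_iff, le_max_iff, not_and_or, not_lt, not_lt]

/-- the window of centre `z` and scale `ρ` lies in the window of centre `w` and scale `u` -/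
theorem pvqz_O_sub {w z : ℂ} {u ρ : ℝ} (h1 : u / 4 + 4 * ρ ≤ pvqeSup (z - w)) (h2 : pvqeSup (z - w) + 4 * ρ ≤ 4 * u) : pvqcO z ρ ⊆ pvqcO w u := by
  intro x hx
  rw [pvqz_mem_O] at hx ⊢
  have a1 := pvqe_sup_add (x - z) (z - w)
  have a2 := pvqe_sup_add (x - w) (-(x - z))
  rw [pvqe_sup_neg] at a2
  have e1 : x - z + (z - w) = x - w := by ring
  have e2 : x - w + -(x - z) = z - w := by ring
  rw [e1] at a1
  rw [e2] at a2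
  constructor <;> linarith [hx.1]

theorem pvqz_win_sub {w z : ℂ} {u ρ : ℝ} (h1 : u / 4 + 4 * ρ ≤ pvqeSup (z - w)) (h2 : pvqeSup (z - w) + 4 * ρ ≤ 4 * u) :
    ∀ x ∈ pvqcO 0 ρ, x + z ∈ pvqcO w u := by
  intro x hx
  apply pvqz_O_sub h1 h2
  rw [pvqz_mem_O] at hx ⊢
  have e : x + z - z = x - 0 := by ring
  rw [e]
  exact hx

/-- **the annealed mean of a small observable does not see the big window** -/
theorem pvqz_E {w z : ℂ} {u ρ : ℝ} (hu : 0 < u) (hρ : 0 < ρ) (h1 : u / 4 + 4 * ρ ≤ pvqeSup (z - w)) (h2 : pvqeSup (z - w) + 4 * ρ ≤ 4 * u) :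
    pvqmE (pvqcO w u) (pvqcF z ρ) = pvqmE (pvqcO 0 ρ) (pvqcF 0 ρ) := by
  rw [pvqz_F_shift0]
  exact pvqi_E_shift (pvqc_win w hu) (pvqc_win 0 hρ) z (pvqz_win_sub h1 h2) _ (pvqc_F_meas 0 ρ) (pvqz_F_loc 0 ρ)

/-- **the two-replica value of a small observable does not see the big window** -/
theorem pvqz_V {w z : ℂ} {u ρ : ℝ} (hu : 0 < u) (hρ : 0 < ρ) (h1 : u / 4 + 4 * ρ ≤ pvqeSup (z - w)) (h2 : pvqeSup (z - w) + 4 * ρ ≤ 4 * u) (t : ℝ) :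
    pvqmV (pvqcO w u) (pvqcF z ρ) t = pvqmV (pvqcO 0 ρ) (pvqcF 0 ρ) t := by
  rw [pvqz_F_shift0]
  exact pvqi_V_shift (pvqc_win w hu) (pvqc_win 0 hρ) z (pvqz_win_sub h1 h2) t _ (pvqc_F_meas 0 ρ) (pvqz_F_loc 0 ρ)

/-! ## 3. the blocks -/

/-- the centre of the block `k` : `w + (ρ₀/2) (k₁ + i k₂)` -/
noncomputable def pvqzC (w : ℂ) (ρ0 : ℝ) (k : ℤ × ℤ) : ℂ := ⟨w.re + ρ0 / 2 * (k.1 : ℝ), w.im + ρ0 / 2 * (k.2 : ℝ)⟩

open Classical in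
/-- the indices of the blocks which meet the annulus `u/2 ≤ ‖·‖_∞ ≤ 5u/2` -/
noncomputable def pvqzB (u ρ0 : ℝ) : Finset (ℤ × ℤ) :=
  (pvmIdx (0, 0) ⌈5 * u / ρ0 + 1⌉₊).filter fun k => u / 2 - ρ0 / 2 ≤ ρ0 / 2 * max |(k.1 : ℝ)| |(k.2 : ℝ)|

theorem pvqz_defs_eqns_cite2 : True := by
  have := @pvqzC.eq_1
  have := @pvqzB.eq_1
  trivial

theorem pvqz_sup_C (w : ℂ) {ρ0 : ℝ} (hρ0 : 0 ≤ ρ0) (k : ℤ × ℤ) : pvqeSup (pvqzC w ρ0 k - w) = ρ0 / 2 * max |(k.1 : ℝ)| |(k.2 : ℝ)| := by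
  unfold pvqeSup pvqzC
  simp only [Complex.sub_re, Complex.sub_im, add_sub_cancel_left]
  rw [abs_mul, abs_mul, abs_of_nonneg (by positivity : 0 ≤ ρ0 / 2), mul_max_of_nonneg _ _ (by positivity : 0 ≤ ρ0 / 2)]

theorem pvqz_mem_B {u ρ0 : ℝ} {k : ℤ × ℤ} : k ∈ pvqzB u ρ0 ↔
    (|k.1| ≤ (⌈5 * u / ρ0 + 1⌉₊ : ℤ) ∧ |k.2| ≤ (⌈5 * u / ρ0 + 1⌉₊ : ℤ)) ∧ u / 2 - ρ0 / 2 ≤ ρ0 / 2 * max |(k.1 : ℝ)| |(k.2 : ℝ)| := by
  unfold pvqzB
  rw [Finset.mem_filter, pvm_mem_Idx]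
  simp

/-- position of the centres of the blocks -/
theorem pvqz_B_pos (w : ℂ) {u ρ0 : ℝ} (hu : 0 ≤ u) (hρ0 : 0 < ρ0) {k : ℤ × ℤ} (hk : k ∈ pvqzB u ρ0) :
    u / 2 - ρ0 / 2 ≤ pvqeSup (pvqzC w ρ0 k - w) ∧ pvqeSup (pvqzC w ρ0 k - w) ≤ 5 * u / 2 + ρ0 := by
  obtain ⟨⟨h1, h2⟩, h3⟩ := pvqz_mem_B.1 hk
  rw [pvqz_sup_C w hρ0.le]
  refine ⟨h3, ?_⟩
  have hN := pvm_ceil_le (x := 5 * u / ρ0 + 1) (by positivity)
  have c1 : |(k.1 : ℝ)| ≤ (⌈5 * u / ρ0 + 1⌉₊ : ℝ) := by exact_mod_cast h1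
  have c2 : |(k.2 : ℝ)| ≤ (⌈5 * u / ρ0 + 1⌉₊ : ℝ) := by exact_mod_cast h2
  have c3 : max |(k.1 : ℝ)| |(k.2 : ℝ)| ≤ 5 * u / ρ0 + 2 := max_le (by linarith) (by linarith)
  calc ρ0 / 2 * max |(k.1 : ℝ)| |(k.2 : ℝ)| ≤ ρ0 / 2 * (5 * u / ρ0 + 2) := mul_le_mul_of_nonneg_left c3 (by positivity)
    _ = 5 * u / 2 + ρ0 := by field_simp

/-- **the blocks cover** the `ρ₀/4`-neighbourhood of the annulus -/
theorem pvqz_cover (w : ℂ) {u ρ0 : ℝ} (hu : 0 ≤ u) (hρ0 : 0 < ρ0) {x : ℂ} (h1 : u / 2 - ρ0 / 4 ≤ pvqeSup (x - w)) (h2 : pvqeSup (x - w) ≤ 5 * u / 2 + ρ0 / 4) :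
    ∃ k ∈ pvqzB u ρ0, pvqeSup (x - pvqzC w ρ0 k) ≤ ρ0 / 4 := by
  have hr : ∀ a : ℝ, |a - ρ0 / 2 * (round (a / (ρ0 / 2)) : ℝ)| ≤ ρ0 / 4 := by
    intro a
    have h := abs_sub_round (a / (ρ0 / 2))
    have e : a - ρ0 / 2 * (round (a / (ρ0 / 2)) : ℝ) = ρ0 / 2 * (a / (ρ0 / 2) - (round (a / (ρ0 / 2)) : ℝ)) := by field_simp
    rw [e, abs_mul, abs_of_nonneg (by positivity : 0 ≤ ρ0 / 2)]
    calc ρ0 / 2 * |a / (ρ0 / 2) - (round (a / (ρ0 / 2)) : ℝ)| ≤ ρ0 / 2 * (1 / 2) := mul_le_mul_of_nonneg_left h (by positivity)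
      _ = ρ0 / 4 := by ring
  set k : ℤ × ℤ := (round ((x - w).re / (ρ0 / 2)), round ((x - w).im / (ρ0 / 2))) with hk
  have hx : pvqeSup (x - pvqzC w ρ0 k) ≤ ρ0 / 4 := by
    unfold pvqeSup pvqzC
    simp only [Complex.sub_re, Complex.sub_im]
    refine max_le ?_ ?_
    · have := hr (x - w).re
      rw [Complex.sub_re] at this
      rwa [← sub_sub]
    · have := hr (x - w).im
      rw [Complex.sub_im] at this
      rwa [← sub_sub]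
  have a1 := pvqe_sup_lip (x - w) (pvqzC w ρ0 k - w)
  have e1 : x - w - (pvqzC w ρ0 k - w) = x - pvqzC w ρ0 k := by ring
  rw [e1, abs_le] at a1
  have hs := pvqz_sup_C w hρ0.le k
  refine ⟨k, pvqz_mem_B.2 ⟨?_, ?_⟩, hx⟩
  · have hmax : max |(k.1 : ℝ)| |(k.2 : ℝ)| ≤ 5 * u / ρ0 + 1 := by
      have h3 : ρ0 / 2 * max |(k.1 : ℝ)| |(k.2 : ℝ)| ≤ 5 * u / 2 + ρ0 / 2 := by rw [← hs]; linarith [a1.1]
      have e2 : 5 * u / 2 + ρ0 / 2 = ρ0 / 2 * (5 * u / ρ0 + 1) := by field_simp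
      rw [e2] at h3
      exact le_of_mul_le_mul_left h3 (by positivity)
    have hN := Nat.le_ceil (5 * u / ρ0 + 1)
    constructor
    · have : |(k.1 : ℝ)| ≤ (⌈5 * u / ρ0 + 1⌉₊ : ℝ) := ((le_max_left _ _).trans hmax).trans hN
      exact_mod_cast this
    · have : |(k.2 : ℝ)| ≤ (⌈5 * u / ρ0 + 1⌉₊ : ℝ) := ((le_max_right _ _).trans hmax).trans hN
      exact_mod_cast this
  · rw [← hs]; linarith [a1.2]

theorem pvqz_B_nonempty {u ρ0 : ℝ} (hu : 0 ≤ u) (hρ0 : 0 < ρ0) : (pvqzB u ρ0).Nonempty := by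
  obtain ⟨k, hk, -⟩ := pvqz_cover 0 hu hρ0 (x := ((u / 2 : ℝ) : ℂ)) (by
    have : pvqeSup (((u / 2 : ℝ) : ℂ) - 0) = u / 2 := by
      simp [pvqeSup, abs_of_nonneg (by positivity : 0 ≤ u / 2)]
      positivity
    rw [this]; linarith) (by
    have : pvqeSup (((u / 2 : ℝ) : ℂ) - 0) = u / 2 := by
      simp [pvqeSup, abs_of_nonneg (by positivity : 0 ≤ u / 2)]
      positivity
    rw [this]; linarith)
  exact ⟨k, hk⟩

/-- **the number of blocks** -/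
theorem pvqz_B_card {u ρ0 : ℝ} (hρ0 : 0 < ρ0) (h : ρ0 ≤ u) : ((pvqzB u ρ0).card : ℝ) ≤ 225 * (u / ρ0) ^ 2 := by
  have h1 : (pvqzB u ρ0).card ≤ (2 * ⌈5 * u / ρ0 + 1⌉₊ + 1) ^ 2 := by
    rw [← pvm_Idx_card (0, 0)]
    exact Finset.card_filter_le _ _
  have hu : 0 < u := hρ0.trans_le h
  have hN := pvm_ceil_le (x := 5 * u / ρ0 + 1) (by positivity)
  have h2 : (1 : ℝ) ≤ u / ρ0 := by rwa [one_le_div hρ0]
  have h3 : ((pvqzB u ρ0).card : ℝ) ≤ ((2 * ⌈5 * u / ρ0 + 1⌉₊ + 1 : ℕ) : ℝ) ^ 2 := by exact_mod_cast h1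
  refine h3.trans ?_
  have e : (225 : ℝ) * (u / ρ0) ^ 2 = (15 * (u / ρ0)) ^ 2 := by ring
  rw [e]
  refine pow_le_pow_left₀ (by positivity) ?_ 2
  push_cast
  have e2 : 5 * u / ρ0 = 5 * (u / ρ0) := by ring
  rw [e2] at hN ⊢
  linarith

/-- the window of a block at a scale `ρ ∈ [ρ₀, u/18]` lies in the big window -/
theorem pvqz_B_win (w : ℂ) {u ρ0 ρ : ℝ} (hρ0 : 0 < ρ0) (h0 : ρ0 ≤ ρ) (h : 18 * ρ ≤ u) {k : ℤ × ℤ} (hk : k ∈ pvqzB u ρ0) :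
    u / 4 + 4 * ρ ≤ pvqeSup (pvqzC w ρ0 k - w) ∧ pvqeSup (pvqzC w ρ0 k - w) + 4 * ρ ≤ 4 * u := by
  have hu : 0 ≤ u := by linarith
  obtain ⟨a, b⟩ := pvqz_B_pos w hu hρ0 hk
  constructor <;> linarith

/-! ## 4. the fine grid event -/

/-- the fine net event of the big annulus: 8 good mesh events of 127 at the mesh `ρ` -/
noncomputable def pvqzNet (w : ℂ) (u ρ : ℝ) : Set (Conf PvPt) := ⋂ k ∈ pvqcCt, pvmGood univ ρ (pvqcC w u k) (3 * u / 2)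

/-- **THE GOOD EVENT**: the `ρ₀/8`-net of the big annulus and the grid events of all the blocks at all the scales `16^j ρ₀`, `j < m` -/
noncomputable def pvqzGd (w : ℂ) (u ρ0 : ℝ) (m : ℕ) : Set (Conf PvPt) :=
  pvqzNet w u (ρ0 / 8) ∩ ⋂ i ∈ pvqzB u ρ0 ×ˢ Finset.range m, pvqcG (pvqzC w ρ0 i.1) (16 ^ i.2 * ρ0)

/-- **`Vd`** = the indicator of the bad event -/
noncomputable def pvqzVd (w : ℂ) (u ρ0 : ℝ) (m : ℕ) : Conf PvPt → ℝ := (pvqzGd w u ρ0 m)ᶜ.indicator fun _ => 1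

theorem pvqz_defs_eqns_cite3 : True := by
  have := @pvqzNet.eq_1
  have := @pvqzGd.eq_1
  have := @pvqzVd.eq_1
  trivial

/-- the 8 squares cover the local region -/
theorem pvqz_K_cover {w : ℂ} {u : ℝ} (hu : 0 < u) {z : ℂ} (hz : z ∈ pvqcK w u) : ∃ k ∈ pvqcCt, z ∈ pvmSq (pvqcC w u k) (3 * u / 2) := by
  obtain ⟨⟨hz1, hz2⟩, hz3⟩ := hz
  rw [abs_le] at hz1 hz2
  have hdir : ∀ x : ℝ, -(7 * u / 2) ≤ x → x ≤ 7 * u / 2 → ∃ a : ℤ, -1 ≤ a ∧ a ≤ 1 ∧ |x - 2 * u * (a : ℝ)| ≤ 3 * u / 2 ∧ (a = 0 → |x| < u / 2) := by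
    intro x h1 h2
    rcases lt_or_ge x (-(u / 2)) with h3 | h3
    · exact ⟨-1, le_rfl, by norm_num, by rw [abs_le]; push_cast; constructor <;> linarith, fun h => by norm_num at h⟩
    · rcases lt_or_ge x (u / 2) with h4 | h4
      · rcases eq_or_lt_of_le h3 with h5 | h5
        · exact ⟨-1, le_rfl, by norm_num, by rw [abs_le]; push_cast; constructor <;> linarith, fun h => by norm_num at h⟩
        · exact ⟨0, by norm_num, by norm_num, by rw [abs_le]; push_cast; constructor <;> linarith, fun _ => abs_lt.2 ⟨h5, h4⟩⟩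
      · exact ⟨1, by norm_num, le_rfl, by rw [abs_le]; push_cast; constructor <;> linarith, fun h => by norm_num at h⟩
  obtain ⟨a, a1, a2, a3, a4⟩ := hdir _ hz1.1 hz1.2
  obtain ⟨b, b1, b2, b3, b4⟩ := hdir _ hz2.1 hz2.2
  refine ⟨(a, b), pvqc_mem_Ct.2 ⟨fun h0 => ?_, ⟨a1, a2⟩, b1, b2⟩, ?_, ?_⟩
  · have ha : a = 0 := congrArg Prod.fst h0
    have hb : b = 0 := congrArg Prod.snd h0
    exact hz3 ⟨a4 ha, b4 hb⟩
  · show |z.re - (w.re + 2 * u * (a : ℝ))| ≤ _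
    rwa [← sub_sub]
  · show |z.im - (w.im + 2 * u * (b : ℝ))| ≤ _
    rwa [← sub_sub]

theorem pvqz_net_meas (w : ℂ) (u ρ : ℝ) : MeasurableSet (pvqzNet w u ρ) :=
  Finset.measurableSet_biInter _ fun _ _ => pvm_good_meas _ _ _ _

theorem pvqz_net_net {w : ℂ} {u ρ : ℝ} (hu : 0 < u) (hρ : 0 < ρ) {ζ : Conf PvPt} (h : ζ ∈ pvqzNet w u ρ) : PvNet ρ (pvqcK w u) ζ := by
  simp only [pvqzNet, mem_iInter] at h
  intro z hz
  obtain ⟨k, hk, hzS⟩ := pvqz_K_cover hu hz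
  obtain ⟨p, hp, -, hpz⟩ := pvm_good_net hρ (h k hk) z hzS
  exact ⟨p, hp, hpz⟩

theorem pvqz_net_mono {w : ℂ} {u ρ : ℝ} {η η' : Conf PvPt} (hη : η.pts ⊆ η'.pts) (h : η ∈ pvqzNet w u ρ) : η' ∈ pvqzNet w u ρ := by
  simp only [pvqzNet, mem_iInter] at h ⊢
  exact fun k hk => pvm_good_mono hη (h k hk)

theorem pvqz_net_loc {w : ℂ} {u ρ : ℝ} (hu : 0 < u) (hρ : 0 < ρ) (hρu : ρ ≤ u / 8) {η η' : Conf PvPt} (hη : ∀ p ∈ pvqcN w u, (p ∈ η.pts ↔ p ∈ η'.pts)) :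
    η ∈ pvqzNet w u ρ ↔ η' ∈ pvqzNet w u ρ := by
  simp only [pvqzNet, mem_iInter]
  have key : ∀ k ∈ pvqcCt, (η ∈ pvmGood univ ρ (pvqcC w u k) (3 * u / 2) ↔ η' ∈ pvmGood univ ρ (pvqcC w u k) (3 * u / 2)) :=
    fun k hk => pvm_good_loc hρ (by positivity) fun p hp => hη p (pvqc_sq_sub_O hu hk (pvm_Sq_mono (by linarith) hp))
  exact ⟨fun h k hk => (key k hk).1 (h k hk), fun h k hk => (key k hk).2 (h k hk)⟩

theorem pvqz_net_prob {ε u ρ : ℝ} (hu : 0 < u) (hρ : 0 < ρ) {μ : Measure (Conf PvPt)} (h : IsPpp (pvInt ε) μ) (w : ℂ) :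
    μ (pvqzNet w u ρ)ᶜ ≤ ENNReal.ofReal (8 * ((6 * u / ρ + 5) ^ 2 * Real.exp (-(ρ ^ 2 / (8 * ε ^ 2))))) := by
  have e : (pvqzNet w u ρ)ᶜ = ⋃ k ∈ pvqcCt, (pvmGood univ ρ (pvqcC w u k) (3 * u / 2))ᶜ := by
    simp only [pvqzNet, compl_iInter]
  rw [e]
  have hb : ∀ k ∈ pvqcCt, μ (pvmGood univ ρ (pvqcC w u k) (3 * u / 2))ᶜ ≤ ENNReal.ofReal ((6 * u / ρ + 5) ^ 2 * Real.exp (-(ρ ^ 2 / (8 * ε ^ 2)))) := by
    intro k _
    refine (pvm_good_prob hρ (by positivity) h univ_nonempty _).trans (le_of_eq ?_)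
    have e1 : 4 * (3 * u / 2) / ρ = 6 * u / ρ := by ring
    rw [e1]
  refine (measure_biUnion_finset_le _ _).trans ((Finset.sum_le_sum hb).trans (le_of_eq ?_))
  rw [Finset.sum_const, pvqc_Ct_card, nsmul_eq_mul, ENNReal.ofReal_mul (by norm_num : (0 : ℝ) ≤ 8)]
  congr 1
  simp

theorem pvqz_Gd_meas (w : ℂ) (u ρ0 : ℝ) (m : ℕ) : MeasurableSet (pvqzGd w u ρ0 m) :=
  (pvqz_net_meas _ _ _).inter (Finset.measurableSet_biInter _ fun _ _ => pvqc_G_meas _ _)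

/-- **what the good event gives (1)**: the fine net of the local region of the big annulus -/
theorem pvqz_Gd_net {w : ℂ} {u ρ0 : ℝ} {m : ℕ} (hu : 0 < u) (hρ0 : 0 < ρ0) {ζ : Conf PvPt} (h : ζ ∈ pvqzGd w u ρ0 m) : PvNet (ρ0 / 8) (pvqcK w u) ζ :=
  pvqz_net_net hu (by positivity) h.1

/-- **what the good event gives (2)**: the grid events of all the blocks at all the scales -/
theorem pvqz_Gd_grid {w : ℂ} {u ρ0 : ℝ} {m : ℕ} {ζ : Conf PvPt} (h : ζ ∈ pvqzGd w u ρ0 m) {k : ℤ × ℤ} (hk : k ∈ pvqzB u ρ0) {j : ℕ} (hj : j < m) :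
    ζ ∈ pvqcG (pvqzC w ρ0 k) (16 ^ j * ρ0) := by
  have h2 := h.2
  simp only [mem_iInter] at h2
  exact h2 (k, j) (Finset.mk_mem_product hk (Finset.mem_range.2 hj))

theorem pvqz_Gd_mono {w : ℂ} {u ρ0 : ℝ} {m : ℕ} {η η' : Conf PvPt} (hη : η.pts ⊆ η'.pts) (h : η ∈ pvqzGd w u ρ0 m) : η' ∈ pvqzGd w u ρ0 m := by
  refine ⟨pvqz_net_mono hη h.1, ?_⟩
  have h2 := h.2
  simp only [mem_iInter] at h2 ⊢
  exact fun i hi => pvqc_G_mono hη (h2 i hi)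

theorem pvqz_scale_pos {ρ0 : ℝ} (hρ0 : 0 < ρ0) (j : ℕ) : 0 < (16 : ℝ) ^ j * ρ0 := by positivity

theorem pvqz_scale_ge {ρ0 : ℝ} (hρ0 : 0 < ρ0) (j : ℕ) : ρ0 ≤ (16 : ℝ) ^ j * ρ0 := by
  have : (1 : ℝ) ≤ 16 ^ j := one_le_pow₀ (by norm_num)
  nlinarith

/-- the window of a block in the space of the coloured points -/
theorem pvqz_N_sub (w : ℂ) {u ρ0 : ℝ} (hρ0 : 0 < ρ0) {k : ℤ × ℤ} (hk : k ∈ pvqzB u ρ0) {j : ℕ} (hj : 18 * (16 ^ j * ρ0) ≤ u) :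
    pvqcN (pvqzC w ρ0 k) (16 ^ j * ρ0) ⊆ pvqcN w u := by
  obtain ⟨a, b⟩ := pvqz_B_win w hρ0 (pvqz_scale_ge hρ0 j) hj hk
  exact fun p hp => pvqz_O_sub a b hp

/-- **the good event is read in the big window** -/
theorem pvqz_Gd_loc {w : ℂ} {u ρ0 : ℝ} {m : ℕ} (hu : 0 < u) (hρ0 : 0 < ρ0) (h0 : ρ0 ≤ u) (hm : ∀ j < m, 18 * (16 ^ j * ρ0) ≤ u) {η η' : Conf PvPt}
    (hη : ∀ p ∈ pvqcN w u, (p ∈ η.pts ↔ p ∈ η'.pts)) : η ∈ pvqzGd w u ρ0 m ↔ η' ∈ pvqzGd w u ρ0 m := by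
  have h1 : η ∈ pvqzNet w u (ρ0 / 8) ↔ η' ∈ pvqzNet w u (ρ0 / 8) := pvqz_net_loc hu (by positivity) (by linarith) hη
  have h2 : ∀ i ∈ pvqzB u ρ0 ×ˢ Finset.range m, (η ∈ pvqcG (pvqzC w ρ0 i.1) (16 ^ i.2 * ρ0) ↔ η' ∈ pvqcG (pvqzC w ρ0 i.1) (16 ^ i.2 * ρ0)) := by
    intro i hi
    obtain ⟨hk, hj⟩ := Finset.mem_product.1 hi
    exact pvqc_G_loc (pvqz_scale_pos hρ0 _) fun p hp => hη p (pvqz_N_sub w hρ0 hk (hm _ (Finset.mem_range.1 hj)) hp)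
  unfold pvqzGd
  simp only [mem_inter_iff, mem_iInter]
  exact ⟨fun h => ⟨h1.1 h.1, fun i hi => (h2 i hi).1 (h.2 i hi)⟩, fun h => ⟨h1.2 h.1, fun i hi => (h2 i hi).2 (h.2 i hi)⟩⟩

theorem pvqz_Gd_restr {w : ℂ} {u ρ0 : ℝ} {m : ℕ} (hu : 0 < u) (hρ0 : 0 < ρ0) (h0 : ρ0 ≤ u) (hm : ∀ j < m, 18 * (16 ^ j * ρ0) ≤ u) (η : Conf PvPt) :
    Conf.restr (pvqcN w u) η ∈ pvqzGd w u ρ0 m ↔ η ∈ pvqzGd w u ρ0 m :=
  pvqz_Gd_loc hu hρ0 h0 hm fun _ hp => ⟨fun h => h.1, fun h => ⟨h, hp⟩⟩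

/-- **probability of the bad event** -/
theorem pvqz_Gd_prob {ε u ρ0 : ℝ} (m : ℕ) (hu : 0 < u) (hρ0 : 0 < ρ0) {μ : Measure (Conf PvPt)} (h : IsPpp (pvInt ε) μ) (w : ℂ) :
    μ (pvqzGd w u ρ0 m)ᶜ ≤ ENNReal.ofReal ((8 * (48 * u / ρ0 + 5) ^ 2 + (pvqzB u ρ0).card * m * (8 * 53 ^ 2)) * Real.exp (-(ρ0 ^ 2 / (512 * ε ^ 2)))) := by
  unfold pvqzGd
  rw [compl_inter]
  refine (measure_union_le _ _).trans ?_
  have h1 := pvqz_net_prob (ρ := ρ0 / 8) hu (by positivity) h w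
  have h2 := pvqc_grid_union hρ0 h (pvqzB u ρ0 ×ˢ Finset.range m) (fun i => pvqzC w ρ0 i.1) (fun i => 16 ^ i.2 * ρ0) (fun i _ => pvqz_scale_ge hρ0 i.2)
  refine (add_le_add h1 h2).trans (le_of_eq ?_)
  rw [← ENNReal.ofReal_add (by positivity) (by positivity)]
  congr 1
  have e1 : 6 * u / (ρ0 / 8) = 48 * u / ρ0 := by field_simp; ring
  have e2 : (ρ0 / 8) ^ 2 / (8 * ε ^ 2) = ρ0 ^ 2 / (512 * ε ^ 2) := by rw [div_pow, div_div]; congr 1; ring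
  rw [e1, e2, Finset.card_product, Finset.card_range]
  push_cast
  ring

theorem pvqz_Vd_of_mem {w : ℂ} {u ρ0 : ℝ} {m : ℕ} {ζ : Conf PvPt} (h : ζ ∈ pvqzGd w u ρ0 m) : pvqzVd w u ρ0 m ζ = 0 :=
  indicator_of_notMem (show ζ ∉ (pvqzGd w u ρ0 m)ᶜ from fun h' => h' h) _

theorem pvqz_Vd_of_notMem {w : ℂ} {u ρ0 : ℝ} {m : ℕ} {ζ : Conf PvPt} (h : ζ ∉ pvqzGd w u ρ0 m) : pvqzVd w u ρ0 m ζ = 1 :=
  indicator_of_mem (show ζ ∈ (pvqzGd w u ρ0 m)ᶜ from h) _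

theorem pvqz_Vd_bd (w : ℂ) (u ρ0 : ℝ) (m : ℕ) : PvqmBd (pvqzVd w u ρ0 m) where
  meas := measurable_const.indicator (pvqz_Gd_meas w u ρ0 m).compl
  nonneg := fun ζ => by
    by_cases h : ζ ∈ pvqzGd w u ρ0 m
    · rw [pvqz_Vd_of_mem h]
    · rw [pvqz_Vd_of_notMem h]; exact zero_le_one
  le_one := fun ζ => by
    by_cases h : ζ ∈ pvqzGd w u ρ0 m
    · rw [pvqz_Vd_of_mem h]; exact zero_le_one
    · rw [pvqz_Vd_of_notMem h]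

/-- the annealed mean of `Vd` in the window = the probability of the bad event in the full plane process -/
theorem pvqz_E_Vd {w : ℂ} {u ρ0 : ℝ} {m : ℕ} (hu : 0 < u) (hρ0 : 0 < ρ0) (h0 : ρ0 ≤ u) (hm : ∀ j < m, 18 * (16 ^ j * ρ0) ≤ u) :
    pvqmE (pvqcO w u) (pvqzVd w u ρ0 m) = (pvP 1 (pvqzGd w u ρ0 m)ᶜ).toReal := by
  unfold pvqmE
  have eI : (pvqmL (pvqcO w u)).prod pvCoin = pvqmI (pvqcO w u) 1 := by simp [pvqmI]
  rw [eI, pvqc_law, integral_map (Conf.measurable_restr (pvqc_N_meas w u)).aemeasurable (pvqz_Vd_bd w u ρ0 m).meas.aestronglyMeasurable]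
  have e : (fun η => pvqzVd w u ρ0 m (Conf.restr (pvqcN w u) η)) = (pvqzGd w u ρ0 m)ᶜ.indicator fun _ => (1 : ℝ) := by
    funext η
    by_cases h : η ∈ pvqzGd w u ρ0 m
    · rw [pvqz_Vd_of_mem ((pvqz_Gd_restr hu hρ0 h0 hm η).2 h), indicator_of_notMem (show η ∉ (pvqzGd w u ρ0 m)ᶜ from fun h' => h' h)]
    · rw [pvqz_Vd_of_notMem (fun h' => h ((pvqz_Gd_restr hu hρ0 h0 hm η).1 h')), indicator_of_mem (show η ∈ (pvqzGd w u ρ0 m)ᶜ from h)]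
  rw [e, integral_indicator (pvqz_Gd_meas w u ρ0 m).compl, setIntegral_const, smul_eq_mul, mul_one, Measure.real]

/-- **the mean of `Vd`** -/
theorem pvqz_E_Vd_le {w : ℂ} {u ρ0 : ℝ} {m : ℕ} (hu : 0 < u) (hρ0 : 0 < ρ0) (h0 : ρ0 ≤ u) (hm : ∀ j < m, 18 * (16 ^ j * ρ0) ≤ u) :
    pvqmE (pvqcO w u) (pvqzVd w u ρ0 m) ≤ (8 * (48 * (u / ρ0) + 5) ^ 2 + 225 * (u / ρ0) ^ 2 * m * (8 * 53 ^ 2)) * Real.exp (-(ρ0 ^ 2 / 512)) := by
  rw [pvqz_E_Vd hu hρ0 h0 hm]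
  have h1 := pvqz_Gd_prob m hu hρ0 (pv_isPpp 1) w
  have h2 := ENNReal.toReal_mono ENNReal.ofReal_ne_top h1
  rw [ENNReal.toReal_ofReal (by positivity)] at h2
  refine h2.trans ?_
  have e1 : ρ0 ^ 2 / (512 * (1 : ℝ) ^ 2) = ρ0 ^ 2 / 512 := by norm_num
  have e2 : 48 * u / ρ0 = 48 * (u / ρ0) := by ring
  rw [e1, e2]
  refine mul_le_mul_of_nonneg_right ?_ (Real.exp_pos _).le
  have h3 := pvqz_B_card hρ0 h0
  have h4 : ((pvqzB u ρ0).card : ℝ) * m * (8 * 53 ^ 2) ≤ 225 * (u / ρ0) ^ 2 * m * (8 * 53 ^ 2) := by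
    refine mul_le_mul_of_nonneg_right (mul_le_mul_of_nonneg_right h3 (Nat.cast_nonneg _)) (by norm_num)
  linarith

/-- **`E Vd → 0`** at fixed ratio `κ = ρ₀/u` and fixed number of scales -/
theorem pvqz_Vd_small {κ : ℝ} (hκ : 0 < κ) (hκ1 : κ ≤ 1) (m : ℕ) (hm : ∀ j < m, 18 * (16 ^ j * κ) ≤ 1) {e : ℝ} (he : 0 < e) :
    ∃ u0 : ℝ, 0 < u0 ∧ ∀ u, u0 ≤ u → ∀ w : ℂ, pvqmE (pvqcO w u) (pvqzVd w u (κ * u) m) ≤ e := by
  set A : ℝ := 8 * (48 * (1 / κ) + 5) ^ 2 + 225 * (1 / κ) ^ 2 * m * (8 * 53 ^ 2) with hA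
  have hA0 : 0 ≤ A := by positivity
  refine ⟨max 1 (512 * A / (κ ^ 2 * e)), lt_of_lt_of_le one_pos (le_max_left _ _), fun u hu w => ?_⟩
  have hu1 : 1 ≤ u := (le_max_left _ _).trans hu
  have hu0 : 0 < u := by linarith
  have hu2 : 512 * A / (κ ^ 2 * e) ≤ u := (le_max_right _ _).trans hu
  have h1 := pvqz_E_Vd_le (w := w) (m := m) hu0 (mul_pos hκ hu0) (by nlinarith) (fun j hj => by
    have := hm j hj
    calc 18 * (16 ^ j * (κ * u)) = 18 * (16 ^ j * κ) * u := by ring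
      _ ≤ 1 * u := mul_le_mul_of_nonneg_right this hu0.le
      _ = u := one_mul u)
  have e1 : u / (κ * u) = 1 / κ := by field_simp
  rw [e1, ← hA] at h1
  refine h1.trans ?_
  set x : ℝ := (κ * u) ^ 2 / 512 with hx
  have hx0 : 0 < x := by positivity
  have h2 : Real.exp (-x) ≤ 1 / x := by
    rw [Real.exp_neg, one_div]
    exact inv_anti₀ hx0 ((by linarith : x ≤ x + 1).trans (Real.add_one_le_exp x))
  have h3 : A * (1 / x) ≤ e := by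
    rw [mul_one_div, div_le_iff₀ hx0, hx]
    rw [div_le_iff₀ (by positivity)] at hu2
    have h4 : u ≤ u ^ 2 := by nlinarith
    have h5 : 512 * A ≤ u ^ 2 * (κ ^ 2 * e) := hu2.trans (mul_le_mul_of_nonneg_right h4 (by positivity))
    have e2 : e * ((κ * u) ^ 2 / 512) = u ^ 2 * (κ ^ 2 * e) / 512 := by ring
    rw [e2, le_div_iff₀ (by norm_num)]
    linarith
  exact (mul_le_mul_of_nonneg_left h2 hA0).trans h3

/-! ## 5. the contract [DOM] and the numbers of [REV] -/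

/-- **[DOM]** (103 / 96, Qbx/Dom.lean; SS1 of 103 + E1 E2 E3 of 30's Qbx/ExplM): the level-1 weight at the scale `u` is dominated by
`C1 · ρ_max/u` + quenched probability of the bad event + quenched probability that no scale blocks at the worst block. -/
def PvqzDom (C1 : ℝ) : Prop :=
  ∀ (u ρ0 : ℝ) (m : ℕ) (t : ℝ), 0 < ρ0 → 0 < m → 18 * (16 ^ (m - 1) * ρ0) ≤ u → PvqmGrid t →
    ∃ G : Conf ℂ → ℝ, PvqmDom (pvqcO 0 u) (pvqcF 0 u) t G ∧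
      ∀ η : Conf ℂ, ∃ b : {k // k ∈ pvqzB u ρ0},
        G η ≤ C1 * (16 ^ (m - 1) * ρ0 / u) + pvqmY (pvqcO 0 u) (pvqzVd 0 u ρ0 m) t (pvqmFs η)
          + pvqmY (pvqcO 0 u) (fun ζ => ∏ j : Fin m, (1 - pvqcF (pvqzC 0 ρ0 b.1) (16 ^ (j : ℕ) * ρ0) ζ)) t (pvqmFs η)

theorem pvqz_defs_eqns_cite4 : True := by
  have := @PvqzDom.eq_1
  trivial

theorem pvqz_scale_le {ρ0 : ℝ} (hρ0 : 0 < ρ0) {m j : ℕ} (hj : j < m) : (16 : ℝ) ^ j * ρ0 ≤ 16 ^ (m - 1) * ρ0 :=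
  mul_le_mul_of_nonneg_right (pow_le_pow_right₀ (by norm_num) (by omega)) hρ0.le

/-- the standing hypothesis, scale by scale -/
theorem pvqz_scale_hyp {u ρ0 : ℝ} (hρ0 : 0 < ρ0) {m : ℕ} (h : 18 * (16 ^ (m - 1) * ρ0) ≤ u) : ∀ j < m, 18 * (16 ^ j * ρ0) ≤ u :=
  fun j hj => by linarith [pvqz_scale_le hρ0 hj]

/-- the windows of one block at the different scales are pairwise disjoint -/
theorem pvqz_O_pairwise (z : ℂ) {ρ0 : ℝ} (hρ0 : 0 < ρ0) (m : ℕ) : Pairwise (Function.onFun Disjoint fun j : Fin m => pvqcO z (16 ^ (j : ℕ) * ρ0)) := by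
  have key : ∀ i j : ℕ, i < j → Disjoint (pvqcO z (16 ^ i * ρ0)) (pvqcO z (16 ^ j * ρ0)) := by
    intro i j hij
    apply pvqc_O_disj
    have h1 : (16 : ℝ) ^ (i + 1) ≤ 16 ^ j := pow_le_pow_right₀ (by norm_num) hij
    calc 16 * (16 ^ i * ρ0) = 16 ^ (i + 1) * ρ0 := by ring
      _ ≤ 16 ^ j * ρ0 := mul_le_mul_of_nonneg_right h1 hρ0.le
  intro i j hij
  rcases lt_or_gt_of_ne (fun h => hij (Fin.ext h) : (i : ℕ) ≠ j) with h | h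
  · exact key _ _ h
  · exact (key _ _ h).symm

/-- **the revealment bound of 233 at the blocks** -/
theorem pvqz_rev (hK : PvqmRepK) (w : ℂ) {u ρ0 : ℝ} {m : ℕ} (hu : 0 < u) (hρ0 : 0 < ρ0) (hm : ∀ j < m, 18 * (16 ^ j * ρ0) ≤ u) {t : ℝ} (ht : PvqmGrid t)
    {c vmax : ℝ} (hc : 0 < c) (hc2 : c ≤ 2) (hE : ∀ j < m, c ≤ pvqmE (pvqcO 0 (16 ^ j * ρ0)) (pvqcF 0 (16 ^ j * ρ0)))
    (hV : ∀ j < m, pvqmV (pvqcO 0 (16 ^ j * ρ0)) (pvqcF 0 (16 ^ j * ρ0)) t ≤ vmax) (p : ℕ) {lam : ℝ} (hlam : 0 < lam) (a : ℝ)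
    (G : Conf ℂ → ℝ) (hG : Integrable G (pppFin (pvqmIp (pvqcO w u) t)))
    (hle : ∀ η : Conf ℂ, ∃ b : {k // k ∈ pvqzB u ρ0},
      G η ≤ a + pvqmY (pvqcO w u) (pvqzVd w u ρ0 m) t (pvqmFs η)
        + pvqmY (pvqcO w u) (fun ζ => ∏ j : Fin m, (1 - pvqcF (pvqzC w ρ0 b.1) (16 ^ (j : ℕ) * ρ0) ζ)) t (pvqmFs η)) :
    ∫ η, G η ∂pppFin (pvqmIp (pvqcO w u) t)
      ≤ a + pvqmE (pvqcO w u) (pvqzVd w u ρ0 m) + (lam + (pvqzB u ρ0).card * (((1 - c / 2) ^ p + 4 * vmax / c ^ 2) ^ m / lam ^ p)) := by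
  have hwin : ∀ (j : Fin m) (b : {k // k ∈ pvqzB u ρ0}), u / 4 + 4 * (16 ^ (j : ℕ) * ρ0) ≤ pvqeSup (pvqzC w ρ0 b.1 - w) ∧
      pvqeSup (pvqzC w ρ0 b.1 - w) + 4 * (16 ^ (j : ℕ) * ρ0) ≤ 4 * u :=
    fun j b => pvqz_B_win w hρ0 (pvqz_scale_ge hρ0 j) (hm j j.2) b.2
  have h := pvqi_rev hK (pvqc_win w hu) ht (ι := Fin m) (B := {k // k ∈ pvqzB u ρ0})
    (N := fun j b => pvqcO (pvqzC w ρ0 b.1) (16 ^ (j : ℕ) * ρ0)) (fun j b => pvqc_O_meas _ _) (fun b => pvqz_O_pairwise _ hρ0 m)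
    (fun j b => pvqcF (pvqzC w ρ0 b.1) (16 ^ (j : ℕ) * ρ0)) (fun j b => pvqz_F_bd _ _) (fun j b => pvqz_F_loc _ _) hc hc2
    (fun j b => by rw [pvqz_E hu (pvqz_scale_pos hρ0 j) (hwin j b).1 (hwin j b).2]; exact hE j j.2)
    (fun j b => by rw [pvqz_V hu (pvqz_scale_pos hρ0 j) (hwin j b).1 (hwin j b).2]; exact hV j j.2)
    p hlam (pvqzVd w u ρ0 m) (pvqz_Vd_bd w u ρ0 m) a G hG hle
  rwa [Fintype.card_coe, Fintype.card_fin] at h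

/-- **[REV] FROM [DOM]**: the numbers.      `c = min c0 2`, `D = 256`, `(1 - c/2)^p ≤ 1/(4D)`, `vb = c²/(16 D)`;  given `e0`: `θ ≤ 1/18`, `λ`, `n` from `pvrb_e0_moment` (233), `κ = θ/16^(n-1)`, `ρ₀ = κ u`, `u0` from `pvqz_Vd_small`. -/
theorem pvqz_Rev (hK : PvqmRepK) {C1 : ℝ} (hC1 : 0 ≤ C1) (hD : PvqzDom C1) : PvqmRev (fun u => pvqcO 0 u) (fun u => pvqcF 0 u) := by
  obtain ⟨c0, hC⟩ := pvqc_C0
  obtain ⟨hc0, hE0⟩ := hC 0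
  set c : ℝ := min c0 2 with hcdef
  have hc : 0 < c := lt_min hc0 (by norm_num)
  have hc2 : c ≤ 2 := min_le_right _ _
  have hcE : ∀ ρ : ℝ, 0 < ρ → c ≤ pvqmE (pvqcO 0 ρ) (pvqcF 0 ρ) := fun ρ hρ => (min_le_left _ _).trans (hE0 ρ hρ)
  obtain ⟨p, hp⟩ := pvrb_exists_p hc hc2 (show (0 : ℝ) < 256 by norm_num)
  refine ⟨c ^ 2 / (16 * 256), by positivity, fun e0 he0 => ?_⟩
  obtain ⟨θ, hθ, hθ0, lam, hlam, n0, H⟩ := pvrb_e0_moment (e := e0 / 2) (C1 := C1) (C2 := 225) (D := 256) (θ0 := 1 / 18) p (by positivity) hC1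
    (by norm_num) (by norm_num) (by norm_num)
  set n : ℕ := max n0 1 with hn
  have hn0 : n0 ≤ n := le_max_left _ _
  have hn1 : 0 < n := lt_of_lt_of_le one_pos (le_max_right _ _)
  have h16 : (0 : ℝ) < 16 ^ (n - 1) := by positivity
  have h16' : (1 : ℝ) ≤ 16 ^ (n - 1) := one_le_pow₀ (by norm_num)
  set κ : ℝ := θ / 16 ^ (n - 1) with hκdef
  have hκ : 0 < κ := by positivity
  have hκθ : 16 ^ (n - 1) * κ = θ := by rw [hκdef]; field_simp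
  have hκle : κ ≤ θ := by rw [← hκθ]; nlinarith
  have hκ1 : κ ≤ 1 := by linarith
  have hmκ : ∀ j < n, 18 * (16 ^ j * κ) ≤ 1 := fun j hj => by
    have := pvqz_scale_le hκ hj
    rw [hκθ] at this
    linarith
  obtain ⟨u0, hu0, hVd⟩ := pvqz_Vd_small hκ hκ1 n hmκ (e := e0 / 2) (by positivity)
  refine ⟨κ, θ, u0, hκ, hκ1, hu0, fun u t hu ht hV => ?_⟩
  have hupos : 0 < u := hu0.trans_le hu
  have hρ0 : 0 < κ * u := mul_pos hκ hupos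
  have htop : 16 ^ (n - 1) * (κ * u) = θ * u := by rw [← mul_assoc, hκθ]
  have h18 : 18 * (16 ^ (n - 1) * (κ * u)) ≤ u := by rw [htop]; nlinarith
  obtain ⟨G, hDom, hle⟩ := hD u (κ * u) n t hρ0 hn1 h18 ht
  refine ⟨G, hDom, ?_⟩
  have hVj : ∀ j < n, pvqmV (pvqcO 0 (16 ^ j * (κ * u))) (pvqcF 0 (16 ^ j * (κ * u))) t ≤ c ^ 2 / (16 * 256) := fun j hj =>
    hV _ ⟨pvqz_scale_ge hρ0 j, by rw [← htop]; exact pvqz_scale_le hρ0 hj⟩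
  have h1 := pvqz_rev hK 0 hupos hρ0 (pvqz_scale_hyp hρ0 h18) ht hc hc2 (fun j _ => hcE _ (pvqz_scale_pos hρ0 j)) hVj p hlam _ G hDom.2.1 hle
  have hrho := pvrb_rho_le (p := p) hc (show (0 : ℝ) < 256 by norm_num) hp (le_refl (c ^ 2 / (16 * 256)))
  have hrho0 : 0 ≤ (1 - c / 2) ^ p + 4 * (c ^ 2 / (16 * 256)) / c ^ 2 := by
    have : 0 ≤ 1 - c / 2 := by linarith
    positivity
  have hcard : ((pvqzB u (κ * u)).card : ℝ) ≤ 225 * θ⁻¹ ^ 2 * 256 ^ n := by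
    refine (pvqz_B_card hρ0 (by nlinarith)).trans ?_
    have e1 : u / (κ * u) = θ⁻¹ * 16 ^ (n - 1) := by
      rw [hκdef]; field_simp
    have e2 : ((16 : ℝ) ^ (n - 1)) ^ 2 = 256 ^ (n - 1) := by
      rw [← pow_mul, mul_comm, pow_mul]; norm_num
    rw [e1, mul_pow, e2, ← mul_assoc]
    refine mul_le_mul_of_nonneg_left (pow_le_pow_right₀ (by norm_num) (Nat.sub_le _ _)) (by positivity)
  have h2 := H n hn0 _ hrho0 hrho _ hcard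
  have e3 : C1 * (16 ^ (n - 1) * (κ * u) / u) = C1 * θ := by
    rw [htop]; field_simp
  rw [e3] at h1
  have h3 := hVd u hu 0
  linarith

end Claimed.Agent.R289
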