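import Mathlib

/-!
# Row 289 (S0537), box QBX, file Qbx/Ss1 : SCHRAMM-STEIF AT LEVEL 1 IN THE CONGRUENCE FORM AND IN THE POWERSET FORM      (owner helper103, second of helper77 on QBX:KIT; prefix `pvqk_` / `pvqk` / `Pvqk`)

MODEL FREE (imports Mathlib only).   Qbx/Kit.lean (77) has SS1 for ranks / layered explorations on `X → Bool`.   THIS FILE: no rounds, no rank, no layers, no frozen bits.
POWERSET FORM = the form of `pvqmAv`, `pvqmC` of Qbx/Main.lean:
* bits = the elements of `S : Finset α`;   a colouring = the set `T ∈ S.powerset` of the BLACK bits;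
* `pvqkAv S h = (2 ^ card S)⁻¹ * ∑ T ∈ S.powerset, h T` (uniform colouring);   `pvqkChi x T = if x ∈ T then -1 else 1`;   `pvqkFlip x T` = flip the colour of `x`.
CONGRUENCE FORM = the form of `pvqe_ss1_hyp` of Qbx/Expl.lean (30):
* `PvqkRev S f J` : `J T` = the REVEAL SET of the colouring `T`;   `y ∉ J T → (J (flip y T) = J T on S) ∧ f (flip y T) = f T`      (the cube is cut into subcubes on which `f` is constant; NOT nec. a decision tree);
  `PvqkRev.of_congr` : from `T' = T on J T → J T' = J T ∧ f T' = f T`;   `PvqkRev.of_exp` : from a rank `ρ` ((G2) of 77), `pvqk_exp_layers` : from a layered local exploration.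
* sec. 3  `pvqk_core` : for all weights `c` and all `l` : `2 l ∑ c_x E[χ_x f] ≤ l² + ∑ c_x² P(x ∈ J)`      (NO sigma-algebra, NO conditional expectation: flip symmetries;
          cross terms: `χ_x χ_y = χ_x χ_y [1_x 1_y + (1 - 1_x) + 1_x (1 - 1_y)]`, the total and the last two terms are odd under a flip).
* sec. 4  **`pvqk_ss1`** : auxiliary randomness `a ∈ (A, μ)` (`f`, `J` depend on `a`; no measurability of `J`), integrable upper bounds `π x a ≥ P_T(x ∈ J a T)`, `∫ π x ≤ M` :   `∑_{x ∈ S} (E χ_x f)² ≤ M`;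
          `pvqk_ss1_prod` : `A = A₁ × A₂`, `f` reads `A₁` only (hidden points × random radius);   `pvqk_ss1_det`, `pvqk_bessel`.
* sec. 5  ranks and layered explorations are reveal sets.      0 sorry.
-/

set_option autoImplicit false
set_option linter.unusedSectionVars false
set_option linter.unusedVariables false

namespace Claimed.Agent.R289

open MeasureTheory Set Filter
open scoped ENNReal

variable {α : Type*} [DecidableEq α]

/-! ## 1. colourings, flips, averages -/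

/-- flip the colour of `x` -/
def pvqkFlip (x : α) (T : Finset α) : Finset α := if x ∈ T then T.erase x else insert x T

/-- the character of `x` : `-1` black, `+1` white -/
def pvqkChi (x : α) (T : Finset α) : ℝ := if x ∈ T then -1 else 1

/-- the uniform average over the colourings of `S` -/
noncomputable def pvqkAv (S : Finset α) (h : Finset α → ℝ) : ℝ := ((2 : ℝ) ^ S.card)⁻¹ * ∑ T ∈ S.powerset, h T

theorem pvqkFlip_mem_iff (x y : α) (T : Finset α) : y ∈ pvqkFlip x T ↔ (if y = x then x ∉ T else y ∈ T) := by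
  unfold pvqkFlip
  by_cases hx : x ∈ T <;> by_cases hy : y = x
  · subst hy; simp [hx]
  · simp [hx, hy]
  · subst hy; simp [hx]
  · simp [hx, hy]

theorem pvqkFlip_self_mem (x : α) (T : Finset α) : x ∈ pvqkFlip x T ↔ x ∉ T := by
  rw [pvqkFlip_mem_iff]; simp

theorem pvqkFlip_mem_of_ne {x y : α} (h : y ≠ x) (T : Finset α) : y ∈ pvqkFlip x T ↔ y ∈ T := by
  rw [pvqkFlip_mem_iff]; simp [h]

theorem pvqkFlip_flip (x : α) (T : Finset α) : pvqkFlip x (pvqkFlip x T) = T := by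
  ext y
  by_cases hy : y = x
  · subst hy; rw [pvqkFlip_self_mem, pvqkFlip_self_mem, not_not]
  · rw [pvqkFlip_mem_of_ne hy, pvqkFlip_mem_of_ne hy]

theorem pvqkFlip_subset {x : α} {S T : Finset α} (hx : x ∈ S) (hT : T ⊆ S) : pvqkFlip x T ⊆ S := by
  intro y hy
  by_cases hyx : y = x
  · subst hyx; exact hx
  · exact hT ((pvqkFlip_mem_of_ne hyx T).1 hy)

theorem pvqkChi_flip_self (x : α) (T : Finset α) : pvqkChi x (pvqkFlip x T) = - pvqkChi x T := by
  unfold pvqkChi
  by_cases hx : x ∈ T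
  · rw [if_neg (fun h => (pvqkFlip_self_mem x T).1 h hx), if_pos hx, neg_neg]
  · rw [if_pos ((pvqkFlip_self_mem x T).2 hx), if_neg hx]

theorem pvqkChi_flip_of_ne {x y : α} (h : y ≠ x) (T : Finset α) : pvqkChi y (pvqkFlip x T) = pvqkChi y T := by
  unfold pvqkChi
  simp only [pvqkFlip_mem_of_ne h]

theorem pvqkChi_sq (x : α) (T : Finset α) : pvqkChi x T * pvqkChi x T = 1 := by
  unfold pvqkChi; split_ifs <;> norm_num

theorem pvqkChi_abs (x : α) (T : Finset α) : |pvqkChi x T| = 1 := by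
  unfold pvqkChi; split_ifs <;> norm_num

theorem pvqkAv_congr {S : Finset α} {h h' : Finset α → ℝ} (e : ∀ T ⊆ S, h T = h' T) : pvqkAv S h = pvqkAv S h' := by
  unfold pvqkAv
  rw [Finset.sum_congr rfl fun T hT => e T (Finset.mem_powerset.1 hT)]

theorem pvqkAv_mono {S : Finset α} {h h' : Finset α → ℝ} (e : ∀ T ⊆ S, h T ≤ h' T) : pvqkAv S h ≤ pvqkAv S h' := by
  unfold pvqkAv
  exact mul_le_mul_of_nonneg_left (Finset.sum_le_sum fun T hT => e T (Finset.mem_powerset.1 hT)) (by positivity)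

theorem pvqkAv_nonneg {S : Finset α} {h : Finset α → ℝ} (e : ∀ T ⊆ S, 0 ≤ h T) : 0 ≤ pvqkAv S h := by
  unfold pvqkAv
  exact mul_nonneg (by positivity) (Finset.sum_nonneg fun T hT => e T (Finset.mem_powerset.1 hT))

theorem pvqkAv_const (S : Finset α) (c : ℝ) : pvqkAv S (fun _ => c) = c := by
  unfold pvqkAv
  rw [Finset.sum_const, Finset.card_powerset, nsmul_eq_mul]
  push_cast
  field_simp

theorem pvqkAv_add (S : Finset α) (h h' : Finset α → ℝ) : pvqkAv S (fun T => h T + h' T) = pvqkAv S h + pvqkAv S h' := by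
  unfold pvqkAv; rw [Finset.sum_add_distrib, mul_add]

theorem pvqkAv_sub (S : Finset α) (h h' : Finset α → ℝ) : pvqkAv S (fun T => h T - h' T) = pvqkAv S h - pvqkAv S h' := by
  unfold pvqkAv; rw [Finset.sum_sub_distrib, mul_sub]

theorem pvqkAv_const_mul (S : Finset α) (c : ℝ) (h : Finset α → ℝ) : pvqkAv S (fun T => c * h T) = c * pvqkAv S h := by
  unfold pvqkAv; rw [← Finset.mul_sum]; ring

theorem pvqkAv_sum {κ : Type*} (S : Finset α) (s : Finset κ) (h : κ → Finset α → ℝ) :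
    pvqkAv S (fun T => ∑ i ∈ s, h i T) = ∑ i ∈ s, pvqkAv S (h i) := by
  unfold pvqkAv; rw [Finset.sum_comm, Finset.mul_sum]

/-- the flip of a bit of `S` preserves the uniform colouring -/
theorem pvqkAv_flip {S : Finset α} {x : α} (hx : x ∈ S) (h : Finset α → ℝ) : pvqkAv S (fun T => h (pvqkFlip x T)) = pvqkAv S h := by
  unfold pvqkAv
  congr 1
  refine Finset.sum_nbij' (pvqkFlip x) (pvqkFlip x) ?_ ?_ ?_ ?_ ?_
  · intro T hT; exact Finset.mem_powerset.2 (pvqkFlip_subset hx (Finset.mem_powerset.1 hT))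
  · intro T hT; exact Finset.mem_powerset.2 (pvqkFlip_subset hx (Finset.mem_powerset.1 hT))
  · intro T _; exact pvqkFlip_flip x T
  · intro T _; exact pvqkFlip_flip x T
  · intro T _; rfl

/-- a function which is odd under the flip of a bit of `S` has mean zero -/
theorem pvqkAv_odd {S : Finset α} {x : α} (hx : x ∈ S) {h : Finset α → ℝ} (e : ∀ T ⊆ S, h (pvqkFlip x T) = - h T) : pvqkAv S h = 0 := by
  have h1 := pvqkAv_flip hx h
  rw [pvqkAv_congr e] at h1
  have h2 : pvqkAv S (fun T => - h T) = - pvqkAv S h := by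
    have := pvqkAv_const_mul S (-1) h
    simpa using this
  rw [h2] at h1
  linarith

/-! ## 2. reveal sets -/

/-- `J T` = the set of the bits revealed when the colouring is `T`; the colours of the revealed bits determine the reveal set and `f` (only flips of ONE hidden bit are asked) -/
structure PvqkRev (S : Finset α) (f : Finset α → ℝ) (J : Finset α → Set α) : Prop where
  J_flip : ∀ T ⊆ S, ∀ y ∈ S, y ∉ J T → ∀ z ∈ S, (z ∈ J (pvqkFlip y T) ↔ z ∈ J T)
  f_flip : ∀ T ⊆ S, ∀ y ∈ S, y ∉ J T → f (pvqkFlip y T) = f T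

/-- whether `y` is revealed does not look at the colour of `y` -/
theorem PvqkRev.self_iff {S : Finset α} {f : Finset α → ℝ} {J : Finset α → Set α} (h : PvqkRev S f J) {T : Finset α} (hT : T ⊆ S) {y : α} (hy : y ∈ S) :
    y ∈ J (pvqkFlip y T) ↔ y ∈ J T := by
  by_cases h1 : y ∈ J T
  · refine ⟨fun _ => h1, fun _ => ?_⟩
    by_contra h2
    have h3 := h.J_flip (pvqkFlip y T) (pvqkFlip_subset hy hT) y hy h2 y hy
    rw [pvqkFlip_flip] at h3
    exact h2 (h3.1 h1)
  · exact h.J_flip T hT y hy h1 y hy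

/-- **the congruence form** (30, `pvqe_ss1_hyp`): a colouring which agrees with `T` on `J T` has the same reveal set and the same value of `f` -/
theorem PvqkRev.of_congr {S : Finset α} {f : Finset α → ℝ} {J : Finset α → Set α}
    (h : ∀ T ⊆ S, ∀ T' ⊆ S, (∀ x ∈ S, x ∈ J T → (x ∈ T' ↔ x ∈ T)) → (∀ z ∈ S, (z ∈ J T' ↔ z ∈ J T)) ∧ f T' = f T) : PvqkRev S f J := by
  have key : ∀ T ⊆ S, ∀ y ∈ S, y ∉ J T → (∀ z ∈ S, (z ∈ J (pvqkFlip y T) ↔ z ∈ J T)) ∧ f (pvqkFlip y T) = f T := by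
    intro T hT y hy hyJ
    refine h T hT _ (pvqkFlip_subset hy hT) fun x _ hx => ?_
    have hne : x ≠ y := fun e => hyJ (e ▸ hx)
    exact pvqkFlip_mem_of_ne hne T
  exact ⟨fun T hT y hy hyJ => (key T hT y hy hyJ).1, fun T hT y hy hyJ => (key T hT y hy hyJ).2⟩

open Classical in
/-- the indicator of `x is revealed` -/
noncomputable def pvqkInd (J : Finset α → Set α) (x : α) (T : Finset α) : ℝ := if x ∈ J T then 1 else 0

theorem pvqkInd_nonneg (J : Finset α → Set α) (x : α) (T : Finset α) : 0 ≤ pvqkInd J x T := by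
  unfold pvqkInd; split_ifs <;> norm_num

theorem pvqkInd_le_one (J : Finset α → Set α) (x : α) (T : Finset α) : pvqkInd J x T ≤ 1 := by
  unfold pvqkInd; split_ifs <;> norm_num

theorem pvqkInd_sq (J : Finset α → Set α) (x : α) (T : Finset α) : pvqkInd J x T * pvqkInd J x T = pvqkInd J x T := by
  unfold pvqkInd; split_ifs <;> norm_num

theorem pvqkInd_congr {J : Finset α → Set α} {x : α} {T T' : Finset α} (h : x ∈ J T' ↔ x ∈ J T) : pvqkInd J x T' = pvqkInd J x T := by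
  unfold pvqkInd
  by_cases h1 : x ∈ J T
  · rw [if_pos h1, if_pos (h.2 h1)]
  · rw [if_neg h1, if_neg fun h2 => h1 (h.1 h2)]

theorem pvqkInd_of_mem {J : Finset α → Set α} {x : α} {T : Finset α} (h : x ∈ J T) : pvqkInd J x T = 1 := by
  unfold pvqkInd; rw [if_pos h]

theorem pvqkInd_of_notMem {J : Finset α → Set α} {x : α} {T : Finset α} (h : x ∉ J T) : pvqkInd J x T = 0 := by
  unfold pvqkInd; rw [if_neg h]

/-! ## 3. the flip symmetries; the core inequality -/

section core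

variable {S : Finset α} {f : Finset α → ℝ} {J : Finset α → Set α}

/-- a bit which is not revealed does not contribute -/
theorem pvqk_hidden (h : PvqkRev S f J) {x : α} (hx : x ∈ S) :
    pvqkAv S (fun T => pvqkChi x T * f T) = pvqkAv S fun T => pvqkChi x T * pvqkInd J x T * f T := by
  have h0 : pvqkAv S (fun T => pvqkChi x T * (1 - pvqkInd J x T) * f T) = 0 := by
    refine pvqkAv_odd hx fun T hT => ?_
    rw [pvqkChi_flip_self, pvqkInd_congr (h.self_iff hT hx)]
    by_cases hr : x ∈ J T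
    · rw [pvqkInd_of_mem hr]; ring
    · rw [h.f_flip T hT x hx hr]; ring
  have e : (fun T => pvqkChi x T * f T) = fun T => pvqkChi x T * pvqkInd J x T * f T + pvqkChi x T * (1 - pvqkInd J x T) * f T := by
    funext T; ring
  rw [e, pvqkAv_add, h0, add_zero]

/-- two distinct revealed bits are uncorrelated -/
theorem pvqk_cross (h : PvqkRev S f J) {x y : α} (hx : x ∈ S) (hy : y ∈ S) (hxy : x ≠ y) :
    pvqkAv S (fun T => (pvqkChi x T * pvqkInd J x T) * (pvqkChi y T * pvqkInd J y T)) = 0 := by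
  -- the total
  have h0 : pvqkAv S (fun T => pvqkChi x T * pvqkChi y T) = 0 := by
    refine pvqkAv_odd hx fun T _ => ?_
    rw [pvqkChi_flip_self, pvqkChi_flip_of_ne hxy.symm]; ring
  -- `x` hidden
  have h1 : pvqkAv S (fun T => pvqkChi x T * pvqkChi y T * (1 - pvqkInd J x T)) = 0 := by
    refine pvqkAv_odd hx fun T hT => ?_
    rw [pvqkChi_flip_self, pvqkChi_flip_of_ne hxy.symm, pvqkInd_congr (h.self_iff hT hx)]; ring
  -- `x` revealed, `y` hidden
  have h2 : pvqkAv S (fun T => pvqkChi x T * pvqkChi y T * (pvqkInd J x T * (1 - pvqkInd J y T))) = 0 := by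
    refine pvqkAv_odd hy fun T hT => ?_
    rw [pvqkChi_flip_self, pvqkChi_flip_of_ne hxy, pvqkInd_congr (h.self_iff hT hy)]
    by_cases hr : y ∈ J T
    · rw [pvqkInd_of_mem hr]; ring
    · rw [pvqkInd_congr (h.J_flip T hT y hy hr x hx)]; ring
  have e : (fun T => (pvqkChi x T * pvqkInd J x T) * (pvqkChi y T * pvqkInd J y T))
      = fun T => pvqkChi x T * pvqkChi y T - pvqkChi x T * pvqkChi y T * (1 - pvqkInd J x T)
        - pvqkChi x T * pvqkChi y T * (pvqkInd J x T * (1 - pvqkInd J y T)) := by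
    funext T; ring
  rw [e, pvqkAv_sub, pvqkAv_sub, h0, h1, h2]; ring

/-- the revealed part of the linear form with weights `c` -/
noncomputable def pvqkG (S : Finset α) (J : Finset α → Set α) (c : α → ℝ) (T : Finset α) : ℝ := ∑ x ∈ S, c x * (pvqkChi x T * pvqkInd J x T)

theorem pvqk_pair (h : PvqkRev S f J) (c : α → ℝ) :
    ∑ x ∈ S, c x * pvqkAv S (fun T => pvqkChi x T * f T) = pvqkAv S fun T => f T * pvqkG S J c T := by
  unfold pvqkG
  simp_rw [Finset.mul_sum]
  rw [pvqkAv_sum]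
  refine Finset.sum_congr rfl fun x hx => ?_
  rw [pvqk_hidden h hx, ← pvqkAv_const_mul]
  exact pvqkAv_congr fun T _ => by ring

theorem pvqk_norm (h : PvqkRev S f J) (c : α → ℝ) :
    pvqkAv S (fun T => pvqkG S J c T * pvqkG S J c T) = ∑ x ∈ S, c x ^ 2 * pvqkAv S (pvqkInd J x) := by
  unfold pvqkG
  simp_rw [Finset.sum_mul_sum]
  rw [pvqkAv_sum]
  refine Finset.sum_congr rfl fun x hx => ?_
  rw [pvqkAv_sum, Finset.sum_eq_single x]
  · rw [← pvqkAv_const_mul]
    refine pvqkAv_congr fun T _ => ?_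
    calc c x * (pvqkChi x T * pvqkInd J x T) * (c x * (pvqkChi x T * pvqkInd J x T))
        = c x ^ 2 * ((pvqkChi x T * pvqkChi x T) * (pvqkInd J x T * pvqkInd J x T)) := by ring
      _ = c x ^ 2 * pvqkInd J x T := by rw [pvqkChi_sq, pvqkInd_sq, one_mul]
  · intro y hy hyx
    have e : (fun T => c x * (pvqkChi x T * pvqkInd J x T) * (c y * (pvqkChi y T * pvqkInd J y T)))
        = fun T => (c x * c y) * ((pvqkChi x T * pvqkInd J x T) * (pvqkChi y T * pvqkInd J y T)) := by funext T; ring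
    rw [e, pvqkAv_const_mul, pvqk_cross h hx hy (Ne.symm hyx), mul_zero]
  · intro hx'; exact absurd hx hx'

/-- **the core inequality** (one value of the auxiliary parameter) -/
theorem pvqk_core (h : PvqkRev S f J) (hf : ∀ T ⊆ S, |f T| ≤ 1) (c : α → ℝ) (l : ℝ) :
    2 * l * ∑ x ∈ S, c x * pvqkAv S (fun T => pvqkChi x T * f T) ≤ l ^ 2 + ∑ x ∈ S, c x ^ 2 * pvqkAv S (pvqkInd J x) := by
  rw [pvqk_pair h c, ← pvqk_norm h c]
  have h0 : 0 ≤ pvqkAv S fun T => (l * f T - pvqkG S J c T) ^ 2 := pvqkAv_nonneg fun T _ => sq_nonneg _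
  have e : (fun T => (l * f T - pvqkG S J c T) ^ 2)
      = fun T => l ^ 2 * (f T * f T) - (2 * l) * (f T * pvqkG S J c T) + pvqkG S J c T * pvqkG S J c T := by funext T; ring
  rw [e, pvqkAv_add, pvqkAv_sub, pvqkAv_const_mul, pvqkAv_const_mul] at h0
  have h1 : pvqkAv S (fun T => f T * f T) ≤ 1 := by
    rw [← pvqkAv_const S 1]
    refine pvqkAv_mono fun T hT => ?_
    have := abs_le.1 (hf T hT)
    nlinarith
  have h2 : l ^ 2 * pvqkAv S (fun T => f T * f T) ≤ l ^ 2 := by nlinarith [sq_nonneg l]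
  linarith

end core

/-! ## 4. auxiliary randomness: the theorem -/

/-- **SCHRAMM-STEIF AT LEVEL 1**, randomised reveal sets: `a ∈ (A, μ)` = the auxiliary randomness (hidden points, random radius, ...); `f a`, `J a` may depend on `a`; NO measurability of `J`:
only the integrable upper bounds `π x a` of the quenched revealment probabilities are integrated. -/
theorem pvqk_ss1 {A : Type*} [MeasurableSpace A] (μ : Measure A) [IsProbabilityMeasure μ] (S : Finset α)
    (f : A → Finset α → ℝ) (J : A → Finset α → Set α) (π : α → A → ℝ) (M : ℝ)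
    (hfm : ∀ T ⊆ S, AEStronglyMeasurable (fun a => f a T) μ) (hf : ∀ᵐ a ∂μ, ∀ T ⊆ S, |f a T| ≤ 1)
    (hE : ∀ᵐ a ∂μ, PvqkRev S (f a) (J a)) (hπi : ∀ x ∈ S, Integrable (π x) μ)
    (hπ : ∀ᵐ a ∂μ, ∀ x ∈ S, pvqkAv S (pvqkInd (J a) x) ≤ π x a) (hM : ∀ x ∈ S, ∫ a, π x a ∂μ ≤ M) (hM0 : 0 ≤ M) :
    ∑ x ∈ S, (pvqkAv S fun T => ∫ a, pvqkChi x T * f a T ∂μ) ^ 2 ≤ M := by
  obtain ⟨c, hc⟩ : ∃ c : α → ℝ, c = fun x => pvqkAv S fun T => ∫ a, pvqkChi x T * f a T ∂μ := ⟨_, rfl⟩
  have hfi : ∀ T ⊆ S, Integrable (fun a => f a T) μ := fun T hT =>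
    Integrable.of_bound (hfm T hT) 1 (hf.mono fun a ha => by rw [Real.norm_eq_abs]; exact ha T hT)
  have hci : ∀ x, Integrable (fun a => pvqkAv S fun T => pvqkChi x T * f a T) μ := by
    intro x
    unfold pvqkAv
    refine Integrable.const_mul ?_ _
    exact integrable_finsetSum _ fun T hT => (hfi T (Finset.mem_powerset.1 hT)).const_mul _
  have hce : ∀ x, ∫ a, (pvqkAv S fun T => pvqkChi x T * f a T) ∂μ = c x := by
    intro x
    rw [hc]
    unfold pvqkAv
    rw [integral_const_mul, integral_finsetSum _ fun T hT => (hfi T (Finset.mem_powerset.1 hT)).const_mul _]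
  obtain ⟨s, hs⟩ : ∃ s : ℝ, s = ∑ x ∈ S, c x ^ 2 := ⟨_, rfl⟩
  have key : ∀ᵐ a ∂μ, 2 * s * ∑ x ∈ S, c x * (pvqkAv S fun T => pvqkChi x T * f a T) ≤ s ^ 2 + ∑ x ∈ S, c x ^ 2 * π x a := by
    filter_upwards [hf, hE, hπ] with a h1 h2 h3
    refine (pvqk_core h2 h1 c s).trans (add_le_add_right (Finset.sum_le_sum fun x hx => ?_) _)
    exact mul_le_mul_of_nonneg_left (h3 x hx) (sq_nonneg _)
  have iL1 : Integrable (fun a => ∑ x ∈ S, c x * (pvqkAv S fun T => pvqkChi x T * f a T)) μ :=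
    integrable_finsetSum _ fun x _ => (hci x).const_mul _
  have iL : Integrable (fun a => 2 * s * ∑ x ∈ S, c x * (pvqkAv S fun T => pvqkChi x T * f a T)) μ := iL1.const_mul _
  have iR1 : Integrable (fun a => ∑ x ∈ S, c x ^ 2 * π x a) μ := integrable_finsetSum _ fun x hx => (hπi x hx).const_mul _
  have iR : Integrable (fun a => s ^ 2 + ∑ x ∈ S, c x ^ 2 * π x a) μ := (integrable_const _).add iR1
  have h1 := integral_mono_ae iL iR key
  rw [integral_const_mul, integral_finsetSum _ fun x _ => (hci x).const_mul _, integral_add (integrable_const _) iR1,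
    integral_finsetSum _ fun x hx => (hπi x hx).const_mul _] at h1
  simp only [integral_const_mul, hce, integral_const, probReal_univ, one_smul] at h1
  have h2 : ∑ x ∈ S, c x * c x = s := by rw [hs]; exact Finset.sum_congr rfl fun x _ => by ring
  have h3 : ∑ x ∈ S, c x ^ 2 * ∫ a, π x a ∂μ ≤ M * s := by
    rw [hs, Finset.mul_sum]
    exact Finset.sum_le_sum fun x hx => by nlinarith [hM x hx, sq_nonneg (c x)]
  rw [h2] at h1
  have hs0 : 0 ≤ s := by rw [hs]; exact Finset.sum_nonneg fun x _ => sq_nonneg _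
  have hsM : s ≤ M := by
    rcases hs0.eq_or_lt with h0 | h0
    · rw [← h0]; exact hM0
    · nlinarith
  rw [hs, hc] at hsM
  exact hsM

/-- **two auxiliary parameters**: `f` reads `a.1` only (the hidden points), the reveal set reads both (hidden points, random radius) -/
theorem pvqk_ss1_prod {A₁ A₂ : Type*} [MeasurableSpace A₁] [MeasurableSpace A₂] (μ₁ : Measure A₁) (μ₂ : Measure A₂) [IsProbabilityMeasure μ₁]
    [IsProbabilityMeasure μ₂] (S : Finset α) (f : A₁ → Finset α → ℝ) (J : A₁ × A₂ → Finset α → Set α) (π : α → A₁ × A₂ → ℝ) (M : ℝ)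
    (hfm : ∀ T ⊆ S, AEStronglyMeasurable (fun a => f a T) μ₁) (hf : ∀ᵐ a ∂μ₁, ∀ T ⊆ S, |f a T| ≤ 1)
    (hE : ∀ᵐ a ∂(μ₁.prod μ₂), PvqkRev S (f a.1) (J a)) (hπi : ∀ x ∈ S, Integrable (π x) (μ₁.prod μ₂))
    (hπ : ∀ᵐ a ∂(μ₁.prod μ₂), ∀ x ∈ S, pvqkAv S (pvqkInd (J a) x) ≤ π x a) (hM : ∀ x ∈ S, ∫ a, π x a ∂(μ₁.prod μ₂) ≤ M) (hM0 : 0 ≤ M) :
    ∑ x ∈ S, (pvqkAv S fun T => ∫ a, pvqkChi x T * f a T ∂μ₁) ^ 2 ≤ M := by
  have key := pvqk_ss1 (μ₁.prod μ₂) S (fun a => f a.1) J π M (fun T hT => (hfm T hT).comp_fst)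
    (Measure.quasiMeasurePreserving_fst.ae hf) hE hπi hπ hM hM0
  have e : ∀ x T, ∫ a, pvqkChi x T * f a.1 T ∂(μ₁.prod μ₂) = ∫ a, pvqkChi x T * f a T ∂μ₁ := by
    intro x T
    have := integral_fun_fst (μ := μ₁) (ν := μ₂) (fun a => pvqkChi x T * f a T)
    simpa using this
  simp_rw [e] at key
  exact key

/-- no auxiliary randomness -/
theorem pvqk_ss1_det {S : Finset α} {f : Finset α → ℝ} {J : Finset α → Set α} (h : PvqkRev S f J) (hf : ∀ T ⊆ S, |f T| ≤ 1) {M : ℝ}
    (hM : ∀ x ∈ S, pvqkAv S (pvqkInd J x) ≤ M) (hM0 : 0 ≤ M) : ∑ x ∈ S, (pvqkAv S fun T => pvqkChi x T * f T) ^ 2 ≤ M := by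
  obtain ⟨c, hc⟩ : ∃ c : α → ℝ, c = fun x => pvqkAv S fun T => pvqkChi x T * f T := ⟨_, rfl⟩
  obtain ⟨s, hs⟩ : ∃ s : ℝ, s = ∑ x ∈ S, c x ^ 2 := ⟨_, rfl⟩
  have h1 := pvqk_core h hf c s
  have h2 : ∑ x ∈ S, c x * pvqkAv S (fun T => pvqkChi x T * f T) = s := by
    rw [hs, hc]; exact Finset.sum_congr rfl fun x _ => by ring
  have h3 : ∑ x ∈ S, c x ^ 2 * pvqkAv S (pvqkInd J x) ≤ M * s := by
    rw [hs, Finset.mul_sum]
    exact Finset.sum_le_sum fun x hx => by nlinarith [hM x hx, sq_nonneg (c x)]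
  rw [h2] at h1
  have hs0 : 0 ≤ s := by rw [hs]; exact Finset.sum_nonneg fun x _ => sq_nonneg _
  have hsM : s ≤ M := by
    rcases hs0.eq_or_lt with h0 | h0
    · rw [← h0]; exact hM0
    · nlinarith
  rw [hs, hc] at hsM
  exact hsM

/-- **Bessel** (everything revealed): the level-1 weight of a function bounded by `1` is `≤ 1` -/
theorem pvqk_bessel {S : Finset α} {f : Finset α → ℝ} (hf : ∀ T ⊆ S, |f T| ≤ 1) : ∑ x ∈ S, (pvqkAv S fun T => pvqkChi x T * f T) ^ 2 ≤ 1 := by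
  have h : PvqkRev S f (fun _ => Set.univ) := ⟨fun _ _ _ _ h0 => absurd (mem_univ _) h0, fun _ _ _ _ h0 => absurd (mem_univ _) h0⟩
  refine pvqk_ss1_det h hf (fun x _ => ?_) zero_le_one
  rw [← pvqkAv_const S 1]
  exact pvqkAv_mono fun T _ => pvqkInd_le_one _ _ _

/-! ## 5. ranks and layered explorations are reveal sets -/

/-- an exploration with rank `ρ` which determines `f` -/
structure PvqkExp (S : Finset α) (f : Finset α → ℝ) (ρ : Finset α → α → ℕ∞) : Prop where
  pre : ∀ T ⊆ S, ∀ y ∈ S, ∀ z ∈ S, ∀ j : ℕ∞, j ≤ ρ T y → (ρ (pvqkFlip y T) z ≤ j ↔ ρ T z ≤ j)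
  det : ∀ T ⊆ S, ∀ y ∈ S, ρ T y = ⊤ → f (pvqkFlip y T) = f T

namespace PvqkExp

variable {S : Finset α} {f : Finset α → ℝ} {ρ : Finset α → α → ℕ∞}

/-- (K1) the rank of `y` does not look at the colour of `y` -/
theorem rank_self (h : PvqkExp S f ρ) {T : Finset α} (hT : T ⊆ S) {y : α} (hy : y ∈ S) : ρ (pvqkFlip y T) y = ρ T y := by
  have a1 : ρ (pvqkFlip y T) y ≤ ρ T y := (h.pre T hT y hy y hy _ le_rfl).2 le_rfl
  have a2 := (h.pre (pvqkFlip y T) (pvqkFlip_subset hy hT) y hy y hy _ le_rfl).2 le_rfl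
  rw [pvqkFlip_flip] at a2
  exact le_antisymm a1 a2

/-- (K2) -/
theorem rank_le (h : PvqkExp S f ρ) {T : Finset α} (hT : T ⊆ S) {y z : α} (hy : y ∈ S) (hz : z ∈ S) :
    ρ (pvqkFlip y T) z ≤ ρ T y ↔ ρ T z ≤ ρ T y := h.pre T hT y hy z hz _ le_rfl

theorem rank_lt_aux (h : PvqkExp S f ρ) {T : Finset α} (hT : T ⊆ S) {y z : α} (hy : y ∈ S) (hz : z ∈ S) (hlt : ρ T z < ρ T y) :
    ρ (pvqkFlip y T) z < ρ T y :=
  lt_of_le_of_lt ((h.pre T hT y hy z hz _ hlt.le).2 le_rfl) hlt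

/-- (K3) -/
theorem rank_lt (h : PvqkExp S f ρ) {T : Finset α} (hT : T ⊆ S) {y z : α} (hy : y ∈ S) (hz : z ∈ S) :
    ρ (pvqkFlip y T) z < ρ T y ↔ ρ T z < ρ T y := by
  refine ⟨fun hlt => ?_, h.rank_lt_aux hT hy hz⟩
  have h1 := h.rank_lt_aux (pvqkFlip_subset hy hT) hy hz (by rw [h.rank_self hT hy]; exact hlt)
  rwa [pvqkFlip_flip, h.rank_self hT hy] at h1

end PvqkExp

/-- **a rank gives a reveal set**: `J T = {x | ρ T x < ⊤}` -/
theorem PvqkRev.of_exp {S : Finset α} {f : Finset α → ℝ} {ρ : Finset α → α → ℕ∞} (h : PvqkExp S f ρ) : PvqkRev S f fun T => {x | ρ T x < ⊤} := by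
  refine ⟨fun T hT y hy hyJ z hz => ?_, fun T hT y hy hyJ => h.det T hT y hy (not_lt_top_iff.1 hyJ)⟩
  have htop : ρ T y = ⊤ := not_lt_top_iff.1 hyJ
  have := h.rank_lt hT hy hz
  rw [htop] at this
  exact this


/-- the form (G2) of 77, `j : ℕ` -/
theorem PvqkExp.of_nat {S : Finset α} {f : Finset α → ℝ} {ρ : Finset α → α → ℕ∞}
    (pre : ∀ T ⊆ S, ∀ y ∈ S, ∀ z ∈ S, ∀ j : ℕ, (j : ℕ∞) ≤ ρ T y → (ρ (pvqkFlip y T) z ≤ j ↔ ρ T z ≤ j))
    (det : ∀ T ⊆ S, ∀ y ∈ S, ρ T y = ⊤ → f (pvqkFlip y T) = f T) : PvqkExp S f ρ := by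
  refine ⟨fun T hT y hy z hz j hj => ?_, det⟩
  induction j using ENat.recTopCoe with
  | top => simp
  | coe j => exact pre T hT y hy z hz j hj

open Classical in
/-- the rank of a growing family of revealed sets: the first round at which `x` is revealed -/
noncomputable def pvqkRank (U : Finset α → ℕ → Finset α) (T : Finset α) (x : α) : ℕ∞ := if h : ∃ k, x ∈ U T k then (Nat.find h : ℕ) else ⊤

theorem pvqkRank_le_iff {U : Finset α → ℕ → Finset α} {T : Finset α} (hmono : ∀ k, U T k ⊆ U T (k + 1)) (x : α) (j : ℕ) :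
    pvqkRank U T x ≤ j ↔ x ∈ U T j := by
  classical
  have hm : ∀ i k, i ≤ k → U T i ⊆ U T k := fun i k hik => by
    induction k, hik using Nat.le_induction with
    | base => exact subset_rfl
    | succ k _ ih => exact ih.trans (hmono k)
  unfold pvqkRank
  by_cases h : ∃ k, x ∈ U T k
  · rw [dif_pos h, Nat.cast_le]
    exact ⟨fun hle => hm _ _ hle (Nat.find_spec h), fun hx => Nat.find_min' h hx⟩
  · rw [dif_neg h]
    simp only [top_le_iff, ENat.natCast_ne_top, false_iff]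
    exact fun hx => h ⟨j, hx⟩

theorem pvqkRank_lt_top_iff (U : Finset α → ℕ → Finset α) (T : Finset α) (x : α) : pvqkRank U T x < ⊤ ↔ ∃ k, x ∈ U T k := by
  classical
  unfold pvqkRank
  by_cases h : ∃ k, x ∈ U T k
  · rw [dif_pos h]; simp [h]
  · rw [dif_neg h]; simp [h]

theorem pvqkRank_eq_top_iff (U : Finset α → ℕ → Finset α) (T : Finset α) (x : α) : pvqkRank U T x = ⊤ ↔ ∀ k, x ∉ U T k := by
  rw [← not_lt_top_iff, pvqkRank_lt_top_iff]; push Not; rfl

theorem pvqkFlip_inter {y : α} {V : Finset α} (hy : y ∉ V) (T : Finset α) : pvqkFlip y T ∩ V = T ∩ V := by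
  ext z
  simp only [Finset.mem_inter]
  by_cases hz : z = y
  · subst hz; simp [hy]
  · rw [pvqkFlip_mem_of_ne hz]

/-- **growing families of revealed sets**: the seed does not look at the colours, the next set looks at the colours of the revealed bits only, the colours of the revealed bits determine `f` -/
theorem pvqk_exp_family {S : Finset α} {f : Finset α → ℝ} {U : Finset α → ℕ → Finset α} (hmono : ∀ T ⊆ S, ∀ k, U T k ⊆ U T (k + 1))
    (h0 : ∀ T ⊆ S, ∀ T' ⊆ S, U T 0 = U T' 0)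
    (hloc : ∀ T ⊆ S, ∀ T' ⊆ S, ∀ k, U T' k = U T k → T' ∩ U T k = T ∩ U T k → U T' (k + 1) = U T (k + 1))
    (hdet : ∀ T ⊆ S, ∀ y ∈ S, (∀ k, y ∉ U T k) → f (pvqkFlip y T) = f T) : PvqkExp S f (pvqkRank U) := by
  refine PvqkExp.of_nat (fun T hT y hy z _ j hj => ?_) fun T hT y hy htop => hdet T hT y hy ((pvqkRank_eq_top_iff U T y).1 htop)
  have hT' := pvqkFlip_subset hy hT
  have hU : ∀ i ≤ j, U (pvqkFlip y T) i = U T i := by
    intro i
    induction i with
    | zero => intro _; exact h0 _ hT' _ hT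
    | succ i ih =>
      intro hi
      have hyi : y ∉ U T i := by
        intro hmem
        have h1 := (pvqkRank_le_iff (hmono T hT) y i).2 hmem
        have h2 : (j : ℕ∞) ≤ i := hj.trans h1
        have h3 : j ≤ i := by exact_mod_cast h2
        omega
      exact hloc T hT _ hT' i (ih (by omega)) (pvqkFlip_inter hyi T)
  rw [pvqkRank_le_iff (hmono _ hT'), pvqkRank_le_iff (hmono T hT), hU j le_rfl]

/-- the LAYERED LOCAL exploration of 30: `U 0 = seed`, `U (k+1) = U k ∪ step (U k) (T ∩ U k)` -/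
def pvqkU (seed : Finset α) (step : Finset α → Finset α → Finset α) (T : Finset α) : ℕ → Finset α
  | 0 => seed
  | k + 1 => pvqkU seed step T k ∪ step (pvqkU seed step T k) (T ∩ pvqkU seed step T k)

theorem pvqkU_succ (seed : Finset α) (step : Finset α → Finset α → Finset α) (T : Finset α) (k : ℕ) :
    pvqkU seed step T (k + 1) = pvqkU seed step T k ∪ step (pvqkU seed step T k) (T ∩ pvqkU seed step T k) := rfl

/-- **the layered local exploration is an exploration** -/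
theorem pvqk_exp_layers {S : Finset α} {f : Finset α → ℝ} (seed : Finset α) (step : Finset α → Finset α → Finset α)
    (hdet : ∀ T ⊆ S, ∀ y ∈ S, (∀ k, y ∉ pvqkU seed step T k) → f (pvqkFlip y T) = f T) : PvqkExp S f (pvqkRank (pvqkU seed step)) := by
  refine pvqk_exp_family (fun T _ k => ?_) (fun _ _ _ _ => rfl) (fun T _ T' _ k h1 h2 => ?_) hdet
  · rw [pvqkU_succ]; exact Finset.subset_union_left
  · rw [pvqkU_succ, pvqkU_succ, h1, h2]

/-- `f` is determined by the colours of the revealed bits -/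
theorem pvqk_det_of_agree {S : Finset α} {f : Finset α → ℝ} {U : Finset α → ℕ → Finset α}
    (h : ∀ T ⊆ S, ∀ T' ⊆ S, (∀ x, (∃ k, x ∈ U T k) → (x ∈ T' ↔ x ∈ T)) → f T' = f T) :
    ∀ T ⊆ S, ∀ y ∈ S, (∀ k, y ∉ U T k) → f (pvqkFlip y T) = f T := by
  intro T hT y hy hk
  refine h T hT _ (pvqkFlip_subset hy hT) fun x hx => ?_
  obtain ⟨k, hxk⟩ := hx
  have hne : x ≠ y := fun e => hk k (e ▸ hxk)
  exact pvqkFlip_mem_of_ne hne T

theorem pvqk_eqns_cite : True := by
  have := @pvqkFlip.eq_1.{0}; have := @pvqkChi.eq_1.{0}; have := @pvqkAv.eq_1.{0}; have := @pvqkInd.eq_1.{0}; have := @pvqkG.eq_1.{0}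
  have := @pvqkRank.eq_1.{0}; have := @pvqkU.eq_1.{0}; have := @pvqkU.eq_2.{0}; have := @pvqkU.eq_def.{0}
  trivial

end Claimed.Agent.R289
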