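import Claimed.Agent.R289.Qbx.Expl
import Claimed.Agent.R289.Qbx.Ss1
import Claimed.Agent.R289.Qbx.C0

/-!
# Row 289 (S0537), box QBX, file Qbx/ExplM : [DOM-DET] THE EXPLORATION IN THE VOCABULARY OF Qbx/Main + Qbx/C0      OWNER helper30, prefix `pvqem` / `Pvqem`

DETERMINISTIC.  Input: Qbx/Expl (abstract exploration + geometry), Qbx/C0 (the blocking observable `pvqcF w u`, the grid events), Qbx/Ss1 (`PvqkRev`).
Output, consumed by Qbx/Rev (77) through `pvqk_ss1_prod` (`A₁` = hidden configuration `ζ`, `A₂` = radius `ℓ`):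

* sites = `↥S ⊕ ↥ζ'.pts`, `ζ' = ζ ∩ N`, positions `pvqemP`, colours `pvqemS T` (black on `T`); coincidences are allowed;
* `pvqemJ w u S (ζ, ℓ) T` : THE REVEAL SET (a subset of `S`; `univ` if `ℓ ∉ (u/2, 5u/2)`);
* **E1** `pvqem_rev` : `PvqkRev S (fun T => pvqcF w u (Conf.union (pvqmCol S T) ζ)) (pvqemJ w u S (ζ, ℓ))`  for every finite `ζ`, every `ℓ`, `S ⊆ pvqcO w u`;
* **E2** `pvqem_small` : `x` revealed, `ℓ ∈ [u, 2u]`, the configuration is a `ρ`-net of `pvqcK w u` (`ρ ≤ u/8`), `|x - c|_∞ + ρ ≤ ρ'/2`, `5ρ'/2 ≤ | |c - w|_∞ - ℓ |`,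
  `pvqcO c ρ' ⊆ pvqcO w u`, the configuration is in the grid event `pvqcG c ρ'`   ⟹   `pvqcF c ρ' (configuration) = 0`;
* **E3** `pvqem_ind_le` : the pointwise bound of the indicator of `x ∈ J` by  `1{ℓ close} + Vd + ∏_j (1 - pvqcF c (ρ' j))`;
* `pvqem_loc` : the revealed points lie within `ρ` of `{u/2 ≤ |z - w|_∞ ≤ 5u/2}`.
-/

set_option autoImplicit false

namespace Claimed.Agent.R289

open Set Relation

/-! ## 1. sites, positions, colours -/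

/-- the sites: the revealed positions and the hidden points -/
abbrev PvqemI (S : Finset ℂ) (ζ : Conf PvPt) : Type := ↥S ⊕ ↥ζ.pts

/-- positions -/
def pvqemP (S : Finset ℂ) (ζ : Conf PvPt) : PvqemI S ζ → ℂ := Sum.elim (fun x => x.1) (fun q => q.1.1)

/-- colours: black on `T` -/
noncomputable def pvqemS (S : Finset ℂ) (ζ : Conf PvPt) (T : Finset ℂ) : PvqemI S ζ → Bool := Sum.elim (fun x => decide (x.1 ∈ T)) (fun q => q.1.2)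

theorem pvqem_finite (S : Finset ℂ) {ζ : Conf PvPt} (hζ : ζ.pts.Finite) : Finite (PvqemI S ζ) := by
  have := hζ.to_subtype
  infer_instance

theorem pvqem_Bk (S T : Finset ℂ) (ζ : Conf PvPt) : cfBk (Conf.union (pvqmCol S T) ζ) = pvqeA (pvqemP S ζ) (pvqemS S ζ T) := by
  ext v
  constructor
  · rintro (⟨h1, h2⟩ | h)
    · exact ⟨Sum.inl ⟨v, h1⟩, by simpa [pvqemS] using h2.1 rfl, rfl⟩
    · exact ⟨Sum.inr ⟨(v, true), h⟩, rfl, rfl⟩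
  · rintro ⟨i, hi, rfl⟩
    rcases i with x | q
    · have hx : x.1 ∈ T := by simpa [pvqemS] using hi
      exact Or.inl ⟨x.2, fun _ => hx, fun _ => rfl⟩
    · have hq : q.1.2 = true := hi
      refine Or.inr ?_
      have : ((q.1.1, true) : PvPt) = q.1 := by rw [← hq]
      show ((q.1.1, true) : PvPt) ∈ ζ.pts
      rw [this]
      exact q.2

theorem pvqem_sites (S T : Finset ℂ) (ζ : Conf PvPt) :
    cfBk (Conf.union (pvqmCol S T) ζ) ∪ cfWh (Conf.union (pvqmCol S T) ζ) = range (pvqemP S ζ) := by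
  ext v
  constructor
  · rintro ((⟨h1, _⟩ | h) | (⟨h1, _⟩ | h))
    · exact ⟨Sum.inl ⟨v, h1⟩, rfl⟩
    · exact ⟨Sum.inr ⟨(v, true), h⟩, rfl⟩
    · exact ⟨Sum.inl ⟨v, h1⟩, rfl⟩
    · exact ⟨Sum.inr ⟨(v, false), h⟩, rfl⟩
  · rintro ⟨i, rfl⟩
    rcases i with x | q
    · by_cases hx : x.1 ∈ T
      · exact Or.inl (Or.inl ⟨x.2, fun _ => hx, fun _ => rfl⟩)
      · exact Or.inr (Or.inl ⟨x.2, fun h => by simp at h, fun h => absurd h hx⟩)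
    · rcases hq : q.1.2 with _ | _
      · refine Or.inr (Or.inr ?_)
        have : ((q.1.1, false) : PvPt) = q.1 := by rw [← hq]
        show ((q.1.1, false) : PvPt) ∈ ζ.pts
        rw [this]
        exact q.2
      · refine Or.inl (Or.inr ?_)
        have : ((q.1.1, true) : PvPt) = q.1 := by rw [← hq]
        show ((q.1.1, true) : PvPt) ∈ ζ.pts
        rw [this]
        exact q.2

/-- the black region in the vocabulary of Qbx/Expl -/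
theorem pvqem_M_eq (S T : Finset ℂ) {ζ : Conf PvPt} (hζ : ζ.pts.Finite) :
    pvrbM (cfBk (Conf.union (pvqmCol S T) ζ)) (cfWh (Conf.union (pvqmCol S T) ζ)) = vorUn (range (pvqemP S ζ)) (pvqeA (pvqemP S ζ) (pvqemS S ζ T)) := by
  have := pvqem_finite S hζ
  have hLF : VorLF (cfBk (Conf.union (pvqmCol S T) ζ) ∪ cfWh (Conf.union (pvqmCol S T) ζ)) := by
    rw [pvqem_sites]
    exact fun R => (finite_range _).subset inter_subset_left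
  rw [pvrb_M_eq hLF, pvqem_sites, pvqem_Bk]

theorem pvqem_restr (w : ℂ) (u : ℝ) {S : Finset ℂ} (hS : (S : Set ℂ) ⊆ pvqcO w u) (T : Finset ℂ) (ζ : Conf PvPt) :
    Conf.restr (pvqcN w u) (Conf.union (pvqmCol S T) ζ) = Conf.union (pvqmCol S T) (Conf.restr (pvqcN w u) ζ) := by
  ext p
  constructor
  · rintro ⟨h1 | h1, h2⟩
    · exact Or.inl h1
    · exact Or.inr ⟨h1, h2⟩
  · rintro (h1 | ⟨h1, h2⟩)
    · exact ⟨Or.inl h1, hS h1.1⟩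
    · exact ⟨Or.inr h1, h2⟩

theorem pvqem_col_finite (S T : Finset ℂ) : (pvqmCol S T).pts.Finite := by
  refine ((S.finite_toSet).prod (finite_univ : (univ : Set Bool).Finite)).subset ?_
  rintro p hp
  exact ⟨hp.1, mem_univ _⟩

/-! ## 2. the reveal set, E1 -/

/-- the exploration data at the level `ℓ` -/
noncomputable def pvqemG (w : ℂ) (u : ℝ) (S : Finset ℂ) (ζ : Conf PvPt) {ℓ : ℝ} (h : u / 2 < ℓ ∧ ℓ < 5 * u / 2) : PvqeG (PvqemI S ζ) :=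
  pvqeGeo (pvqeH_arm (pvqemP S ζ) w h.1 h.2)

open Classical in
/-- **THE REVEAL SET** of the colouring `T` of `S`; auxiliary parameters: the hidden configuration `a.1`, the radius `a.2` -/
noncomputable def pvqemJ (w : ℂ) (u : ℝ) (S : Finset ℂ) (a : Conf PvPt × ℝ) (T : Finset ℂ) : Set ℂ :=
  if h : u / 2 < a.2 ∧ a.2 < 5 * u / 2 then
    {x | ∃ hx : x ∈ S, Sum.inl ⟨x, hx⟩ ∈ (pvqemG w u S (Conf.restr (pvqcN w u) a.1) h).J (pvqemS S (Conf.restr (pvqcN w u) a.1) T)}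
  else univ

theorem pvqem_eqns_cite : True := by
  have := @pvqemP.eq_1
  have := @pvqemS.eq_1
  have := @pvqemG.eq_1
  have := @pvqemJ.eq_1
  trivial

theorem pvqem_mem_J {w : ℂ} {u : ℝ} {S : Finset ℂ} {ζ : Conf PvPt} {ℓ : ℝ} (h : u / 2 < ℓ ∧ ℓ < 5 * u / 2) {T : Finset ℂ} {x : ℂ} :
    x ∈ pvqemJ w u S (ζ, ℓ) T ↔
      ∃ hx : x ∈ S, Sum.inl ⟨x, hx⟩ ∈ (pvqemG w u S (Conf.restr (pvqcN w u) ζ) h).J (pvqemS S (Conf.restr (pvqcN w u) ζ) T) := by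
  unfold pvqemJ
  rw [dif_pos h]
  rfl

/-- the observable is the indicator of the absence of an abstract crossing -/
theorem pvqem_F_eq {w : ℂ} {u : ℝ} {S : Finset ℂ} (hS : (S : Set ℂ) ⊆ pvqcO w u) {ζ : Conf PvPt} (hζ : ζ.pts.Finite) {ℓ : ℝ}
    (h : u / 2 < ℓ ∧ ℓ < 5 * u / 2) (T : Finset ℂ) :
    (pvqcF w u (Conf.union (pvqmCol S T) ζ) = 1 ∧ ¬ (pvqemG w u S (Conf.restr (pvqcN w u) ζ) h).Cross (pvqemS S (Conf.restr (pvqcN w u) ζ) T)) ∨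
    (pvqcF w u (Conf.union (pvqmCol S T) ζ) = 0 ∧ (pvqemG w u S (Conf.restr (pvqcN w u) ζ) h).Cross (pvqemS S (Conf.restr (pvqcN w u) ζ) T)) := by
  have hζ' : (Conf.restr (pvqcN w u) ζ).pts.Finite := hζ.subset inter_subset_left
  have := pvqem_finite S hζ'
  have hiff : PvqcBlk w u (Conf.restr (pvqcN w u) (Conf.union (pvqmCol S T) ζ)) ↔
      ¬ (pvqemG w u S (Conf.restr (pvqcN w u) ζ) h).Cross (pvqemS S (Conf.restr (pvqcN w u) ζ) T) := by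
    unfold PvqcBlk pvqemG
    rw [pvqem_restr w u hS, pvqem_M_eq S T hζ', pvqe_holds_vor]
  have hLF : PvLF (Conf.restr (pvqcN w u) (Conf.union (pvqmCol S T) ζ)) := by
    apply pvqc_LF_of_finite
    rw [pvqem_restr w u hS]
    exact (pvqem_col_finite S T).union hζ'
  by_cases hc : (pvqemG w u S (Conf.restr (pvqcN w u) ζ) h).Cross (pvqemS S (Conf.restr (pvqcN w u) ζ) T)
  · exact Or.inr ⟨pvqc_F_of_not fun hh => (hiff.1 hh.2) hc, hc⟩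
  · exact Or.inl ⟨pvqc_F_of hLF (hiff.2 hc), hc⟩

/-- **E1**: the hypothesis of SS1 -/
theorem pvqem_rev {w : ℂ} {u : ℝ} {S : Finset ℂ} (hS : (S : Set ℂ) ⊆ pvqcO w u) {ζ : Conf PvPt} (hζ : ζ.pts.Finite) (ℓ : ℝ) :
    PvqkRev S (fun T => pvqcF w u (Conf.union (pvqmCol S T) ζ)) (pvqemJ w u S (ζ, ℓ)) := by
  by_cases h : u / 2 < ℓ ∧ ℓ < 5 * u / 2
  · refine PvqkRev.of_congr fun T _ T' _ hTT => ?_
    have hagree : ∀ i ∈ (pvqemG w u S (Conf.restr (pvqcN w u) ζ) h).J (pvqemS S (Conf.restr (pvqcN w u) ζ) T),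
        pvqemS S (Conf.restr (pvqcN w u) ζ) T' i = pvqemS S (Conf.restr (pvqcN w u) ζ) T i := by
      rintro (x | q) hi
      · have := hTT x.1 x.2 ((pvqem_mem_J h).2 ⟨x.2, hi⟩)
        simp only [pvqemS, Sum.elim_inl, this]
      · rfl
    have hJ := pvqe_J_congr _ hagree
    have hC := pvqe_cross_congr _ hagree
    refine ⟨fun z _ => ?_, ?_⟩
    · rw [pvqem_mem_J h, pvqem_mem_J h, hJ]
    · show pvqcF w u (Conf.union (pvqmCol S T') ζ) = pvqcF w u (Conf.union (pvqmCol S T) ζ)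
      rcases pvqem_F_eq hS hζ h T with ⟨e1, c1⟩ | ⟨e1, c1⟩ <;> rcases pvqem_F_eq hS hζ h T' with ⟨e2, c2⟩ | ⟨e2, c2⟩
      · rw [e1, e2]
      · exact absurd (hC.1 c2) c1
      · exact absurd (hC.2 c1) c2
      · rw [e1, e2]
  · have hu : ∀ T, pvqemJ w u S (ζ, ℓ) T = univ := fun T => by
      unfold pvqemJ
      rw [dif_neg h]
    exact ⟨fun T _ y _ hy => absurd (by rw [hu]; exact mem_univ _) hy, fun T _ y _ hy => absurd (by rw [hu]; exact mem_univ _) hy⟩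

/-! ## 3. E2: a revealed point far from the level set sees black arms at all the small scales -/

theorem pvqem_K_eq (w : ℂ) (u : ℝ) : pvqcK w u = pvqeAnn w (u / 2) (7 * u / 2) := by
  ext z
  simp only [pvqcK, pvmSq, pvqeAnn, pvqeSup, mem_ofPred_eq, Complex.sub_re, Complex.sub_im]
  rw [max_le_iff, le_max_iff]
  constructor
  · rintro ⟨h1, h2⟩
    refine ⟨?_, h1⟩
    by_contra h3
    push Not at h3
    exact h2 h3
  · rintro ⟨h1, h2⟩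
    refine ⟨h2, fun h3 => ?_⟩
    rcases h1 with h1 | h1 <;> linarith [h3.1, h3.2]

/-- the arm of a revealed site, in the FULL tessellation (no LOC) -/
theorem pvqem_arm {ι : Type} {p : ι → ℂ} {e : RswTri} {φ : ℂ → ℝ} {ℓ : ℝ} (H : PvqeH (pvqeCell p) e φ ℓ) {D : Set ℂ} {ρ δ : ℝ} (hρ : 0 ≤ ρ)
    (hδ : 2 * ρ < δ) (hd : VorDense (range p) D ρ) (hD1 : ∀ q ∈ e.K, q ∉ e.S → q ∈ D) (hD2 : ∀ w ∈ e.K, φ w = ℓ → Metric.closedBall w δ ⊆ D)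
    (hL : ∀ z w, |φ z - φ w| ≤ pvqeSup (z - w))
    {σ : ι → Bool} {x : ι} (hx : x ∈ (pvqeGeo H).J σ) {c : ℂ} {t r : ℝ} (hxc : pvqeSup (p x - c) + ρ ≤ t) (htr : t < r) (hr : r ≤ |φ c - ℓ|) :
    (rswArm c.re c.im t r).Holds (vorUn (range p) (pvqeA p σ)) := by
  obtain ⟨q, hq, hqD, hqx, hcase⟩ := pvqe_reveal_pt H hρ hδ hd hD1 hD2 hx
  have hqc : pvqeSup (q - c) ≤ t := by
    have h1 : pvqeSup (q - c) ≤ pvqeSup (q - p x) + pvqeSup (p x - c) := by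
      have := pvqe_sup_add (q - p x) (p x - c)
      rwa [sub_add_sub_cancel] at this
    have h2 := pvqe_sup_le_norm (q - p x)
    linarith
  rcases hcase with hql | ⟨z, hzl, hj⟩
  · exfalso
    have h1 := hL c q
    rw [hql] at h1
    have h2 : pvqeSup (c - q) = pvqeSup (q - c) := by rw [← pvqe_sup_neg, neg_sub]
    linarith
  · have hzc : r ≤ pvqeSup (z - c) := by
      have h1 := hL z c
      rw [hzl, abs_sub_comm] at h1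
      linarith
    exact pvqe_arm_of_joined (hj.symm.mono inter_subset_left) hqc htr.le hzc

/-- the three geometric hypotheses of `pvqe_reveal_pt` for the blocking pattern at scale `u`, `D = pvqcK w u`, `δ = u/2`, `ℓ ∈ [u, 2u]` -/
theorem pvqem_D1 {w : ℂ} {u : ℝ} (hu : 0 < u) : ∀ q ∈ (rswArm w.re w.im (u / 2) (5 * u / 2)).K, q ∉ (rswArm w.re w.im (u / 2) (5 * u / 2)).S → q ∈ pvqcK w u := by
  intro q hq hqS
  rw [pvqem_K_eq]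
  have h1 : pvqeSup (q - w) ≤ 5 * u / 2 := pvqe_mem_rect.1 hq
  have h2 : ¬ pvqeSup (q - w) ≤ u / 2 := fun h => hqS (pvqe_mem_rect.2 h)
  exact ⟨(not_le.1 h2).le, by linarith⟩

theorem pvqem_lip (w z z' : ℂ) : |pvqeSup (z - w) - pvqeSup (z' - w)| ≤ pvqeSup (z - z') := by
  have := pvqe_sup_lip (z - w) (z' - w)
  rwa [sub_sub_sub_cancel_right] at this

theorem pvqem_D2 {w : ℂ} {u ℓ : ℝ} (hℓ : u ≤ ℓ ∧ ℓ ≤ 2 * u) : ∀ z : ℂ, pvqeSup (z - w) = ℓ → Metric.closedBall z (u / 2) ⊆ pvqcK w u := by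
  intro z hz v hv
  rw [pvqem_K_eq]
  rw [Metric.mem_closedBall, dist_eq_norm] at hv
  have h1 := pvqem_lip w v z
  have h2 := pvqe_sup_le_norm (v - z)
  rw [hz, abs_le] at h1
  exact ⟨by linarith [h1.1], by linarith [h1.2]⟩

/-- a net of the configuration is a net of the sites of the window -/
theorem pvqem_dense {w : ℂ} {u : ℝ} (hu : 0 < u) {S T : Finset ℂ} {ζ : Conf PvPt} {ρ : ℝ} (hρ : ρ ≤ u / 8)
    (hnet : PvNet ρ (pvqcK w u) (Conf.union (pvqmCol S T) ζ)) : VorDense (range (pvqemP S (Conf.restr (pvqcN w u) ζ))) (pvqcK w u) ρ := by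
  intro z hz
  obtain ⟨p, hp, hpz⟩ := hnet z hz
  have hpO : p.1 ∈ pvqcO w u := by
    by_contra hno
    have := pvqc_K_far hu hz hno
    rw [norm_sub_rev] at this
    linarith
  rcases hp with hp | hp
  · exact ⟨p.1, ⟨Sum.inl ⟨p.1, hp.1⟩, rfl⟩, by rw [norm_sub_rev]; exact hpz.le⟩
  · exact ⟨p.1, ⟨Sum.inr ⟨p, hp, hpO⟩, rfl⟩, by rw [norm_sub_rev]; exact hpz.le⟩

/-- **E2 (arm form)**: the black arm round `c` in the tessellation of the window configuration -/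
theorem pvqem_small_arm {w : ℂ} {u : ℝ} (hu : 0 < u) {S : Finset ℂ} (hS : (S : Set ℂ) ⊆ pvqcO w u) {ζ : Conf PvPt} (hζ : ζ.pts.Finite) {ℓ : ℝ}
    (hℓ : u ≤ ℓ ∧ ℓ ≤ 2 * u) {T : Finset ℂ} {x : ℂ} (hx : x ∈ pvqemJ w u S (ζ, ℓ) T) {ρ : ℝ} (hρ0 : 0 ≤ ρ) (hρ : ρ ≤ u / 8)
    (hnet : PvNet ρ (pvqcK w u) (Conf.union (pvqmCol S T) ζ)) {c : ℂ} {t r : ℝ} (hxc : pvqeSup (x - c) + ρ ≤ t) (htr : t < r)
    (hr : r ≤ |pvqeSup (c - w) - ℓ|) :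
    (rswArm c.re c.im t r).Holds (pvrbM (cfBk (Conf.restr (pvqcN w u) (Conf.union (pvqmCol S T) ζ)))
      (cfWh (Conf.restr (pvqcN w u) (Conf.union (pvqmCol S T) ζ)))) := by
  have h : u / 2 < ℓ ∧ ℓ < 5 * u / 2 := ⟨by linarith [hℓ.1], by linarith [hℓ.2]⟩
  have hζ' : (Conf.restr (pvqcN w u) ζ).pts.Finite := hζ.subset inter_subset_left
  obtain ⟨hxS, hxJ⟩ := (pvqem_mem_J h).1 hx
  rw [pvqem_restr w u hS, pvqem_M_eq S T hζ']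
  exact pvqem_arm (pvqeH_arm (pvqemP S (Conf.restr (pvqcN w u) ζ)) w h.1 h.2) hρ0 (by linarith : 2 * ρ < u / 2) (pvqem_dense hu hρ hnet)
    (pvqem_D1 hu) (fun z _ hz => pvqem_D2 hℓ z hz) (fun z z' => pvqem_lip w z z') hxJ hxc htr hr

/-- **E2**: the small scale observable vanishes -/
theorem pvqem_small {w : ℂ} {u : ℝ} (hu : 0 < u) {S : Finset ℂ} (hS : (S : Set ℂ) ⊆ pvqcO w u) {ζ : Conf PvPt} (hζ : ζ.pts.Finite) {ℓ : ℝ}
    (hℓ : u ≤ ℓ ∧ ℓ ≤ 2 * u) {T : Finset ℂ} {x : ℂ} (hx : x ∈ pvqemJ w u S (ζ, ℓ) T) {ρ : ℝ} (hρ0 : 0 ≤ ρ) (hρ : ρ ≤ u / 8)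
    (hnet : PvNet ρ (pvqcK w u) (Conf.union (pvqmCol S T) ζ)) {c : ℂ} {ρ' : ℝ} (hρ' : 0 < ρ') (hxc : pvqeSup (x - c) + ρ ≤ ρ' / 2)
    (hr : 5 * ρ' / 2 ≤ |pvqeSup (c - w) - ℓ|) (hO : pvqcO c ρ' ⊆ pvqcO w u) (hG : Conf.union (pvqmCol S T) ζ ∈ pvqcG c ρ') :
    pvqcF c ρ' (Conf.union (pvqmCol S T) ζ) = 0 := by
  have ha := pvqem_small_arm hu hS hζ hℓ hx hρ0 hρ hnet hxc (by linarith : ρ' / 2 < 5 * ρ' / 2) hr
  have hG' : Conf.restr (pvqcN w u) (Conf.union (pvqmCol S T) ζ) ∈ pvqcG c ρ' := by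
    refine pvqc_G_mono ?_ ((pvqc_G_restr hρ' _).2 hG)
    rintro p ⟨h1, h2⟩
    exact ⟨h1, hO h2⟩
  have hb := pvqc_arm_loc hρ' hG' ha
  have e : Conf.restr (pvqcN c ρ') (Conf.restr (pvqcN w u) (Conf.union (pvqmCol S T) ζ)) = Conf.restr (pvqcN c ρ') (Conf.union (pvqmCol S T) ζ) := by
    ext p
    constructor
    · rintro ⟨⟨h1, _⟩, h3⟩
      exact ⟨h1, h3⟩
    · rintro ⟨h1, h3⟩
      exact ⟨⟨h1, hO h3⟩, h3⟩
  rw [e] at hb
  exact pvqc_F_of_not fun hh => hb hh.2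

/-! ## 4. location of the revealed points, E3 -/

/-- the revealed points lie within `ρ` of the annulus `u/2 ≤ |z - w|_∞ ≤ 5u/2` -/
theorem pvqem_loc {w : ℂ} {u : ℝ} (hu : 0 < u) {S : Finset ℂ} {ζ : Conf PvPt} {ℓ : ℝ}
    (hℓ : u ≤ ℓ ∧ ℓ ≤ 2 * u) {T : Finset ℂ} {x : ℂ} (hx : x ∈ pvqemJ w u S (ζ, ℓ) T) {ρ : ℝ} (hρ0 : 0 ≤ ρ) (hρ : ρ ≤ u / 8)
    (hnet : PvNet ρ (pvqcK w u) (Conf.union (pvqmCol S T) ζ)) : u / 2 - ρ ≤ pvqeSup (x - w) ∧ pvqeSup (x - w) ≤ 5 * u / 2 + ρ := by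
  have h : u / 2 < ℓ ∧ ℓ < 5 * u / 2 := ⟨by linarith [hℓ.1], by linarith [hℓ.2]⟩
  obtain ⟨hxS, hxJ⟩ := (pvqem_mem_J h).1 hx
  obtain ⟨q, ⟨hqK, hqD⟩, hqx⟩ := pvqe_reveal_loc (pvqeH_arm (pvqemP S (Conf.restr (pvqcN w u) ζ)) w h.1 h.2) hρ0 (by linarith : 2 * ρ < u / 2)
    (pvqem_dense hu hρ hnet) (pvqem_D1 hu) (fun z _ hz => pvqem_D2 hℓ z hz) hxJ
  have hqx' : ‖x - q‖ ≤ ρ := hqx
  have h1 : pvqeSup (q - w) ≤ 5 * u / 2 := pvqe_mem_rect.1 hqK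
  rw [pvqem_K_eq] at hqD
  have h2 := pvqem_lip w x q
  have h3 := pvqe_sup_le_norm (x - q)
  rw [abs_le] at h2
  exact ⟨by linarith [h2.1, hqD.1], by linarith [h2.2]⟩

/-- **E3**: pointwise bound of the indicator of `x ∈ J`.  `c` = the centre of the block of `x`, `ρ' j` = the scales, `Vd` = any majorant of the indicator of the bad geometry. -/
theorem pvqem_ind_le {w : ℂ} {u : ℝ} (hu : 0 < u) {S : Finset ℂ} (hS : (S : Set ℂ) ⊆ pvqcO w u) {ζ : Conf PvPt} (hζ : ζ.pts.Finite) {ℓ : ℝ}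
    (hℓ : u ≤ ℓ ∧ ℓ ≤ 2 * u) (T : Finset ℂ) (x : ℂ) {ρ : ℝ} (hρ0 : 0 ≤ ρ) (hρ : ρ ≤ u / 8) {κ : Type*} [Fintype κ] (c : ℂ) (ρ' : κ → ℝ)
    (hρ' : ∀ j, 0 < ρ' j) (hxc : ∀ j, pvqeSup (x - c) + ρ ≤ ρ' j / 2) (hO : ∀ j, pvqcO c (ρ' j) ⊆ pvqcO w u) {rmax : ℝ} (hmax : ∀ j, 5 * ρ' j / 2 ≤ rmax)
    (Vd : Conf PvPt → ℝ) (hVd0 : ∀ ξ, 0 ≤ Vd ξ)
    (hVd : ∀ ξ, ¬ (PvNet ρ (pvqcK w u) ξ ∧ ∀ j, ξ ∈ pvqcG c (ρ' j)) → 1 ≤ Vd ξ) :
    pvqkInd (pvqemJ w u S (ζ, ℓ)) x T ≤ (if |pvqeSup (c - w) - ℓ| < rmax then 1 else 0) + Vd (Conf.union (pvqmCol S T) ζ)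
      + ∏ j, (1 - pvqcF c (ρ' j) (Conf.union (pvqmCol S T) ζ)) := by
  have hp0 : 0 ≤ ∏ j, (1 - pvqcF c (ρ' j) (Conf.union (pvqmCol S T) ζ)) :=
    Finset.prod_nonneg fun j _ => by linarith [pvqc_F_le_one c (ρ' j) (Conf.union (pvqmCol S T) ζ)]
  have hi0 : (0 : ℝ) ≤ if |pvqeSup (c - w) - ℓ| < rmax then 1 else 0 := by split_ifs <;> norm_num
  have hv0 := hVd0 (Conf.union (pvqmCol S T) ζ)
  by_cases hx : x ∈ pvqemJ w u S (ζ, ℓ) T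
  · rw [pvqkInd_of_mem hx]
    by_cases hcl : |pvqeSup (c - w) - ℓ| < rmax
    · rw [if_pos hcl]
      linarith
    · by_cases hgood : PvNet ρ (pvqcK w u) (Conf.union (pvqmCol S T) ζ) ∧ ∀ j, Conf.union (pvqmCol S T) ζ ∈ pvqcG c (ρ' j)
      · have hall : ∀ j, pvqcF c (ρ' j) (Conf.union (pvqmCol S T) ζ) = 0 := fun j =>
          pvqem_small hu hS hζ hℓ hx hρ0 hρ hgood.1 (hρ' j) (hxc j) ((hmax j).trans (not_lt.1 hcl)) (hO j) (hgood.2 j)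
        have : ∏ j, (1 - pvqcF c (ρ' j) (Conf.union (pvqmCol S T) ζ)) = 1 := Finset.prod_eq_one fun j _ => by rw [hall j]; ring
        rw [this]
        linarith
      · have := hVd _ hgood
        linarith
  · rw [pvqkInd_of_notMem hx]
    linarith

/-- **E3'**: a point far from the annulus is revealed only on the bad geometry -/
theorem pvqem_ind_le_far {w : ℂ} {u : ℝ} (hu : 0 < u) {S : Finset ℂ} {ζ : Conf PvPt} {ℓ : ℝ}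
    (hℓ : u ≤ ℓ ∧ ℓ ≤ 2 * u) (T : Finset ℂ) {x : ℂ} {ρ : ℝ} (hρ0 : 0 ≤ ρ) (hρ : ρ ≤ u / 8)
    (hfar : ¬ (u / 2 - ρ ≤ pvqeSup (x - w) ∧ pvqeSup (x - w) ≤ 5 * u / 2 + ρ))
    (Vd : Conf PvPt → ℝ) (hVd0 : ∀ ξ, 0 ≤ Vd ξ) (hVd : ∀ ξ, ¬ PvNet ρ (pvqcK w u) ξ → 1 ≤ Vd ξ) :
    pvqkInd (pvqemJ w u S (ζ, ℓ)) x T ≤ Vd (Conf.union (pvqmCol S T) ζ) := by
  by_cases hx : x ∈ pvqemJ w u S (ζ, ℓ) T
  · rw [pvqkInd_of_mem hx]
    exact hVd _ fun hnet => hfar (pvqem_loc hu hℓ hx hρ0 hρ hnet)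
  · rw [pvqkInd_of_notMem hx]
    exact hVd0 _

/-! ## 5. the same with a DENSITY hypothesis only (no grid event at the small scales): LOC by `pvqe_arm_loc` -/

theorem pvqem_mem_O {w z : ℂ} {u : ℝ} : z ∈ pvqcO w u ↔ u / 4 ≤ pvqeSup (z - w) ∧ pvqeSup (z - w) < 4 * u := by
  simp only [pvqcO, pvqeSup, mem_ofPred_eq, Complex.sub_re, Complex.sub_im]
  rw [max_lt_iff, le_max_iff]
  constructor
  · rintro ⟨h1, h2⟩
    refine ⟨?_, h1⟩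
    by_contra h3
    push Not at h3
    exact h2 h3
  · rintro ⟨h1, h2⟩
    refine ⟨h2, fun h3 => ?_⟩
    rcases h1 with h1 | h1 <;> linarith [h3.1, h3.2]

theorem pvqem_cfSites (S T : Finset ℂ) (ζ : Conf PvPt) : cfSites (Conf.union (pvqmCol S T) ζ) = range (pvqemP S ζ) := by
  rw [← pvqem_sites S T ζ]
  ext v
  constructor
  · rintro ⟨⟨v', b⟩, hp, rfl⟩
    rcases b with _ | _
    · exact Or.inr hp
    · exact Or.inl hp
  · rintro (h | h)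
    · exact ⟨(v, true), h, rfl⟩
    · exact ⟨(v, false), h, rfl⟩

theorem pvqem_restr_self {N : Set PvPt} {ζ : Conf PvPt} (h : ζ.pts ⊆ N) : Conf.restr N ζ = ζ := by
  ext p
  exact ⟨fun hp => hp.1, fun hp => ⟨hp, h hp⟩⟩

/-- location, density form -/
theorem pvqem_loc' {w : ℂ} {u : ℝ} (hu : 0 < u) {S : Finset ℂ} {ζ : Conf PvPt} {ℓ : ℝ}
    (hℓ : u ≤ ℓ ∧ ℓ ≤ 2 * u) {T : Finset ℂ} {x : ℂ} (hx : x ∈ pvqemJ w u S (ζ, ℓ) T) {ρ : ℝ} (hρ0 : 0 ≤ ρ) (hρ : 4 * ρ < u)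
    (hd : VorDense (range (pvqemP S (Conf.restr (pvqcN w u) ζ))) (pvqcK w u) ρ) :
    u / 2 - ρ ≤ pvqeSup (x - w) ∧ pvqeSup (x - w) ≤ 5 * u / 2 + ρ := by
  have h : u / 2 < ℓ ∧ ℓ < 5 * u / 2 := ⟨by linarith [hℓ.1], by linarith [hℓ.2]⟩
  obtain ⟨hxS, hxJ⟩ := (pvqem_mem_J h).1 hx
  obtain ⟨q, ⟨hqK, hqD⟩, hqx⟩ := pvqe_reveal_loc (pvqeH_arm (pvqemP S (Conf.restr (pvqcN w u) ζ)) w h.1 h.2) hρ0 (by linarith : 2 * ρ < u / 2)
    hd (pvqem_D1 hu) (fun z _ hz => pvqem_D2 hℓ z hz) hxJ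
  have hqx' : ‖x - q‖ ≤ ρ := hqx
  have h1 : pvqeSup (q - w) ≤ 5 * u / 2 := pvqe_mem_rect.1 hqK
  rw [pvqem_K_eq] at hqD
  have h2 := pvqem_lip w x q
  have h3 := pvqe_sup_le_norm (x - q)
  rw [abs_le] at h2
  exact ⟨by linarith [h2.1, hqD.1], by linarith [h2.2]⟩

/-- **E2, density form**: the sites of the window are `ρ`-dense on `D ⊇ pvqcK w u ∪ Ann(c; ρ'/2, 5ρ'/2)`, `ρ ≤ ρ'/4` -/
theorem pvqem_small' {w : ℂ} {u : ℝ} (hu : 0 < u) {S : Finset ℂ} {ζ : Conf PvPt} (hζ : ζ.pts.Finite) {ℓ : ℝ}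
    (hℓ : u ≤ ℓ ∧ ℓ ≤ 2 * u) {T : Finset ℂ} {x : ℂ} (hx : x ∈ pvqemJ w u S (ζ, ℓ) T) {ρ : ℝ} (hρ0 : 0 ≤ ρ) (hρ : 4 * ρ < u) {D : Set ℂ}
    (hKD : pvqcK w u ⊆ D) (hd : VorDense (range (pvqemP S (Conf.restr (pvqcN w u) ζ))) D ρ) {c : ℂ} {ρ' : ℝ} (hρ' : 0 < ρ')
    (hxc : pvqeSup (x - c) + ρ ≤ ρ' / 2) (hr : 5 * ρ' / 2 ≤ |pvqeSup (c - w) - ℓ|) (hAD : pvqeAnn c (ρ' / 2) (5 * ρ' / 2) ⊆ D) (hρρ : ρ ≤ ρ' / 4)
    (hO : pvqcO c ρ' ⊆ pvqcO w u) : pvqcF c ρ' (Conf.union (pvqmCol S T) ζ) = 0 := by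
  have h : u / 2 < ℓ ∧ ℓ < 5 * u / 2 := ⟨by linarith [hℓ.1], by linarith [hℓ.2]⟩
  have hζ' : (Conf.restr (pvqcN w u) ζ).pts.Finite := hζ.subset inter_subset_left
  have hfin := pvqem_finite S hζ'
  obtain ⟨hxS, hxJ⟩ := (pvqem_mem_J h).1 hx
  -- the arm in the tessellation of the window
  have ha := pvqem_arm (pvqeH_arm (pvqemP S (Conf.restr (pvqcN w u) ζ)) w h.1 h.2) hρ0 (by linarith : 2 * ρ < u / 2) (hd.mono subset_rfl hKD le_rfl)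
    (pvqem_D1 hu) (fun z _ hz => pvqem_D2 hℓ z hz) (fun z z' => pvqem_lip w z z') hxJ hxc (by linarith : ρ' / 2 < 5 * ρ' / 2) hr
  -- LOC
  have hN : vorNbd (pvqeAnn c (ρ' / 2) (5 * ρ' / 2)) ρ ⊆ pvqcO c ρ' := by
    intro z hz
    obtain ⟨h1, h2⟩ := pvqe_nbd_ann hz
    exact pvqem_mem_O.2 ⟨by linarith, by linarith⟩
  have ha2 := (pvqe_arm_loc (pvqe_A_subset _ _) (by linarith : ρ' / 2 ≤ 5 * ρ' / 2) (hd.mono subset_rfl hAD le_rfl) hN).1 ha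
  -- back to the vocabulary of C0
  have e : Conf.restr (pvqcN c ρ') (Conf.union (pvqmCol S T) (Conf.restr (pvqcN w u) ζ)) = Conf.restr (pvqcN c ρ') (Conf.union (pvqmCol S T) ζ) := by
    ext p
    constructor
    · rintro ⟨h1 | ⟨h1, _⟩, h3⟩
      · exact ⟨Or.inl h1, h3⟩
      · exact ⟨Or.inr h1, h3⟩
    · rintro ⟨h1 | h1, h3⟩
      · exact ⟨Or.inl h1, h3⟩
      · exact ⟨Or.inr ⟨h1, hO h3⟩, h3⟩
  have eB : cfBk (Conf.restr (pvqcN c ρ') (Conf.union (pvqmCol S T) ζ)) = pvqeA (pvqemP S (Conf.restr (pvqcN w u) ζ)) (pvqemS S (Conf.restr (pvqcN w u) ζ) T) ∩ pvqcO c ρ' := by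
    rw [← e, ← pvqem_Bk]
    exact pvqc_Bk_restr _ _
  have eY : cfBk (Conf.restr (pvqcN c ρ') (Conf.union (pvqmCol S T) ζ)) ∪ cfWh (Conf.restr (pvqcN c ρ') (Conf.union (pvqmCol S T) ζ))
      = range (pvqemP S (Conf.restr (pvqcN w u) ζ)) ∩ pvqcO c ρ' := by
    rw [← e, ← pvqem_sites S T, union_inter_distrib_right]
    exact congrArg₂ _ (pvqc_Bk_restr _ _) (pvqc_Wh_restr _ _)
  have hLF : VorLF (cfBk (Conf.restr (pvqcN c ρ') (Conf.union (pvqmCol S T) ζ)) ∪ cfWh (Conf.restr (pvqcN c ρ') (Conf.union (pvqmCol S T) ζ))) := by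
    rw [eY]
    exact fun R => ((finite_range _).subset inter_subset_left).subset inter_subset_left
  refine pvqc_F_of_not fun hh => hh.2 ?_
  rw [pvrb_M_eq hLF, eY, eB]
  exact ha2

end Claimed.Agent.R289
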