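import Claimed.Agent.R289.Qbx.RevP
import Claimed.Agent.R289.Qbx.Ss1
import Claimed.Agent.R289.Qbx.ExplM
import Claimed.Agent.R289.Qbx.Blocks

/-!
# Row 289 (S0537), box QBX, file Qbx/Dom : [DOM] = THE DOMINATION OF THE LEVEL-1 WEIGHT, ABSTRACT IN THE GEOMETRY      (owner helper103; head helper30; consumer helper77, Qbx/Rev.lean; prefix `pvqo_`)

    SS1 (`pvqk_ss1_prod`, Qbx/Ss1)  +  E1, E2 (deterministic exploration contracts of 30, Qbx/ExplM; HYPOTHESES here)  +  (P3) (`pvqi_rev` of 233, Qbx/RevP)      ⟹      one step of `PvqmRev`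

DATA: window `W`, test `F`, time `t`; auxiliary randomness = hidden configuration `ζ ~ pppFin (pvqmI W (1 - t))` × radius `l ~ μ` (any probability space `A`);
blocks `B` (finite), `blk x` = the block of the position `x`, `Nr b ⊆ A` = the radii which are NEAR the block `b` (`μ (Nr b) ≤ a`), `Vd` = the indicator of the failure of the fine grid event, `g b = ∏ j, (1 - f j b)`.
* (E1) for every finite `S ⊆ W`, a.e. `(ζ, l)` : `PvqkRev S (fun T => F (pvqmCol S T ∪ ζ)) (J S (ζ, l))`;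
* (E2) `x ∈ J S (ζ, l) T  →  l ∈ Nr (blk x)  ∨  1 ≤ Vd conf + g (blk x) conf`, `conf = pvqmCol S T ∪ ζ`.
RESULTS
* `pvqo_C_eq`, `pvqo_Y_eq` : `pvqmC`, `pvqmY` of Qbx/Main in the vocabulary of Qbx/Ss1 (by unfolding);   `pvqo_bessel` : `∑ x ∈ S, C(t,S,x)² ≤ 1`.
* **`pvqo_dom`** : `∑ x ∈ S, C(t,S,x)² ≤ a + Y(Vd)(t,S) + M` if `Y(g (blk x))(t,S) ≤ M` for all `x ∈ S`.
* `pvqoG` = `a + Y(Vd) + max_b Y(g b)`;   `pvqo_G_meas`, `pvqo_G_integrable`, `pvqo_G_le` (= the hypothesis `hle` of `pvqi_rev`), **`pvqo_G_dom`** : `PvqmDom W F t (pvqoG ..)`.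
* sec. 5 **`pvqo_blocks`** : [DOM] for `pvqcO w u`, `pvqcF w u` with ABSTRACT blocks (E1, E3, E3' of Qbx/ExplM plugged in; radius `pvqoLev u` uniform on `[u, 2u]`; hidden configuration a.s. finite).
* sec. 6 **`pvqo_Dom`** `(hK : PvqmRepK) : PvqzDom 5` = the contract of 167 (Qbx/Blocks, ROAD A);   `pvqo_dom_blocks` = the same round any centre `w`.
* **`pvqo_rev`** : `∃ G, PvqmDom W F t G ∧ ∫ G ≤ a + E Vd + (lam + #B ((1 - c/2)^p + 4 vmax / c²)^#ι / lam^p)`.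
-/

set_option autoImplicit false
set_option linter.unusedSectionVars false
set_option linter.unusedVariables false

namespace Claimed.Agent.R289

open MeasureTheory ProbabilityTheory Set Filter Topology
open scoped ENNReal NNReal BigOperators

/-! ## 1. dictionary Main / Ss1 -/

theorem pvqo_Av_eq (W : Set ℂ) (t : ℝ) (S : Finset ℂ) (Φ : Finset ℂ → Conf PvPt → ℝ) :
    pvqmAv W t S Φ = pvqkAv S fun T => ∫ ζ, Φ T ζ ∂pppFin (pvqmI W (1 - t)) := rfl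

theorem pvqo_C_eq (W : Set ℂ) (F : Conf PvPt → ℝ) (t : ℝ) (S : Finset ℂ) (x : ℂ) :
    pvqmC W F t S x = pvqkAv S fun T => ∫ ζ, pvqkChi x T * F (Conf.union (pvqmCol S T) ζ) ∂pppFin (pvqmI W (1 - t)) := rfl

theorem pvqo_Y_eq (W : Set ℂ) (F : Conf PvPt → ℝ) (t : ℝ) (S : Finset ℂ) :
    pvqmY W F t S = pvqkAv S fun T => ∫ ζ, F (Conf.union (pvqmCol S T) ζ) ∂pppFin (pvqmI W (1 - t)) := rfl

theorem pvqo_Fs_coe (S : Finset ℂ) : pvqmFs ⟨(S : Set ℂ)⟩ = S := by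
  unfold pvqmFs
  rw [dif_pos (show ((⟨(S : Set ℂ)⟩ : Conf ℂ).pts).Finite from S.finite_toSet)]
  exact Finset.finite_toSet_toFinset S

theorem pvqo_abs_le {F : Conf PvPt → ℝ} (hF : PvqmBd F) (ζ : Conf PvPt) : |F ζ| ≤ 1 :=
  abs_le.2 ⟨by linarith [hF.nonneg ζ], hF.le_one ζ⟩

/-- the mean over the colourings of a bounded function of the configuration, as a function of the hidden configuration -/
theorem pvqo_av_integrable {F : Conf PvPt → ℝ} (hF : PvqmBd F) (μ : Measure (Conf PvPt)) [IsFiniteMeasure μ] (S : Finset ℂ) :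
    Integrable (fun ζ => pvqkAv S fun T => F (Conf.union (pvqmCol S T) ζ)) μ := by
  unfold pvqkAv
  exact (integrable_finsetSum _ fun T _ => pvqi_bd_integrable hF μ _).const_mul _

theorem pvqo_av_integral (W : Set ℂ) {F : Conf PvPt → ℝ} (hF : PvqmBd F) (t : ℝ) [IsFiniteMeasure (pppFin (pvqmI W (1 - t)))] (S : Finset ℂ) :
    ∫ ζ, (pvqkAv S fun T => F (Conf.union (pvqmCol S T) ζ)) ∂pppFin (pvqmI W (1 - t)) = pvqmY W F t S := by
  rw [pvqo_Y_eq]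
  unfold pvqkAv
  rw [integral_const_mul, integral_finsetSum _ fun T _ => pvqi_bd_integrable hF _ _]

/-! ## 2. [DOM] at one finite set of revealed positions -/

/-- **Bessel** in the vocabulary of Qbx/Main -/
theorem pvqo_bessel {W : Set ℂ} (hW : PvqmWin W) {F : Conf PvPt → ℝ} (hF : PvqmBd F) (t : ℝ) (S : Finset ℂ) : ∑ x ∈ S, pvqmC W F t S x ^ 2 ≤ 1 := by
  have := pvqi_I_prob hW (1 - t)
  simp_rw [pvqo_C_eq]
  refine pvqk_ss1 (pppFin (pvqmI W (1 - t))) S (fun ζ T => F (Conf.union (pvqmCol S T) ζ)) (fun _ _ => Set.univ) (fun _ _ => 1) 1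
    (fun T _ => (pvqi_bd_integrable hF _ _).aestronglyMeasurable) (ae_of_all _ fun ζ T _ => pvqo_abs_le hF _)
    (ae_of_all _ fun ζ => ⟨fun _ _ _ _ h0 => absurd (mem_univ _) h0, fun _ _ _ _ h0 => absurd (mem_univ _) h0⟩)
    (fun _ _ => integrable_const _) (ae_of_all _ fun ζ x _ => ?_) (fun _ _ => by simp) zero_le_one
  rw [← pvqkAv_const S 1]
  exact pvqkAv_mono fun T _ => pvqkInd_le_one _ _ _

/-- **[DOM]** -/
theorem pvqo_dom {W : Set ℂ} (hW : PvqmWin W) {F : Conf PvPt → ℝ} (hF : PvqmBd F) (t : ℝ) (S : Finset ℂ)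
    {A : Type*} [MeasurableSpace A] (μ : Measure A) [IsProbabilityMeasure μ] {B : Type*} (blk : ℂ → B) (Nr : B → Set A) (hNr : ∀ b, MeasurableSet (Nr b))
    {a : ℝ} (ha0 : 0 ≤ a) (ha : ∀ b, μ.real (Nr b) ≤ a) {Vd : Conf PvPt → ℝ} (hVd : PvqmBd Vd) {g : B → Conf PvPt → ℝ} (hg : ∀ b, PvqmBd (g b))
    (J : Conf PvPt × A → Finset ℂ → Set ℂ)
    (E1 : ∀ᵐ q ∂((pppFin (pvqmI W (1 - t))).prod μ), PvqkRev S (fun T => F (Conf.union (pvqmCol S T) q.1)) (J q))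
    (E2 : ∀ᵐ q ∂((pppFin (pvqmI W (1 - t))).prod μ), ∀ T ⊆ S, ∀ x ∈ S, x ∈ J q T →
      q.2 ∈ Nr (blk x) ∨ 1 ≤ Vd (Conf.union (pvqmCol S T) q.1) + g (blk x) (Conf.union (pvqmCol S T) q.1))
    {M : ℝ} (hM0 : 0 ≤ M) (hM : ∀ x ∈ S, pvqmY W (g (blk x)) t S ≤ M) :
    ∑ x ∈ S, pvqmC W F t S x ^ 2 ≤ a + pvqmY W Vd t S + M := by
  have hpr := pvqi_I_prob hW (1 - t)
  simp_rw [pvqo_C_eq]
  obtain ⟨π, hπd⟩ : ∃ π : ℂ → Conf PvPt × A → ℝ, π = fun x q => (Nr (blk x)).indicator (fun _ => (1 : ℝ)) q.2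
      + (pvqkAv S fun T => Vd (Conf.union (pvqmCol S T) q.1)) + pvqkAv S fun T => g (blk x) (Conf.union (pvqmCol S T) q.1) := ⟨_, rfl⟩
  have i1 : ∀ x, Integrable (fun q : Conf PvPt × A => (Nr (blk x)).indicator (fun _ => (1 : ℝ)) q.2) ((pppFin (pvqmI W (1 - t))).prod μ) := fun x =>
    ((integrable_const (1 : ℝ)).indicator (hNr (blk x))).comp_snd _
  have i2 : ∀ G : Conf PvPt → ℝ, PvqmBd G →
      Integrable (fun q : Conf PvPt × A => pvqkAv S fun T => G (Conf.union (pvqmCol S T) q.1)) ((pppFin (pvqmI W (1 - t))).prod μ) := fun G hG =>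
    (pvqo_av_integrable hG _ S).comp_fst _
  have e1 : ∀ x, ∫ q : Conf PvPt × A, (Nr (blk x)).indicator (fun _ => (1 : ℝ)) q.2 ∂((pppFin (pvqmI W (1 - t))).prod μ) = μ.real (Nr (blk x)) := by
    intro x
    have h := integral_fun_snd (μ := pppFin (pvqmI W (1 - t))) (ν := μ) ((Nr (blk x)).indicator fun _ => (1 : ℝ))
    rw [h, integral_indicator (hNr (blk x))]
    simp
  have e2 : ∀ G : Conf PvPt → ℝ, PvqmBd G →
      ∫ q : Conf PvPt × A, (pvqkAv S fun T => G (Conf.union (pvqmCol S T) q.1)) ∂((pppFin (pvqmI W (1 - t))).prod μ) = pvqmY W G t S := by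
    intro G hG
    have h := integral_fun_fst (μ := pppFin (pvqmI W (1 - t))) (ν := μ) (fun ζ => pvqkAv S fun T => G (Conf.union (pvqmCol S T) ζ))
    rw [h, pvqo_av_integral W hG t S]
    simp
  refine pvqk_ss1_prod (pppFin (pvqmI W (1 - t))) μ S (fun ζ T => F (Conf.union (pvqmCol S T) ζ)) J π _
    (fun T _ => (pvqi_bd_integrable hF _ _).aestronglyMeasurable) (ae_of_all _ fun ζ T _ => pvqo_abs_le hF _) E1 (fun x _ => ?_) ?_ (fun x hx => ?_) ?_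
  · rw [hπd]; exact ((i1 x).add (i2 Vd hVd)).add (i2 _ (hg (blk x)))
  · filter_upwards [E2] with q hq x hx
    rw [hπd]
    show _ ≤ (Nr (blk x)).indicator (fun _ => (1 : ℝ)) q.2 + (pvqkAv S fun T => Vd (Conf.union (pvqmCol S T) q.1))
      + pvqkAv S fun T => g (blk x) (Conf.union (pvqmCol S T) q.1)
    rw [← pvqkAv_const S ((Nr (blk x)).indicator (fun _ => (1 : ℝ)) q.2), ← pvqkAv_add, ← pvqkAv_add]
    refine pvqkAv_mono fun T hT => ?_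
    have n1 : 0 ≤ (Nr (blk x)).indicator (fun _ => (1 : ℝ)) q.2 := Set.indicator_nonneg (fun _ _ => zero_le_one) _
    have n2 := hVd.nonneg (Conf.union (pvqmCol S T) q.1)
    have n3 := (hg (blk x)).nonneg (Conf.union (pvqmCol S T) q.1)
    by_cases hJ : x ∈ J q T
    · rw [pvqkInd_of_mem hJ]
      rcases hq T hT x hx hJ with h | h
      · rw [Set.indicator_of_mem h]; linarith
      · linarith
    · rw [pvqkInd_of_notMem hJ]; linarith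
  · rw [hπd]
    have h12 : Integrable (fun q : Conf PvPt × A => (Nr (blk x)).indicator (fun _ => (1 : ℝ)) q.2
        + pvqkAv S fun T => Vd (Conf.union (pvqmCol S T) q.1)) ((pppFin (pvqmI W (1 - t))).prod μ) := (i1 x).add (i2 Vd hVd)
    rw [integral_add h12 (i2 _ (hg (blk x))), integral_add (i1 x) (i2 Vd hVd), e1, e2 Vd hVd, e2 _ (hg (blk x))]
    linarith [ha (blk x), hM x hx]
  · linarith [pvqi_Y_nonneg (W := W) hVd t S]

/-! ## 3. the dominating function -/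

/-- `G = a + Y(Vd) + max_b Y(g b)` -/
noncomputable def pvqoG {B : Type*} [Fintype B] [Nonempty B] (W : Set ℂ) (t a : ℝ) (Vd : Conf PvPt → ℝ) (g : B → Conf PvPt → ℝ) (η : Conf ℂ) : ℝ :=
  a + pvqmY W Vd t (pvqmFs η) + Finset.univ.sup' Finset.univ_nonempty fun b => pvqmY W (g b) t (pvqmFs η)

section G

variable {B : Type*} [Fintype B] [Nonempty B] {W : Set ℂ} {t a : ℝ} {Vd : Conf PvPt → ℝ} {g : B → Conf PvPt → ℝ}

theorem pvqo_sup_nonneg (hg : ∀ b, PvqmBd (g b)) (S : Finset ℂ) : 0 ≤ Finset.univ.sup' Finset.univ_nonempty fun b => pvqmY W (g b) t S := by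
  obtain ⟨b⟩ := ‹Nonempty B›
  exact (pvqi_Y_nonneg (hg b) t S).trans (Finset.le_sup' (fun b => pvqmY W (g b) t S) (Finset.mem_univ b))

theorem pvqo_sup_le_one (hW : PvqmWin W) (hg : ∀ b, PvqmBd (g b)) (S : Finset ℂ) :
    (Finset.univ.sup' Finset.univ_nonempty fun b => pvqmY W (g b) t S) ≤ 1 :=
  Finset.sup'_le _ _ fun b _ => pvqi_Y_le_one hW (hg b) t S

/-- the hypothesis `hle` of `pvqi_rev` -/
theorem pvqo_G_le (η : Conf ℂ) : ∃ b, pvqoG W t a Vd g η ≤ a + pvqmY W Vd t (pvqmFs η) + pvqmY W (g b) t (pvqmFs η) := by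
  obtain ⟨b, -, hb⟩ := Finset.exists_mem_eq_sup' Finset.univ_nonempty fun b => pvqmY W (g b) t (pvqmFs η)
  exact ⟨b, by unfold pvqoG; rw [hb]⟩

theorem pvqo_G_meas (hK : PvqmRepK) (hW : PvqmWin W) (ht : PvqmGrid t) (hVd : PvqmBd Vd) (hg : ∀ b, PvqmBd (g b)) : Measurable (pvqoG W t a Vd g) := by
  unfold pvqoG
  refine ((pvqi_Y_meas hK hW ht hVd).const_add a).add ?_
  have h := Finset.measurable_sup' (s := (Finset.univ : Finset B)) Finset.univ_nonempty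
    (f := fun b (η : Conf ℂ) => pvqmY W (g b) t (pvqmFs η)) fun b _ => pvqi_Y_meas hK hW ht (hg b)
  have e : (fun η : Conf ℂ => Finset.univ.sup' Finset.univ_nonempty fun b => pvqmY W (g b) t (pvqmFs η))
      = Finset.univ.sup' Finset.univ_nonempty fun b (η : Conf ℂ) => pvqmY W (g b) t (pvqmFs η) := by
    funext η; rw [Finset.sup'_apply]
  rw [e]; exact h

theorem pvqo_G_bd (hW : PvqmWin W) (ha0 : 0 ≤ a) (hVd : PvqmBd Vd) (hg : ∀ b, PvqmBd (g b)) (η : Conf ℂ) : |pvqoG W t a Vd g η| ≤ a + 2 := by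
  have h1 := pvqi_Y_nonneg (W := W) hVd t (pvqmFs η)
  have h2 := pvqi_Y_le_one hW hVd t (pvqmFs η)
  have h3 := pvqo_sup_nonneg (W := W) (t := t) hg (pvqmFs η)
  have h4 := pvqo_sup_le_one (t := t) hW hg (pvqmFs η)
  unfold pvqoG
  rw [abs_le]
  constructor <;> linarith

theorem pvqo_G_integrable (hK : PvqmRepK) (hW : PvqmWin W) (ht : PvqmGrid t) (ha0 : 0 ≤ a) (hVd : PvqmBd Vd) (hg : ∀ b, PvqmBd (g b)) :
    Integrable (pvqoG W t a Vd g) (pppFin (pvqmIp W t)) := by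
  have := pvqi_Ip_prob hW t
  exact Integrable.of_bound (pvqo_G_meas hK hW ht hVd hg).aestronglyMeasurable (a + 2)
    (ae_of_all _ fun η => by rw [Real.norm_eq_abs]; exact pvqo_G_bd hW ha0 hVd hg η)

/-- **`G` dominates the level-1 weight** -/
theorem pvqo_G_dom (hK : PvqmRepK) (hW : PvqmWin W) (ht : PvqmGrid t) {F : Conf PvPt → ℝ} (hF : PvqmBd F)
    {A : Type*} [MeasurableSpace A] (μ : Measure A) [IsProbabilityMeasure μ] (blk : ℂ → B) (Nr : B → Set A) (hNr : ∀ b, MeasurableSet (Nr b))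
    (ha0 : 0 ≤ a) (ha : ∀ b, μ.real (Nr b) ≤ a) (hVd : PvqmBd Vd) (hg : ∀ b, PvqmBd (g b))
    (J : Finset ℂ → Conf PvPt × A → Finset ℂ → Set ℂ)
    (E1 : ∀ S : Finset ℂ, (S : Set ℂ) ⊆ W → ∀ᵐ q ∂((pppFin (pvqmI W (1 - t))).prod μ), PvqkRev S (fun T => F (Conf.union (pvqmCol S T) q.1)) (J S q))
    (E2 : ∀ S : Finset ℂ, (S : Set ℂ) ⊆ W → ∀ᵐ q ∂((pppFin (pvqmI W (1 - t))).prod μ), ∀ T ⊆ S, ∀ x ∈ S, x ∈ J S q T →
      q.2 ∈ Nr (blk x) ∨ 1 ≤ Vd (Conf.union (pvqmCol S T) q.1) + g (blk x) (Conf.union (pvqmCol S T) q.1)) :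
    PvqmDom W F t (pvqoG W t a Vd g) := by
  refine ⟨pvqo_G_meas hK hW ht hVd hg, pvqo_G_integrable hK hW ht ha0 hVd hg, fun S hS => ?_⟩
  unfold pvqoG
  rw [pvqo_Fs_coe]
  exact pvqo_dom hW hF t S μ blk Nr hNr ha0 ha hVd hg (J S) (E1 S hS) (E2 S hS) (pvqo_sup_nonneg hg S)
    fun x _ => Finset.le_sup' (fun b => pvqmY W (g b) t S) (Finset.mem_univ (blk x))

end G

/-! ## 4. one step of `PvqmRev`, abstract in the geometry -/

/-- **[DOM] + (P3)**: SS1 + exploration contracts + `p`-th moments over the blocks -/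
theorem pvqo_rev (hK : PvqmRepK) {W : Set ℂ} (hW : PvqmWin W) {t : ℝ} (ht : PvqmGrid t) {F : Conf PvPt → ℝ} (hF : PvqmBd F)
    {ι B : Type*} [Fintype ι] [Fintype B] [Nonempty B] {N : ι → B → Set ℂ} (hN : ∀ j b, MeasurableSet (N j b))
    (hd : ∀ b, Pairwise (Function.onFun Disjoint fun j => N j b))
    (f : ι → B → Conf PvPt → ℝ) (hf : ∀ j b, PvqmBd (f j b)) (hl : ∀ j b, PvrbLoc (N j b ×ˢ univ) (f j b)) {c vmax : ℝ} (hc : 0 < c) (hc2 : c ≤ 2)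
    (hE : ∀ j b, c ≤ pvqmE W (f j b)) (hV : ∀ j b, pvqmV W (f j b) t ≤ vmax) (p : ℕ) {lam : ℝ} (hlam : 0 < lam)
    (Vd : Conf PvPt → ℝ) (hVd : PvqmBd Vd) {a : ℝ} (ha0 : 0 ≤ a)
    {A : Type*} [MeasurableSpace A] (μ : Measure A) [IsProbabilityMeasure μ] (blk : ℂ → B) (Nr : B → Set A) (hNr : ∀ b, MeasurableSet (Nr b))
    (ha : ∀ b, μ.real (Nr b) ≤ a) (J : Finset ℂ → Conf PvPt × A → Finset ℂ → Set ℂ)
    (E1 : ∀ S : Finset ℂ, (S : Set ℂ) ⊆ W → ∀ᵐ q ∂((pppFin (pvqmI W (1 - t))).prod μ), PvqkRev S (fun T => F (Conf.union (pvqmCol S T) q.1)) (J S q))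
    (E2 : ∀ S : Finset ℂ, (S : Set ℂ) ⊆ W → ∀ᵐ q ∂((pppFin (pvqmI W (1 - t))).prod μ), ∀ T ⊆ S, ∀ x ∈ S, x ∈ J S q T →
      q.2 ∈ Nr (blk x) ∨ 1 ≤ Vd (Conf.union (pvqmCol S T) q.1) + ∏ j, (1 - f j (blk x) (Conf.union (pvqmCol S T) q.1))) :
    ∃ G : Conf ℂ → ℝ, PvqmDom W F t G ∧ ∫ η, G η ∂pppFin (pvqmIp W t)
      ≤ a + pvqmE W Vd + (lam + Fintype.card B * (((1 - c / 2) ^ p + 4 * vmax / c ^ 2) ^ Fintype.card ι / lam ^ p)) := by
  have hg : ∀ b, PvqmBd fun ζ => ∏ j, (1 - f j b ζ) := fun b => pvqi_bd_prod _ fun j _ => pvqi_bd_one_sub (hf j b)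
  refine ⟨pvqoG W t a Vd fun b ζ => ∏ j, (1 - f j b ζ), pvqo_G_dom hK hW ht hF μ blk Nr hNr ha0 ha hVd hg J E1 E2, ?_⟩
  exact pvqi_rev hK hW ht hN hd f hf hl hc hc2 hE hV p hlam Vd hVd a _ (pvqo_G_integrable hK hW ht ha0 hVd hg) pvqo_G_le

/-- the radius: `l` uniform on `[u, 2u]`; the radii at distance `< r` of a level `h` have probability `≤ 2 r / u` -/
theorem pvqo_radius {u : ℝ} (hu : 0 < u) (h r : ℝ) (hr : 0 ≤ r) :
    (ENNReal.ofReal u⁻¹ • (volume : Measure ℝ).restrict (Icc u (2 * u))).real {l | |h - l| < r} ≤ 2 * r / u := by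
  have hsub : {l : ℝ | |h - l| < r} ⊆ Ioo (h - r) (h + r) := by
    intro l hl
    have := abs_lt.1 (show |h - l| < r from hl)
    exact ⟨by linarith [this.2], by linarith [this.1]⟩
  have h1 : (ENNReal.ofReal u⁻¹ • (volume : Measure ℝ).restrict (Icc u (2 * u))) {l | |h - l| < r} ≤ ENNReal.ofReal u⁻¹ * ENNReal.ofReal (2 * r) := by
    rw [Measure.smul_apply, smul_eq_mul]
    refine mul_le_mul_right ?_ _
    calc (volume : Measure ℝ).restrict (Icc u (2 * u)) {l | |h - l| < r} ≤ volume {l : ℝ | |h - l| < r} := Measure.restrict_apply_le _ _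
      _ ≤ volume (Ioo (h - r) (h + r)) := measure_mono hsub
      _ = ENNReal.ofReal (2 * r) := by rw [Real.volume_Ioo]; congr 1; ring
  have h2 := ENNReal.toReal_mono (by exact ENNReal.mul_ne_top ENNReal.ofReal_ne_top ENNReal.ofReal_ne_top) h1
  rw [ENNReal.toReal_mul, ENNReal.toReal_ofReal (inv_nonneg.2 hu.le), ENNReal.toReal_ofReal (by positivity)] at h2
  refine h2.trans (le_of_eq ?_)
  field_simp

theorem pvqo_radius_prob {u : ℝ} (hu : 0 < u) : IsProbabilityMeasure (ENNReal.ofReal u⁻¹ • (volume : Measure ℝ).restrict (Icc u (2 * u))) := by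
  constructor
  rw [Measure.smul_apply, Measure.restrict_apply_univ, Real.volume_Icc, smul_eq_mul, ← ENNReal.ofReal_mul (inv_nonneg.2 hu.le)]
  have : u⁻¹ * (2 * u - u) = 1 := by field_simp; ring
  rw [this, ENNReal.ofReal_one]

theorem pvqo_radius_meas (h r : ℝ) : MeasurableSet {l : ℝ | |h - l| < r} :=
  measurableSet_lt (measurable_const.sub measurable_id).abs measurable_const

/-! ## 5. the exploration of 30 (Qbx/ExplM) plugged in: the blocking observable of 167 (Qbx/C0), ABSTRACT BLOCKS -/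

/-- the law of the radius: uniform on `[u, 2u]` -/
noncomputable def pvqoLev (u : ℝ) : Measure ℝ := ENNReal.ofReal u⁻¹ • (volume : Measure ℝ).restrict (Icc u (2 * u))

theorem pvqo_lev_prob {u : ℝ} (hu : 0 < u) : IsProbabilityMeasure (pvqoLev u) := pvqo_radius_prob hu

theorem pvqo_lev_near {u : ℝ} (hu : 0 < u) (h r : ℝ) (hr : 0 ≤ r) : (pvqoLev u).real {l | |h - l| < r} ≤ 2 * r / u := pvqo_radius hu h r hr

theorem pvqo_lev_ae (u : ℝ) : ∀ᵐ l ∂pvqoLev u, u ≤ l ∧ l ≤ 2 * u := by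
  unfold pvqoLev
  exact Measure.ae_smul_measure (ae_restrict_mem measurableSet_Icc) _

/-- the hidden configuration is finite -/
theorem pvqo_hidden_ae {W : Set ℂ} (hW : PvqmWin W) (s : ℝ) : ∀ᵐ ζ ∂pppFin (pvqmI W s), ζ.pts.Finite := by
  have := pvqi_I_fin hW s
  have h := (pvs_isPpp (pvqmI W s)).ae_finite MeasurableSet.univ (measure_ne_top _ _)
  simpa only [inter_univ] using h

/-- the auxiliary randomness `(ζ, l)` is good almost surely -/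
theorem pvqo_aux_ae {W : Set ℂ} (hW : PvqmWin W) (s : ℝ) {u : ℝ} (hu : 0 < u) :
    ∀ᵐ q ∂((pppFin (pvqmI W s)).prod (pvqoLev u)), q.1.pts.Finite ∧ u ≤ q.2 ∧ q.2 ≤ 2 * u := by
  have := pvqi_I_prob hW s
  have := pvqo_lev_prob hu
  have h1 := (Measure.quasiMeasurePreserving_fst (μ := pppFin (pvqmI W s)) (ν := pvqoLev u)).ae (pvqo_hidden_ae hW s)
  have h2 := (Measure.quasiMeasurePreserving_snd (μ := pppFin (pvqmI W s)) (ν := pvqoLev u)).ae (pvqo_lev_ae u)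
  filter_upwards [h1, h2] with q a b using ⟨a, b⟩

open Classical in
/-- the block of a position: any block whose centre is close at all the scales -/
noncomputable def pvqoBlk {B κ : Type*} [Nonempty B] (c : B → ℂ) (ρ' : κ → ℝ) (ρ : ℝ) (x : ℂ) : B :=
  if h : ∃ b, ∀ j, pvqeSup (x - c b) + ρ ≤ ρ' j / 2 then h.choose else Classical.arbitrary B

theorem pvqo_blk_spec {B κ : Type*} [Nonempty B] {c : B → ℂ} {ρ' : κ → ℝ} {ρ : ℝ} {x : ℂ} (h : ∃ b, ∀ j, pvqeSup (x - c b) + ρ ≤ ρ' j / 2) (j : κ) :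
    pvqeSup (x - c (pvqoBlk c ρ' ρ x)) + ρ ≤ ρ' j / 2 := by
  unfold pvqoBlk
  rw [dif_pos h]
  exact h.choose_spec j

/-- the product over the scales round one centre -/
noncomputable def pvqoZ {κ : Type*} [Fintype κ] (ρ' : κ → ℝ) (c : ℂ) (ζ : Conf PvPt) : ℝ := ∏ j, (1 - pvqcF c (ρ' j) ζ)

theorem pvqo_F_bd (w : ℂ) (u : ℝ) : PvqmBd (pvqcF w u) := pvqm_test_bd (pvqc_test w u)

theorem pvqo_Z_bd {κ : Type*} [Fintype κ] (ρ' : κ → ℝ) (c : ℂ) : PvqmBd (pvqoZ ρ' c) :=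
  pvqi_bd_prod _ fun j _ => pvqi_bd_one_sub (pvqo_F_bd c (ρ' j))

section blocks

variable {w : ℂ} {u : ℝ} {B κ : Type*} [Fintype B] [Nonempty B] [Fintype κ] {c : B → ℂ} {ρ' : κ → ℝ} {ρ rmax : ℝ} {Vd : Conf PvPt → ℝ}

/-- **E2** in the form of `pvqo_dom`, from E3, E3' of 30 -/
theorem pvqo_E2 (hu : 0 < u) (hρ0 : 0 ≤ ρ) (hρ : ρ ≤ u / 8) (hρ' : ∀ j, 0 < ρ' j) (hmax : ∀ j, 5 * ρ' j / 2 ≤ rmax)
    (hO : ∀ b j, pvqcO (c b) (ρ' j) ⊆ pvqcO w u)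
    (hcov : ∀ x : ℂ, u / 2 - ρ ≤ pvqeSup (x - w) → pvqeSup (x - w) ≤ 5 * u / 2 + ρ → ∃ b, ∀ j, pvqeSup (x - c b) + ρ ≤ ρ' j / 2)
    (hVd : PvqmBd Vd) (hbad : ∀ ξ, ¬ (PvNet ρ (pvqcK w u) ξ ∧ ∀ b j, ξ ∈ pvqcG (c b) (ρ' j)) → 1 ≤ Vd ξ)
    {S : Finset ℂ} (hS : (S : Set ℂ) ⊆ pvqcO w u) {ζ : Conf PvPt} (hζ : ζ.pts.Finite) {l : ℝ} (hl : u ≤ l ∧ l ≤ 2 * u)
    (T : Finset ℂ) {x : ℂ} (hx : x ∈ pvqemJ w u S (ζ, l) T) :
    l ∈ {l : ℝ | |pvqeSup (c (pvqoBlk c ρ' ρ x) - w) - l| < rmax} ∨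
      1 ≤ Vd (Conf.union (pvqmCol S T) ζ) + pvqoZ ρ' (c (pvqoBlk c ρ' ρ x)) (Conf.union (pvqmCol S T) ζ) := by
  by_cases hz : u / 2 - ρ ≤ pvqeSup (x - w) ∧ pvqeSup (x - w) ≤ 5 * u / 2 + ρ
  · have h := pvqem_ind_le hu hS hζ hl T x hρ0 hρ (c (pvqoBlk c ρ' ρ x)) ρ' hρ' (pvqo_blk_spec (hcov x hz.1 hz.2)) (hO _) hmax Vd hVd.nonneg
      fun ξ hξ => hbad ξ fun hh => hξ ⟨hh.1, hh.2 _⟩
    rw [pvqkInd_of_mem hx] at h
    by_cases hcl : |pvqeSup (c (pvqoBlk c ρ' ρ x) - w) - l| < rmax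
    · exact Or.inl hcl
    · rw [if_neg hcl] at h
      refine Or.inr ?_
      unfold pvqoZ
      linarith
  · have h := pvqem_ind_le_far hu (S := S) (ζ := ζ) hl T hρ0 hρ hz Vd hVd.nonneg fun ξ hξ => hbad ξ fun hh => hξ hh.1
    rw [pvqkInd_of_mem hx] at h
    exact Or.inr (by linarith [(pvqo_Z_bd ρ' (c (pvqoBlk c ρ' ρ x))).nonneg (Conf.union (pvqmCol S T) ζ)])

/-- **[DOM] for the blocking observable, abstract blocks**: `G = 2 rmax / u + Y(Vd) + max_b Y(∏_j (1 - F_{c b, ρ' j}))` dominates the level-1 weight -/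
theorem pvqo_blocks_dom (hK : PvqmRepK) (hu : 0 < u) {t : ℝ} (ht : PvqmGrid t) (hρ0 : 0 ≤ ρ) (hρ : ρ ≤ u / 8) (hρ' : ∀ j, 0 < ρ' j)
    (hr0 : 0 ≤ rmax) (hmax : ∀ j, 5 * ρ' j / 2 ≤ rmax) (hO : ∀ b j, pvqcO (c b) (ρ' j) ⊆ pvqcO w u)
    (hcov : ∀ x : ℂ, u / 2 - ρ ≤ pvqeSup (x - w) → pvqeSup (x - w) ≤ 5 * u / 2 + ρ → ∃ b, ∀ j, pvqeSup (x - c b) + ρ ≤ ρ' j / 2)
    (hVd : PvqmBd Vd) (hbad : ∀ ξ, ¬ (PvNet ρ (pvqcK w u) ξ ∧ ∀ b j, ξ ∈ pvqcG (c b) (ρ' j)) → 1 ≤ Vd ξ) :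
    PvqmDom (pvqcO w u) (pvqcF w u) t (pvqoG (pvqcO w u) t (2 * rmax / u) Vd fun b => pvqoZ ρ' (c b)) := by
  have := pvqo_lev_prob hu
  refine pvqo_G_dom hK (pvqc_win w hu) ht (pvqo_F_bd w u) (pvqoLev u) (pvqoBlk c ρ' ρ) (fun b => {l : ℝ | |pvqeSup (c b - w) - l| < rmax})
    (fun b => pvqo_radius_meas _ _) (by positivity) (fun b => pvqo_lev_near hu _ _ hr0) hVd (fun b => pvqo_Z_bd ρ' (c b)) (pvqemJ w u) (fun S hS => ?_) fun S hS => ?_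
  · filter_upwards [pvqo_aux_ae (pvqc_win w hu) (1 - t) hu] with q hq
    exact pvqem_rev hS hq.1 q.2
  · filter_upwards [pvqo_aux_ae (pvqc_win w hu) (1 - t) hu] with q hq T _ x _ hx
    exact pvqo_E2 hu hρ0 hρ hρ' hmax hO hcov hVd hbad hS hq.1 hq.2 T hx

/-- the same in the shape of 167 (`PvqzDom`, Qbx/Blocks) -/
theorem pvqo_blocks (hK : PvqmRepK) (hu : 0 < u) {t : ℝ} (ht : PvqmGrid t) (hρ0 : 0 ≤ ρ) (hρ : ρ ≤ u / 8) (hρ' : ∀ j, 0 < ρ' j)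
    (hr0 : 0 ≤ rmax) (hmax : ∀ j, 5 * ρ' j / 2 ≤ rmax) (hO : ∀ b j, pvqcO (c b) (ρ' j) ⊆ pvqcO w u)
    (hcov : ∀ x : ℂ, u / 2 - ρ ≤ pvqeSup (x - w) → pvqeSup (x - w) ≤ 5 * u / 2 + ρ → ∃ b, ∀ j, pvqeSup (x - c b) + ρ ≤ ρ' j / 2)
    (hVd : PvqmBd Vd) (hbad : ∀ ξ, ¬ (PvNet ρ (pvqcK w u) ξ ∧ ∀ b j, ξ ∈ pvqcG (c b) (ρ' j)) → 1 ≤ Vd ξ) :
    ∃ G : Conf ℂ → ℝ, PvqmDom (pvqcO w u) (pvqcF w u) t G ∧ ∀ η, ∃ b, G η ≤ 2 * rmax / u + pvqmY (pvqcO w u) Vd t (pvqmFs η)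
      + pvqmY (pvqcO w u) (fun ζ => ∏ j, (1 - pvqcF (c b) (ρ' j) ζ)) t (pvqmFs η) :=
  ⟨_, pvqo_blocks_dom hK hu ht hρ0 hρ hρ' hr0 hmax hO hcov hVd hbad, fun η => pvqo_G_le η⟩

end blocks

/-! ## 6. ROAD A: the blocks of 167 (Qbx/Blocks): the contract `PvqzDom 5` -/

/-- **[DOM], ROAD A, any centre** -/
theorem pvqo_dom_blocks (hK : PvqmRepK) (w : ℂ) {u ρ0 : ℝ} {m : ℕ} {t : ℝ} (hρ0 : 0 < ρ0) (hm : 0 < m) (h18 : 18 * (16 ^ (m - 1) * ρ0) ≤ u) (ht : PvqmGrid t) :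
    ∃ G : Conf ℂ → ℝ, PvqmDom (pvqcO w u) (pvqcF w u) t G ∧
      ∀ η : Conf ℂ, ∃ b : {k // k ∈ pvqzB u ρ0},
        G η ≤ 5 * (16 ^ (m - 1) * ρ0 / u) + pvqmY (pvqcO w u) (pvqzVd w u ρ0 m) t (pvqmFs η)
          + pvqmY (pvqcO w u) (fun ζ => ∏ j : Fin m, (1 - pvqcF (pvqzC w ρ0 b.1) (16 ^ (j : ℕ) * ρ0) ζ)) t (pvqmFs η) := by
  have hs : (0 : ℝ) < 16 ^ (m - 1) * ρ0 := by positivity
  have hu : 0 < u := by linarith
  have h1 : ρ0 ≤ 16 ^ (m - 1) * ρ0 := pvqz_scale_ge hρ0 _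
  have hne : Nonempty {k // k ∈ pvqzB u ρ0} := (pvqz_B_nonempty hu.le hρ0).to_subtype
  obtain ⟨G, hG, hle⟩ := pvqo_blocks (w := w) (u := u) (B := {k // k ∈ pvqzB u ρ0}) (κ := Fin m) (c := fun b => pvqzC w ρ0 b.1)
    (ρ' := fun j => 16 ^ (j : ℕ) * ρ0) (ρ := ρ0 / 8) (rmax := 5 / 2 * (16 ^ (m - 1) * ρ0)) (Vd := pvqzVd w u ρ0 m) hK hu ht (by positivity) (by linarith)
    (fun j => pvqz_scale_pos hρ0 _) (by positivity) (fun j => by linarith [pvqz_scale_le hρ0 j.2])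
    (fun b j => by
      obtain ⟨a1, a2⟩ := pvqz_B_win w hρ0 (pvqz_scale_ge hρ0 (j : ℕ)) (pvqz_scale_hyp hρ0 h18 j j.2) b.2
      exact pvqz_O_sub a1 a2)
    (fun x a1 a2 => by
      obtain ⟨k, hk, hx⟩ := pvqz_cover w hu.le hρ0 (x := x) (by linarith) (by linarith)
      exact ⟨⟨k, hk⟩, fun j => by linarith [pvqz_scale_ge hρ0 (j : ℕ)]⟩)
    (pvqz_Vd_bd w u ρ0 m)
    (fun ξ hξ => by
      by_cases hg : ξ ∈ pvqzGd w u ρ0 m
      · exact absurd ⟨pvqz_Gd_net hu hρ0 hg, fun b j => pvqz_Gd_grid hg b.2 j.2⟩ hξ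
      · rw [pvqz_Vd_of_notMem hg])
  refine ⟨G, hG, fun η => ?_⟩
  obtain ⟨b, hb⟩ := hle η
  refine ⟨b, hb.trans (le_of_eq ?_)⟩
  congr 2
  ring

/-- **[DOM], ROAD A: the contract of 167** -/
theorem pvqo_Dom (hK : PvqmRepK) : PvqzDom 5 := fun _ _ _ _ hρ0 hm h18 ht => pvqo_dom_blocks hK 0 hρ0 hm h18 ht

theorem pvqo_eqns_cite : True := by
  have := @pvqoG.eq_1.{0}; have := @pvqoLev.eq_1; have := @pvqoBlk.eq_1.{0, 0}; have := @pvqoZ.eq_1.{0}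
  trivial

end Claimed.Agent.R289
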