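/- Row 289 (S0537), box QBX, file RepK (owner helper233): PROOF of the contract `PvqmRepK` of Qbx/Main (the replica lemma). -/
import Claimed.Agent.R289.Qbx.RevP

/-!
# Row 289, box QBX, file `RepK` : the replica lemma `PvqmRepK`

Everything here is PROVED (no hole).  Prefix `pvqz_`.   EXIT: `pvqz_main : PvqmRepK`.

* sec. 1 : `pvqz_J_eq` : the intensity of the `k`-replica process = image of `(t Leb_W) x coin^k` (shared points) + sum over the replicas of the images
  of `(1-t) Leb_W x coin` (private points)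
* sec. 2 : `pvqzAss k Θ ζ` = the marked configuration assembled from a shared marked process `Θ` and `k` private coloured processes `ζ a`;
  `pvqz_ass_law` (its law is the replica process: void probabilities), `pvqz_rep_ass` : `rep_i (Ass Θ ζ) = π_i Θ ∪ ζ i`
* sec. 3 : `pvqz_M_eq` : `M_k(g) = ∫ ∏_i Q_i(π_i Θ) dΘ`, `Q_i σ = ∫ g_i(σ ∪ ζ) dζ` (Fubini over the private parts)
* sec. 4 : `pvqz_series` (Bochner form of the series of a finite Poisson process), `pvqz_integral_zip`, `pvqz_integral_kap`, `pvqz_integral_marks`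
* sec. 5 : `pvqz_col_eq`, `pvqz_sum_powerset`, `pvqz_Y_ofFn` : the quenched mean over the subsets `T ⊆ S` = mean over the colour vectors of an injective
  enumeration of `S`
* sec. 6 : `pvqz_Y_meas` : measurability of `η ↦ Y(t, pvqmFs η)` (measurable enumeration `pvcn_enum`)
* sec. 7 : `pvqz_rep` : `∫ ∏_i Y(g_i)(t, pvqmFs η) = M_k(g; t)`
  and `pvqz_main` (valid for EVERY real `t`, not only on the grid).
-/

set_option autoImplicit false
set_option linter.unusedSectionVars false
set_option linter.unusedVariables false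

namespace Claimed.Agent.R289
open MeasureTheory ProbabilityTheory Set Filter Topology
open scoped ENNReal NNReal BigOperators

/-! ## 1. the intensity of the replica process: shared part + private parts -/

/-- the mark of a shared point with colours `c` -/
def pvqzSh (k : ℕ) (c : Fin k → Bool) : PvqrMk k := fun i => some (c i)

/-- the mark of a private point of replica `a` with colour `b` -/
def pvqzPr (k : ℕ) (a : Fin k) (b : Bool) : PvqrMk k := Function.update (fun _ => none) a (some b)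

/-- the law of `k` independent fair colours -/
noncomputable def pvqzKap (k : ℕ) : Measure (Fin k → Bool) := Measure.pi fun _ : Fin k => pvCoin

instance pvqz_kap_prob (k : ℕ) : IsProbabilityMeasure (pvqzKap k) := by unfold pvqzKap; infer_instance

theorem pvqz_sh_meas (k : ℕ) : Measurable (pvqzSh k) := measurable_of_countable _

theorem pvqz_pr_meas (k : ℕ) (a : Fin k) : Measurable (pvqzPr k a) := measurable_of_countable _

theorem pvqz_all_eq (k : ℕ) : pvqrSh k = (pvqzKap k).map (pvqzSh k) := rfl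

theorem pvqz_one_eq (k : ℕ) (a : Fin k) : pvqrPr k a = pvCoin.map (pvqzPr k a) := rfl

theorem pvqz_prod_finset_sum {α β ι : Type*} [MeasurableSpace α] [MeasurableSpace β] (m : Measure α) [SFinite m] (s : Finset ι) (ν : ι → Measure β)
    [∀ i, SFinite (ν i)] : m.prod (∑ i ∈ s, ν i) = ∑ i ∈ s, m.prod (ν i) := by
  classical
  induction s using Finset.induction_on with
  | empty => simp
  | insert i s hi ih =>
    rw [Finset.sum_insert hi, Finset.sum_insert hi, ← ih]
    have : SFinite (∑ i ∈ s, ν i) := by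
      rw [← Measure.sum_coe_finset]; infer_instance
    exact Measure.prod_add _

/-- **decomposition of the intensity** -/
theorem pvqz_J_eq (k : ℕ) (W : Set ℂ) (t : ℝ) :
    pvqmJ k W t = ((pvqmIp W t).prod (pvqzKap k)).map (Prod.map id (pvqzSh k))
      + ∑ a, (pvqmI W (1 - t)).map (Prod.map id (pvqzPr k a)) := by
  have h1 : ((pvqmIp W t).prod (pvqzKap k)).map (Prod.map id (pvqzSh k))
      = ((volume : Measure ℂ).restrict W).prod (ENNReal.ofReal t • pvqrSh k) := by
    have : SFinite (pvqmIp W t) := by unfold pvqmIp; infer_instance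
    rw [← Measure.map_prod_map _ _ measurable_id (pvqz_sh_meas k), Measure.map_id, ← pvqz_all_eq, pvqmIp, Measure.prod_smul_left,
      Measure.prod_smul_right]
  have h2 : ∀ a, (pvqmI W (1 - t)).map (Prod.map id (pvqzPr k a))
      = ((volume : Measure ℂ).restrict W).prod (ENNReal.ofReal (1 - t) • pvqrPr k a) := by
    intro a
    rw [pvqmI, Measure.map_smul, ← Measure.map_prod_map _ _ measurable_id (pvqz_pr_meas k a), Measure.map_id, ← pvqz_one_eq,
      Measure.prod_smul_right]
  rw [h1]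
  simp_rw [h2]
  rw [← pvqz_prod_finset_sum, ← Finset.smul_sum]
  have : SFinite (ENNReal.ofReal (1 - t) • ∑ a, pvqrPr k a) := by
    have : IsFiniteMeasure (ENNReal.ofReal (1 - t) • ∑ i, pvqrPr k i) := Measure.smul_finite _ ENNReal.ofReal_ne_top
    infer_instance
  rw [← Measure.prod_add]
  rfl

/-! ## 2. the replica process assembled from a shared marked process and `k` private coloured processes -/

/-- the assembled marked configuration -/
def pvqzAss (k : ℕ) (Θ : Conf (ℂ × (Fin k → Bool))) (ζ : Fin k → Conf PvPt) : Conf (ℂ × PvqrMk k) :=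
  Conf.union (Conf.image (Prod.map id (pvqzSh k)) Θ) (Conf.iUnion fun a => Conf.image (Prod.map id (pvqzPr k a)) (ζ a))

theorem pvqz_ass_preimage_void (k : ℕ) (B : Set (ℂ × PvqrMk k)) :
    (fun p : Conf (ℂ × (Fin k → Bool)) × (Fin k → Conf PvPt) => pvqzAss k p.1 p.2) ⁻¹' Conf.void B
      = Conf.void (Prod.map id (pvqzSh k) ⁻¹' B) ×ˢ Set.pi univ fun a => Conf.void (Prod.map id (pvqzPr k a) ⁻¹' B) := by
  ext ⟨Θ, ζ⟩
  simp only [mem_preimage, Conf.mem_void, pvqzAss, Conf.union, Conf.iUnion, Conf.image, mem_union, mem_image, mem_iUnion, mem_prod, Set.mem_pi,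
    mem_univ, forall_true_left]
  constructor
  · intro h
    exact ⟨fun q hq => h _ (Or.inl ⟨q, hq, rfl⟩), fun a q hq => h _ (Or.inr ⟨a, q, hq, rfl⟩)⟩
  · rintro ⟨h1, h2⟩ q (⟨q', hq', rfl⟩ | ⟨a, q', hq', rfl⟩)
    · exact h1 q' hq'
    · exact h2 a q' hq'

theorem pvqz_ass_meas (k : ℕ) : Measurable fun p : Conf (ℂ × (Fin k → Bool)) × (Fin k → Conf PvPt) => pvqzAss k p.1 p.2 := by
  refine Conf.measurable_of_void fun B hB => ?_
  rw [pvqz_ass_preimage_void]
  exact (Conf.measurableSet_void ((measurable_id.prodMap (pvqz_sh_meas k)) hB)).prod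
    (MeasurableSet.pi countable_univ fun a _ => Conf.measurableSet_void ((measurable_id.prodMap (pvqz_pr_meas k a)) hB))

/-- the law of the shared marked process -/
noncomputable def pvqzTh (k : ℕ) (W : Set ℂ) (t : ℝ) : Measure (Conf (ℂ × (Fin k → Bool))) := pppFin ((pvqmIp W t).prod (pvqzKap k))

theorem pvqz_Th_ppp {W : Set ℂ} (hW : PvqmWin W) (k : ℕ) (t : ℝ) : IsPpp ((pvqmIp W t).prod (pvqzKap k)) (pvqzTh k W t) := by
  have := pvqi_Ip_fin hW t
  exact pvs_isPpp _

theorem pvqz_Th_prob {W : Set ℂ} (hW : PvqmWin W) (k : ℕ) (t : ℝ) : IsProbabilityMeasure (pvqzTh k W t) := (pvqz_Th_ppp hW k t).prob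

/-- **the law of the assembled configuration is the replica process** -/
theorem pvqz_ass_law {W : Set ℂ} (hW : PvqmWin W) (k : ℕ) (t : ℝ) :
    ((pvqzTh k W t).prod (Measure.pi fun _ : Fin k => pppFin (pvqmI W (1 - t)))).map (fun p => pvqzAss k p.1 p.2) = pppFin (pvqmJ k W t) := by
  have := pvqz_Th_prob hW k t
  have := pvqi_I_prob hW (1 - t)
  refine IsPpp.unique ⟨fun B hB => ?_⟩ (pvqi_J_ppp hW k t)
  have hs : MeasurableSet (Prod.map id (pvqzSh k) ⁻¹' B : Set (ℂ × (Fin k → Bool))) := (measurable_id.prodMap (pvqz_sh_meas k)) hB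
  have hp : ∀ a, MeasurableSet (Prod.map id (pvqzPr k a) ⁻¹' B : Set PvPt) := fun a => (measurable_id.prodMap (pvqz_pr_meas k a)) hB
  rw [Measure.map_apply (pvqz_ass_meas k) (Conf.measurableSet_void hB), pvqz_ass_preimage_void, Measure.prod_prod, Measure.pi_pi,
    (pvqz_Th_ppp hW k t).void _ hs]
  simp_rw [(pvqi_I_ppp hW (1 - t)).void _ (hp _)]
  rw [← expNeg_finset_sum, ← expNeg_add, pvqz_J_eq, Measure.add_apply, Measure.finsetSum_apply,
    Measure.map_apply (measurable_id.prodMap (pvqz_sh_meas k)) hB]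
  simp_rw [Measure.map_apply (measurable_id.prodMap (pvqz_pr_meas k _)) hB]

/-- the coloured configuration seen by replica `i` in the shared marked process -/
def pvqzPi {k : ℕ} (i : Fin k) (Θ : Conf (ℂ × (Fin k → Bool))) : Conf PvPt := Conf.image (fun q => (q.1, q.2 i)) Θ

theorem pvqz_Pi_meas {k : ℕ} (i : Fin k) : Measurable (pvqzPi i) :=
  Conf.measurable_image (measurable_fst.prodMk ((measurable_pi_apply i).comp measurable_snd))

/-- replica `i` of the assembled configuration -/
theorem pvqz_rep_ass {k : ℕ} (i : Fin k) (Θ : Conf (ℂ × (Fin k → Bool))) (ζ : Fin k → Conf PvPt) :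
    pvqmRep i (pvqzAss k Θ ζ) = Conf.union (pvqzPi i Θ) (ζ i) := by
  ext ⟨x, b⟩
  simp only [pvqrRep, pvqzAss, pvqzPi, Conf.union, Conf.iUnion, Conf.image, mem_ofPred_eq, mem_union, mem_image, mem_iUnion, Prod.exists,
    Prod.map_apply, id_eq, Prod.mk.injEq]
  constructor
  · rintro ⟨μ, (⟨x', c, h1, rfl, rfl⟩ | ⟨a, x', b', h1, rfl, rfl⟩), h3⟩
    · left
      refine ⟨x', c, h1, rfl, ?_⟩
      simpa [pvqzSh] using h3
    · right
      by_cases ha : i = a
      · subst ha
        have : b' = b := by simpa [pvqzPr] using h3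
        rw [← this]; exact h1
      · simp [pvqzPr, Function.update_of_ne ha] at h3
  · rintro (⟨x', c, h1, rfl, rfl⟩ | h1)
    · exact ⟨pvqzSh k c, Or.inl ⟨x', c, h1, rfl, rfl⟩, rfl⟩
    · exact ⟨pvqzPr k i b, Or.inr ⟨i, x, b, h1, rfl, rfl⟩, by simp [pvqzPr]⟩

/-! ## 3. integration over the private parts -/

/-- **Step C**: `M_k(g) = ∫ ∏_i Q_i(π_i Θ)`, `Q_i σ = ∫ g_i(σ ∪ ζ) dζ` -/
theorem pvqz_M_eq {W : Set ℂ} (hW : PvqmWin W) (k : ℕ) (t : ℝ) (g : Fin k → Conf PvPt → ℝ) (hg : ∀ i, PvqmBd (g i)) :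
    pvqmM k W t g = ∫ Θ, ∏ i, pvrbQ (pppFin (pvqmI W (1 - t))) (g i) (pvqzPi i Θ) ∂pvqzTh k W t := by
  have := pvqz_Th_prob hW k t
  have := pvqi_I_prob hW (1 - t)
  have hm : Measurable fun Ξ : Conf (ℂ × PvqrMk k) => ∏ i, g i (pvqmRep i Ξ) :=
    Finset.measurable_fun_prod _ fun i _ => (hg i).meas.comp (pvqi_rep_meas i)
  show ∫ Ξ, ∏ a, g a (pvqmRep a Ξ) ∂pppFin (pvqmJ k W t) = _
  rw [← pvqz_ass_law hW k t, integral_map (pvqz_ass_meas k).aemeasurable hm.aestronglyMeasurable]
  simp_rw [pvqz_rep_ass]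
  have hm2 : Measurable fun p : Conf (ℂ × (Fin k → Bool)) × (Fin k → Conf PvPt) => ∏ i, g i (Conf.union (pvqzPi i p.1) (p.2 i)) :=
    Finset.measurable_fun_prod _ fun i _ => (hg i).meas.comp (Conf.measurable_union.comp
      (((pvqz_Pi_meas i).comp measurable_fst).prodMk ((measurable_pi_apply i).comp measurable_snd)))
  have hi : Integrable (fun p : Conf (ℂ × (Fin k → Bool)) × (Fin k → Conf PvPt) => ∏ i, g i (Conf.union (pvqzPi i p.1) (p.2 i)))
      ((pvqzTh k W t).prod (Measure.pi fun _ : Fin k => pppFin (pvqmI W (1 - t)))) := by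
    refine Integrable.of_bound hm2.aestronglyMeasurable 1 (Eventually.of_forall fun p => ?_)
    rw [Real.norm_of_nonneg (Finset.prod_nonneg fun i _ => (hg i).nonneg _)]
    exact Finset.prod_le_one (fun i _ => (hg i).nonneg _) fun i _ => (hg i).le_one _
  rw [integral_prod _ hi]
  refine integral_congr_ae (Eventually.of_forall fun Θ => ?_)
  exact integral_fintype_prod_eq_prod (μ := fun _ : Fin k => pppFin (pvqmI W (1 - t))) fun i ζ => g i (Conf.union (pvqzPi i Θ) ζ)

/-! ## 4. series, marks -/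

/-- the series of a finite Poisson process, Bochner form -/
theorem pvqz_series {E : Type*} [MeasurableSpace E] (m : Measure E) [IsFiniteMeasure m] {f : Conf E → ℝ} (hf : Measurable f) {C : ℝ}
    (hb : ∀ η, |f η| ≤ C) :
    ∫ η, f η ∂pppFin m = ∑' n, (pvsW (m univ) n).toReal * ∫ x, f (Conf.ofFn x) ∂Measure.pi fun _ : Fin n => m := by
  have := (pvs_isPpp m).prob
  have hi : Integrable f (pppFin m) := Integrable.of_bound hf.aestronglyMeasurable C (Eventually.of_forall hb)
  unfold pppFin at hi ⊢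
  rw [integral_sum_measure hi]
  refine tsum_congr fun n => ?_
  rw [integral_smul_measure, pvsBin, integral_map (Conf.measurable_ofFn n).aemeasurable hf.aestronglyMeasurable]
  rfl

/-- tuples of marked points = (tuple of points, tuple of marks) -/
theorem pvqz_integral_zip {E K : Type*} [MeasurableSpace E] [MeasurableSpace K] (m : Measure E) (κ : Measure K) [IsFiniteMeasure m] [IsFiniteMeasure κ]
    (n : ℕ) {h : (Fin n → E × K) → ℝ} (hm : Measurable h) {C : ℝ} (hb : ∀ y, |h y| ≤ C) :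
    ∫ y, h y ∂(Measure.pi fun _ : Fin n => m.prod κ)
      = ∫ x, ∫ c, h (fun l => (x l, c l)) ∂(Measure.pi fun _ : Fin n => κ) ∂(Measure.pi fun _ : Fin n => m) := by
  have mp := measurePreserving_arrowProdEquivProdArrow E K (Fin n) (fun _ => m) (fun _ => κ)
  have h1 := mp.integral_comp' (fun p => h ((MeasurableEquiv.arrowProdEquivProdArrow E K (Fin n)).symm p))
  simp only [MeasurableEquiv.symm_apply_apply] at h1
  rw [h1, integral_prod]
  · rfl
  · refine Integrable.of_bound (hm.comp (MeasurableEquiv.measurable _)).aestronglyMeasurable C (Eventually.of_forall fun p => hb _)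

theorem pvqz_coin_real (b : Bool) : pvCoin.real {b} = 2⁻¹ := by
  rw [measureReal_def, pvCoin_apply]; simp

theorem pvqz_kap_real (n : ℕ) (d : Fin n → Bool) : (pvqzKap n).real {d} = ((2 : ℝ) ^ n)⁻¹ := by
  rw [measureReal_def, pvqzKap, Measure.pi_singleton]
  simp [pvCoin_apply]

/-- integration against `n` fair colours -/
theorem pvqz_integral_kap (n : ℕ) (h : (Fin n → Bool) → ℝ) : ∫ d, h d ∂pvqzKap n = ((2 : ℝ) ^ n)⁻¹ * ∑ d, h d := by
  rw [integral_fintype (Integrable.of_finite), Finset.mul_sum]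
  exact Finset.sum_congr rfl fun d _ => by rw [pvqz_kap_real, smul_eq_mul]

theorem pvqz_pi_kap_real (n k : ℕ) (c : Fin n → Fin k → Bool) : (Measure.pi fun _ : Fin n => pvqzKap k).real {c} = (((2 : ℝ) ^ k) ^ n)⁻¹ := by
  rw [measureReal_def, Measure.pi_singleton, ENNReal.toReal_prod]
  simp only [← measureReal_def, pvqz_kap_real, Finset.prod_const, Finset.card_univ, Fintype.card_fin, inv_pow]

/-- **the `k` colour vectors of the `n` points are independent** -/
theorem pvqz_integral_marks (n k : ℕ) (q : Fin k → (Fin n → Bool) → ℝ) :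
    ∫ c, ∏ i, q i (fun l => c l i) ∂(Measure.pi fun _ : Fin n => pvqzKap k) = ∏ i, ∫ d, q i d ∂pvqzKap n := by
  rw [integral_fintype (Integrable.of_finite)]
  simp_rw [pvqz_pi_kap_real, pvqz_integral_kap, smul_eq_mul]
  rw [← Finset.mul_sum, Finset.prod_mul_distrib, Finset.prod_const, Finset.card_univ, Fintype.card_fin, Finset.prod_univ_sum,
    Fintype.piFinset_univ]
  congr 1
  · rw [inv_pow, ← pow_mul, ← pow_mul, mul_comm]
  · exact Fintype.sum_equiv (Equiv.piComm fun _ _ => Bool) _ _ fun c => rfl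

/-! ## 5. colourings of a finite set = colour vectors of an injective enumeration -/

theorem pvqz_Fs_ofFn {n : ℕ} (x : Fin n → ℂ) : pvqmFs (Conf.ofFn x) = Finset.univ.image x := by
  classical
  have hf : (Conf.ofFn x).pts.Finite := finite_range x
  unfold pvqmFs
  rw [dif_pos hf]
  ext p
  simp [Conf.ofFn]

/-- the set of black points of the colour vector `d` -/
noncomputable def pvqzT {n : ℕ} (x : Fin n → ℂ) (d : Fin n → Bool) : Finset ℂ := (Finset.univ.filter fun l => d l = true).image x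

theorem pvqz_col_eq {n : ℕ} {x : Fin n → ℂ} (hx : Function.Injective x) (d : Fin n → Bool) :
    pvqmCol (Finset.univ.image x) (pvqzT x d) = Conf.ofFn fun l => (x l, d l) := by
  ext ⟨p, b⟩
  simp only [pvqmCol, pvqzT, Conf.ofFn, mem_ofPred_eq, Finset.mem_image, Finset.mem_univ, true_and, Finset.mem_filter, mem_range, Prod.mk.injEq]
  constructor
  · rintro ⟨⟨l, rfl⟩, h⟩
    refine ⟨l, rfl, ?_⟩
    by_cases hb : b = true
    · obtain ⟨l', h1, h2⟩ := h.1 hb
      rw [hx h2] at h1
      rw [h1, hb]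
    · have h3 : ¬ d l = true := fun h4 => hb (h.2 ⟨l, h4, rfl⟩)
      simp only [Bool.not_eq_true] at hb h3
      rw [hb, h3]
  · rintro ⟨l, rfl, rfl⟩
    refine ⟨⟨l, rfl⟩, fun h => ⟨l, h, rfl⟩, ?_⟩
    rintro ⟨l', h1, h2⟩
    rw [hx h2] at h1
    exact h1

/-- sums over the subsets of the range of an injective enumeration -/
theorem pvqz_sum_powerset {n : ℕ} {x : Fin n → ℂ} (hx : Function.Injective x) (Φ : Finset ℂ → ℝ) :
    ∑ T ∈ (Finset.univ.image x).powerset, Φ T = ∑ d : Fin n → Bool, Φ (pvqzT x d) := by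
  classical
  symm
  refine Finset.sum_bij (fun d _ => pvqzT x d) ?_ ?_ ?_ (fun _ _ => rfl)
  · intro d _
    rw [Finset.mem_powerset]
    exact Finset.image_subset_image (Finset.filter_subset _ _)
  · intro d _ d' _ h
    funext l
    have key : ∀ e : Fin n → Bool, (x l ∈ pvqzT x e ↔ e l = true) := by
      intro e
      simp only [pvqzT, Finset.mem_image, Finset.mem_filter, Finset.mem_univ, true_and]
      exact ⟨fun ⟨l', h1, h2⟩ => by rwa [hx h2] at h1, fun h1 => ⟨l, h1, rfl⟩⟩
    have h1 := key d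
    have h2 := key d'
    rw [h] at h1
    have h3 : d l = true ↔ d' l = true := h1.symm.trans h2
    cases hd : d l <;> cases hd' : d' l <;> simp_all
  · intro T hT
    rw [Finset.mem_powerset] at hT
    refine ⟨fun l => decide (x l ∈ T), Finset.mem_univ _, ?_⟩
    ext p
    simp only [pvqzT, Finset.mem_image, Finset.mem_filter, Finset.mem_univ, true_and, decide_eq_true_eq]
    constructor
    · rintro ⟨l, h1, rfl⟩; exact h1
    · intro hp
      obtain ⟨l, -, rfl⟩ := Finset.mem_image.1 (hT hp)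
      exact ⟨l, hp, rfl⟩

/-- the quenched mean in coordinates -/
noncomputable def pvqzG (W : Set ℂ) (F : Conf PvPt → ℝ) (t : ℝ) (n : ℕ) (x : Fin n → ℂ) : ℝ :=
  ∫ d, pvrbQ (pppFin (pvqmI W (1 - t))) F (Conf.ofFn fun l => (x l, d l)) ∂pvqzKap n

/-- **(COL)** -/
theorem pvqz_Y_ofFn (W : Set ℂ) (F : Conf PvPt → ℝ) (t : ℝ) {n : ℕ} {x : Fin n → ℂ} (hx : Function.Injective x) :
    pvqmY W F t (pvqmFs (Conf.ofFn x)) = pvqzG W F t n x := by
  classical
  rw [pvqz_Fs_ofFn, pvqzG, pvqz_integral_kap, pvqmY, pvqmAv, Finset.card_image_of_injective _ hx, Finset.card_univ, Fintype.card_fin,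
    pvqz_sum_powerset hx]
  congr 1
  refine Finset.sum_congr rfl fun d _ => ?_
  rw [pvqz_col_eq hx]
  rfl

theorem pvqz_G_meas {W : Set ℂ} (hW : PvqmWin W) {F : Conf PvPt → ℝ} (hF : Measurable F) (t : ℝ) (n : ℕ) : Measurable (pvqzG W F t n) := by
  have e : pvqzG W F t n = fun x => ((2 : ℝ) ^ n)⁻¹ * ∑ d : Fin n → Bool, pvrbQ (pppFin (pvqmI W (1 - t))) F (Conf.ofFn fun l => (x l, d l)) := by
    funext x; rw [pvqzG, pvqz_integral_kap]
  rw [e]
  have := pvqi_I_prob hW (1 - t)
  refine Measurable.const_mul (Finset.measurable_fun_sum _ fun d _ => ?_) _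
  exact (pvrbQ_meas _ hF).comp ((Conf.measurable_ofFn n).comp (measurable_pi_lambda _ fun l => (measurable_pi_apply l).prodMk measurable_const))


/-! ## 6. measurability of the quenched mean -/

theorem pvqz_finite_meas : MeasurableSet {η : Conf ℂ | η.pts.Finite} := by
  have := pvcn_fin (E := ℂ) MeasurableSet.univ
  simpa only [inter_univ] using this

/-- **(1)** -/
theorem pvqz_Y_meas {W : Set ℂ} (hW : PvqmWin W) {F : Conf PvPt → ℝ} (hF : Measurable F) (t : ℝ) :
    Measurable fun η : Conf ℂ => pvqmY W F t (pvqmFs η) := by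
  classical
  obtain ⟨X, hX, hX'⟩ := pvcn_enum (E := ℂ) (B := univ) MeasurableSet.univ
  let G : Conf ℂ × ℕ → ℝ := fun z => pvqzG W F t z.2 fun i : Fin z.2 => X z.1 i
  have hG : Measurable G := by
    refine measurable_from_prod_countable_left fun n => ?_
    exact (pvqz_G_meas hW hF t n).comp (measurable_pi_lambda _ fun i => (measurable_pi_apply _).comp hX)
  have hn : Measurable fun η : Conf ℂ => η.pts.ncard := by
    have := pvcn_ncard (E := ℂ) MeasurableSet.univ
    simpa only [inter_univ] using this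
  have e : (fun η : Conf ℂ => pvqmY W F t (pvqmFs η))
      = fun η => if η ∈ {η : Conf ℂ | η.pts.Finite} then G (η, η.pts.ncard) else pvqmY W F t ∅ := by
    funext η
    by_cases hf : η.pts.Finite
    · rw [if_pos (show η ∈ {η : Conf ℂ | η.pts.Finite} from hf)]
      have h1 := hX' η (by rwa [inter_univ])
      have h2 : Conf.restr univ η = η := by ext p; simp [Conf.restr]
      rw [h2, inter_univ, pvs_cell_eq_ofFn] at h1
      have hinj : Function.Injective fun i : Fin η.pts.ncard => X η i := by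
        have h3 : (range fun i : Fin η.pts.ncard => X η i) = η.pts := (congrArg Conf.pts h1).symm
        have h4 : (Finset.univ.image fun i : Fin η.pts.ncard => X η i).card = Fintype.card (Fin η.pts.ncard) := by
          rw [Fintype.card_fin, ← Set.ncard_coe_finset]
          congr 1
          rw [Finset.coe_image, Finset.coe_univ, image_univ, h3]
        have h5 := Finset.card_image_iff.1 h4
        exact fun a b hab => h5 (Finset.mem_coe.2 (Finset.mem_univ a)) (Finset.mem_coe.2 (Finset.mem_univ b)) hab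
      show _ = pvqzG W F t η.pts.ncard fun i : Fin η.pts.ncard => X η i
      rw [← pvqz_Y_ofFn W F t hinj, ← h1]
    · rw [if_neg (show η ∉ {η : Conf ℂ | η.pts.Finite} from hf)]
      have : pvqmFs η = ∅ := by unfold pvqmFs; rw [dif_neg hf]
      rw [this]
  rw [e]
  exact Measurable.ite pvqz_finite_meas (hG.comp (measurable_id.prodMk hn)) measurable_const


/-! ## 7. the `k`-replica identity -/

theorem pvqz_Pi_ofFn {k n : ℕ} (i : Fin k) (y : Fin n → ℂ × (Fin k → Bool)) : pvqzPi i (Conf.ofFn y) = Conf.ofFn fun l => ((y l).1, (y l).2 i) := by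
  ext p
  simp only [pvqzPi, Conf.image, Conf.ofFn, mem_image, mem_range]
  constructor
  · rintro ⟨_, ⟨l, rfl⟩, rfl⟩; exact ⟨l, rfl⟩
  · rintro ⟨l, rfl⟩; exact ⟨_, ⟨l, rfl⟩, rfl⟩

theorem pvqz_Q_bd {W : Set ℂ} (hW : PvqmWin W) (t : ℝ) {F : Conf PvPt → ℝ} (hF : PvqmBd F) : PvqmBd (pvrbQ (pppFin (pvqmI W (1 - t))) F) := by
  have := pvqi_I_prob hW (1 - t)
  exact ⟨pvrbQ_meas _ hF.meas, pvrbQ_nonneg _ hF.nonneg, pvrbQ_le_one _ hF.le_one⟩

theorem pvqz_abs_prod_le {κ α : Type*} (s : Finset κ) (f : κ → α → ℝ) (h0 : ∀ i a, 0 ≤ f i a) (h1 : ∀ i a, f i a ≤ 1) (a : α) :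
    |∏ i ∈ s, f i a| ≤ 1 := by
  rw [abs_of_nonneg (Finset.prod_nonneg fun i _ => h0 i a)]
  exact Finset.prod_le_one (fun i _ => h0 i a) fun i _ => h1 i a

/-- **(3)** -/
theorem pvqz_rep {W : Set ℂ} (hW : PvqmWin W) (t : ℝ) (k : ℕ) (g : Fin k → Conf PvPt → ℝ) (hg : ∀ i, PvqmBd (g i)) :
    ∫ η, ∏ i, pvqmY W (g i) t (pvqmFs η) ∂pppFin (pvqmIp W t) = pvqmM k W t g := by
  have := pvqi_Ip_fin hW t
  have hQ := fun i => pvqz_Q_bd hW t (hg i)
  have hna : NullSingletonClass (pvqmIp W t) := ⟨fun x => by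
    unfold pvqmIp
    rw [Measure.smul_apply, measure_singleton, smul_zero]⟩
  rw [pvqz_M_eq hW k t g hg, pvqzTh,
    pvqz_series (pvqmIp W t) (f := fun η => ∏ i, pvqmY W (g i) t (pvqmFs η))
      (Finset.measurable_fun_prod _ fun i _ => pvqz_Y_meas hW (hg i).meas t)
      (pvqz_abs_prod_le _ (fun i η => pvqmY W (g i) t (pvqmFs η)) (fun i η => pvqi_Y_nonneg (hg i) _ _) fun i η => pvqi_Y_le_one hW (hg i) _ _),
    pvqz_series ((pvqmIp W t).prod (pvqzKap k)) (f := fun Θ => ∏ i, pvrbQ (pppFin (pvqmI W (1 - t))) (g i) (pvqzPi i Θ))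
      (Finset.measurable_fun_prod _ fun i _ => (hQ i).meas.comp (pvqz_Pi_meas i))
      (pvqz_abs_prod_le _ (fun i Θ => pvrbQ (pppFin (pvqmI W (1 - t))) (g i) (pvqzPi i Θ)) (fun i Θ => (hQ i).nonneg _) fun i Θ => (hQ i).le_one _)]
  have hu : ((pvqmIp W t).prod (pvqzKap k)) univ = pvqmIp W t univ := by
    rw [← univ_prod_univ, Measure.prod_prod, measure_univ (μ := pvqzKap k), mul_one]
  rw [hu]
  refine tsum_congr fun n => ?_
  congr 1
  have hm : Measurable fun y : Fin n → ℂ × (Fin k → Bool) => ∏ i, pvrbQ (pppFin (pvqmI W (1 - t))) (g i) (pvqzPi i (Conf.ofFn y)) :=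
    Finset.measurable_fun_prod _ fun i _ => (hQ i).meas.comp ((pvqz_Pi_meas i).comp (Conf.measurable_ofFn n))
  rw [pvqz_integral_zip (pvqmIp W t) (pvqzKap k) n hm
    (pvqz_abs_prod_le _ (fun i y => pvrbQ (pppFin (pvqmI W (1 - t))) (g i) (pvqzPi i (Conf.ofFn y))) (fun i y => (hQ i).nonneg _)
      fun i y => (hQ i).le_one _)]
  refine integral_congr_ae ?_
  filter_upwards [pvs_ae_injective (pvqmIp W t) n] with x hx
  simp_rw [pvqz_Pi_ofFn, pvqz_Y_ofFn W _ t hx]
  exact (pvqz_integral_marks n k fun i d => pvrbQ (pppFin (pvqmI W (1 - t))) (g i) (Conf.ofFn fun l => (x l, d l))).symm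

/-- **the contract `PvqmRepK` of `Qbx/Main`** -/
theorem pvqz_main : PvqmRepK := fun W hW t _ =>
  ⟨fun F hF => pvqz_Y_meas hW hF.meas t, fun k g hg => pvqz_rep hW t k g hg⟩

end Claimed.Agent.R289
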