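import Claimed.Agent.R289.Qbx.Rect
import Claimed.Agent.R289.Arm.Law
import Claimed.Agent.R289.Exit.Qbx

/-!
# Row 289 (S0537), box QBX, file Qbx/Loc : THE EXIT OF QBX IN LOCAL FORM (= QARM of EXT)      (owner helper298; prefix `pvqa` / `Pvqa`)

STATUS: 0 sorry, UNCONDITIONAL (sec. 6).      Made to fit `PvxcPlan` (100, `Exit/ExtCut.lean`) field by field; NO mesh-locality argument is needed, because the event is 167's WINDOWED blocking event, local BY DEFINITION.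

* `pvqaEv b z u : Set (Conf PvPt)`      "`η ∩ N` is locally finite and its tessellation has NO arm of colour `b` (`true` = black) across the square annulus `(u/2, 5u/2)` round `z`", `N = pvqcN z u = {u/4 ≤ |· - z|_∞ < 4u}`;
  measurable (`pvqa_ev_meas`), read in `N` (`pvqa_ev_reads`).
* `pvqaIx g z u : Finset PvIx`      the indices of the active sites of `g` in `pvqcO z u` (`pvqa_mem_Ix`, at `PvgOk g`).
* (A1) `pvqa_loc : PvalLoc (pvqaIx g z u) (fun c => pvConf (pvMerge (g, c)) ∈ pvqaEv b z u)`,   `pvqa_dep` (`PvaDep I (pvqaIx g z u) ξ ..`).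
* (A2) `pvqa_Ix_disj` (disjoint windows), `pvqa_Ix_disj_scale` (`16 u ≤ u'`), `pvqa_tower_disj` (scales `16^i u`, `16^j u`).
* (A3) `pvqa_P_eq : pvqaIx g z u ⊆ I → pvaP I ξ (..) = (pvQc (pvqaEv b z u) g).toReal`.
* `PvqaGood q g z u := PvgOk g ∧ (all colourings of g are in the grid event pvqcG z u) ∧ ∀ b, ofReal q ≤ pvQc (pvqaEv b z u) g`.
* (A4) **`pvqa_unif`** : EX q > 0, ALL δ > 0, EX U > 0, ALL ε > 0, `u ≥ U ε`, `z` : `pvGeo ε {g | ¬ PvqaGood q g z u} ≤ δ`;   **`pvqa_family`** (fixed finite family of `(z, u)`: `→ 0`);   **`pvqa_tower`** (`PvqaTower q g Z u m`: centres `Z`, scales `16^j u`, `j < m`).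
* (A5) `PvqaGood.blocks` : good + the colouring `c` is in `pvqaEv b z u` ⟹ NO arm of colour `b` across `(u/2, 5u/2)` in the FULL configuration `pvConf (pvMerge (g, c))`.
* (A6) `PvqaGood.le_P : q ≤ pvaP I ξ (..)`;      `PvqaGood.arm_le` : complement form: `pvQc {arm of colour b across (u/2, 5u/2), full configuration} g ≤ 1 - q`.
* **`PvqaTower.fields`** : the five fields of `PvxcPlan` at one centre.
* sec. 6 also: the quenched box crossings and circuits of Qbx/Rect without hypothesis: `pvqa_rect`, `pvqa_circ`, `pvqa_rect_lim`, `pvqa_circ_lim`.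
-/

set_option autoImplicit false
set_option linter.unusedSectionVars false

namespace Claimed.Agent.R289

open MeasureTheory ProbabilityTheory Set Filter Topology Metric
open scoped ENNReal NNReal
open Claims.C0465

/-! ## 1. the windowed blocking events, both colours -/

/-- **the windowed blocking event for the colour `b`** (`true` = black): `η ∩ N` is locally finite and its tessellation has no arm of colour `b` across the square annulus `(u/2, 5u/2)` round `z`;      `N = pvqcN z u` -/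
def pvqaEv (b : Bool) (z : ℂ) (u : ℝ) : Set (Conf PvPt) := if b then pvqxBlk z u else cfFlip ⁻¹' pvqxBlk z u

theorem pvqa_eqns_cite : True := by
  have := @pvqaEv.eq_1
  trivial

theorem pvqa_ev_true (z : ℂ) (u : ℝ) : pvqaEv true z u = pvqxBlk z u := rfl

theorem pvqa_ev_false (z : ℂ) (u : ℝ) : pvqaEv false z u = cfFlip ⁻¹' pvqxBlk z u := rfl

theorem pvqa_ev_meas (b : Bool) (z : ℂ) (u : ℝ) : MeasurableSet (pvqaEv b z u) := by
  cases b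
  · exact measurable_cfFlip (pvqx_blk_meas z u)
  · exact pvqx_blk_meas z u

theorem pvqa_flip_restr (O : Set ℂ) (η : Conf PvPt) : cfFlip (Conf.restr {p : PvPt | p.1 ∈ O} η) = Conf.restr {p : PvPt | p.1 ∈ O} (cfFlip η) := by
  ext p
  simp only [cfFlip, Conf.restr, Conf.image, mem_image, mem_inter_iff, mem_ofPred_eq]
  constructor
  · rintro ⟨q, ⟨hq, hO⟩, rfl⟩
    exact ⟨⟨q, hq, rfl⟩, hO⟩
  · rintro ⟨⟨q, hq, rfl⟩, hO⟩
    exact ⟨q, ⟨hq, hO⟩, rfl⟩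

/-- **(A0)** the event is READ in the window `pvqcN z u` -/
theorem pvqa_ev_reads (b : Bool) (z : ℂ) (u : ℝ) (η : Conf PvPt) : Conf.restr (pvqcN z u) η ∈ pvqaEv b z u ↔ η ∈ pvqaEv b z u := by
  cases b
  · rw [pvqa_ev_false, mem_preimage, mem_preimage]
    have e : cfFlip (Conf.restr (pvqcN z u) η) = Conf.restr (pvqcN z u) (cfFlip η) := pvqa_flip_restr (pvqcO z u) η
    rw [e]
    unfold pvqxBlk
    rw [mem_preimage, mem_preimage, pvqc_restr_restr]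
  · rw [pvqa_ev_true]
    unfold pvqxBlk
    rw [mem_preimage, mem_preimage, pvqc_restr_restr]

theorem pvqa_Qc_flip (z : ℂ) (u : ℝ) (g : PvGeoT) (b : Bool) : pvQc (pvqaEv b z u) g = pvQc (pvqxBlk z u) g := by
  cases b
  · rw [pvqa_ev_false, pvqu_Qc_flip]
  · rfl

/-! ## 2. the grid event is colour blind -/

theorem pvqa_occ_blind {Q : Set ℂ} {η η' : Conf PvPt} (h : cfSites η = cfSites η') (hη : η ∈ pvmOcc (Q ×ˢ (univ : Set Bool))) : η' ∈ pvmOcc (Q ×ˢ (univ : Set Bool)) := by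
  obtain ⟨p, hp, hpQ⟩ := hη
  have h1 : p.1 ∈ cfSites η' := h ▸ ⟨p, hp, rfl⟩
  obtain ⟨p', hp', he⟩ := h1
  exact ⟨p', hp', by rw [mem_prod, he]; exact ⟨hpQ.1, mem_univ _⟩⟩

theorem pvqa_G_blind {z : ℂ} {u : ℝ} {η η' : Conf PvPt} (h : cfSites η = cfSites η') (hη : η ∈ pvqcG z u) : η' ∈ pvqcG z u := by
  unfold pvqcG pvmGood pvmGrid at hη ⊢
  simp only [mem_iInter] at hη ⊢
  exact fun k hk j hj => pvqa_occ_blind h (hη k hk j hj)

theorem pvqa_sites_flip (η : Conf PvPt) : cfSites (cfFlip η) = cfSites η := by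
  ext v
  simp only [cfSites, cfFlip, Conf.image, mem_image]
  constructor
  · rintro ⟨_, ⟨p, hp, rfl⟩, rfl⟩
    exact ⟨p, hp, rfl⟩
  · rintro ⟨p, hp, rfl⟩
    exact ⟨Prod.map id not p, ⟨p, hp, rfl⟩, rfl⟩

/-- **(A5)** on the grid event the windowed event blocks the arms of the FULL configuration -/
theorem pvqa_ev_blocks {b : Bool} {z : ℂ} {u : ℝ} (hu : 0 < u) {η : Conf PvPt} (hG : η ∈ pvqcG z u) (h : η ∈ pvqaEv b z u) :
    ¬ (rswArm z.re z.im (u / 2) (5 * u / 2)).Holds (if b then cfB η else cfW η) := by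
  cases b
  · intro ha
    have ha' : (rswArm z.re z.im (u / 2) (5 * u / 2)).Holds (cfW η) := ha
    rw [pvr_W_eq] at ha'
    have hG' : cfFlip η ∈ pvqcG z u := pvqa_G_blind (pvqa_sites_flip η).symm hG
    have h' : cfFlip η ∈ pvqxBlk z u := h
    exact pvqc_arm_loc hu hG' ha' h'.2
  · intro ha
    have h' : η ∈ pvqxBlk z u := h
    exact pvqc_arm_loc hu hG ha h'.2

/-! ## 3. the finite index sets -/

open Classical in
/-- **the indices of the active sites in the window** `pvqcO z u` (a finite set at a good geometry) -/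
noncomputable def pvqaIx (g : PvGeoT) (z : ℂ) (u : ℝ) : Finset PvIx := if h : (pvgIn g (pvqcN z u)).Finite then h.toFinset else ∅

theorem pvqa_eqns_cite2 : True := by
  have := @pvqaIx.eq_1
  trivial

theorem pvqa_N_bdd (z : ℂ) (u : ℝ) : Bornology.IsBounded (Prod.fst '' pvqcN z u) :=
  (pvqx_O_bdd z u).subset (by rintro _ ⟨p, hp, rfl⟩; exact hp)

theorem pvqa_coe_Ix {g : PvGeoT} (hg : PvgOk g) (z : ℂ) (u : ℝ) : (pvqaIx g z u : Set PvIx) = pvgIn g (pvqcN z u) := by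
  unfold pvqaIx
  rw [dif_pos (hg.in_finite (pvqa_N_bdd z u)), Set.Finite.coe_toFinset]

theorem pvqa_mem_Ix {g : PvGeoT} (hg : PvgOk g) {z : ℂ} {u : ℝ} {i : PvIx} : i ∈ pvqaIx g z u ↔ i ∈ pvgAct g ∧ pvgSite g i ∈ pvqcO z u := by
  rw [← Finset.mem_coe, pvqa_coe_Ix hg, pvqc_N_eq, pvqu_in_prod]
  rfl

/-- **(A1)** the event reads the colours of the finite set `pvqaIx g z u` only -/
theorem pvqa_loc {g : PvGeoT} (hg : PvgOk g) (b : Bool) (z : ℂ) (u : ℝ) : PvalLoc (pvqaIx g z u) (fun c : PvColT => pvConf (pvMerge (g, c)) ∈ pvqaEv b z u) := by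
  intro c c' h
  have hd := pvqu_loc_dep (pvqa_ev_reads b z u) g
  refine propext (hd.iff fun i hi => h i ?_)
  rw [← Finset.mem_coe, pvqa_coe_Ix hg]
  exact hi

/-- **(A2)** disjoint windows: disjoint index sets -/
theorem pvqa_Ix_disj {g : PvGeoT} (hg : PvgOk g) {z z' : ℂ} {u u' : ℝ} (h : Disjoint (pvqcO z u) (pvqcO z' u')) : Disjoint (pvqaIx g z u) (pvqaIx g z' u') := by
  rw [← Finset.disjoint_coe, pvqa_coe_Ix hg, pvqa_coe_Ix hg, pvqc_N_eq, pvqc_N_eq]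
  exact pvqu_in_disjoint h

/-- **(A2')** the same centre, scale ratio `≥ 16` -/
theorem pvqa_Ix_disj_scale {g : PvGeoT} (hg : PvgOk g) (z : ℂ) {u u' : ℝ} (h : 16 * u ≤ u') : Disjoint (pvqaIx g z u) (pvqaIx g z u') :=
  pvqa_Ix_disj hg (pvqc_O_disj z h)

/-- **(A3)** counting measure on a finite set of colours = quenched probability -/
theorem pvqa_P_eq {g : PvGeoT} (hg : PvgOk g) (b : Bool) (z : ℂ) (u : ℝ) {I : Finset PvIx} (hI : pvqaIx g z u ⊆ I) (ξ : PvColT) :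
    pvaP I ξ (fun c : PvColT => pvConf (pvMerge (g, c)) ∈ pvqaEv b z u) = (pvQc (pvqaEv b z u) g).toReal :=
  (pval_real (pval_loc_mono hI (pvqa_loc hg b z u)) ξ).symm

/-- dependence in the form of `PvxcPlan` -/
theorem pvqa_dep {g : PvGeoT} (hg : PvgOk g) (b : Bool) (z : ℂ) (u : ℝ) (I : Finset PvIx) (ξ : PvColT) :
    PvaDep I (pvqaIx g z u) ξ (fun c : PvColT => pvConf (pvMerge (g, c)) ∈ pvqaEv b z u) :=
  pval_loc_dep (pvqa_loc hg b z u) I ξ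

/-! ## 4. the good geometries -/

/-- **the geometry `g` is good at `(z, u)`**: general position, the grid event (colour blind), both windowed blocking events have quenched probability `≥ q` -/
def PvqaGood (q : ℝ) (g : PvGeoT) (z : ℂ) (u : ℝ) : Prop :=
  PvgOk g ∧ (∀ c : PvColT, pvConf (pvMerge (g, c)) ∈ pvqcG z u) ∧ ∀ b : Bool, ENNReal.ofReal q ≤ pvQc (pvqaEv b z u) g

theorem pvqa_eqns_cite3 : True := by
  have := @PvqaGood.eq_1
  trivial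

/-- **(A6)** consumer form of the lower bound -/
theorem PvqaGood.le_P {q : ℝ} {g : PvGeoT} {z : ℂ} {u : ℝ} (h : PvqaGood q g z u) (b : Bool) {I : Finset PvIx} (hI : pvqaIx g z u ⊆ I) (ξ : PvColT) :
    q ≤ pvaP I ξ (fun c : PvColT => pvConf (pvMerge (g, c)) ∈ pvqaEv b z u) := by
  rw [pvqa_P_eq h.1 b z u hI ξ]
  exact (ENNReal.ofReal_le_iff_le_toReal (pvqu_Qc_ne_top _ _)).1 (h.2.2 b)

/-- **(A5)** consumer form of the blocking -/
theorem PvqaGood.blocks {q : ℝ} {g : PvGeoT} {z : ℂ} {u : ℝ} (h : PvqaGood q g z u) (hu : 0 < u) {b : Bool} {c : PvColT} (hc : pvConf (pvMerge (g, c)) ∈ pvqaEv b z u) :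
    ¬ (rswArm z.re z.im (u / 2) (5 * u / 2)).Holds (if b then cfB (pvConf (pvMerge (g, c))) else cfW (pvConf (pvMerge (g, c)))) :=
  pvqa_ev_blocks hu (h.2.1 c) hc

/-- **complement form** (contract QARM of 74): at a good geometry the quenched probability of an arm of colour `b` across `(u/2, 5u/2)` in the FULL configuration is `≤ 1 - q` -/
theorem PvqaGood.arm_le {q : ℝ} {g : PvGeoT} {z : ℂ} {u : ℝ} (h : PvqaGood q g z u) (hu : 0 < u) (hq : 0 ≤ q) (b : Bool) :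
    pvQc {η | (rswArm z.re z.im (u / 2) (5 * u / 2)).Holds (if b then cfB η else cfW η)} g ≤ ENNReal.ofReal (1 - q) := by
  have h1 : pvQc {η | (rswArm z.re z.im (u / 2) (5 * u / 2)).Holds (if b then cfB η else cfW η)} g ≤ pvQc (pvqaEv b z u)ᶜ g := by
    rw [pvqu_Qc_eq, pvqu_Qc_eq]
    exact measure_mono fun c hc hmem => h.blocks hu hmem hc
  refine h1.trans ?_
  rw [pvqu_Qc_compl (pvqa_ev_meas b z u), ENNReal.ofReal_sub _ hq, ENNReal.ofReal_one]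
  exact tsub_le_tsub_left (h.2.2 b) 1

theorem PvqaGood.mono {q q' : ℝ} {g : PvGeoT} {z : ℂ} {u : ℝ} (h : PvqaGood q g z u) (hq : q' ≤ q) : PvqaGood q' g z u :=
  ⟨h.1, h.2.1, fun b => (ENNReal.ofReal_le_ofReal hq).trans (h.2.2 b)⟩

/-- Chebyshev for the windowed event at the mesh `ε`, centre `z`, scale `u` -/
theorem pvqa_cheb {c : ℝ} (hc : 0 < c) (hC : ∀ u : ℝ, 0 < u → c ≤ pvqmE (pvqcO 0 u) (pvqcF 0 u)) {ε u : ℝ} (hε : 0 < ε) (hu : 0 < u) (z : ℂ) :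
    pvGeo ε {g | pvQc (pvqxBlk z u) g < ENNReal.ofReal (c / 2)} ≤ ENNReal.ofReal (4 * pvqmV (pvqcO 0 (u / ε)) (pvqcF 0 (u / ε)) 1 / c ^ 2) := by
  have huε : 0 < u / ε := div_pos hu hε
  have h := pvqx_transfer (pvqc_O_meas 0 (u / ε)) (pvqc_O_fin 0 (u / ε)) (pvqc_blk_meas 0 (u / ε)) hε.ne' z (pvqx_blk_meas z u)
    (by rw [pvqx_blk_pull hε, pvqx_blk_eq]) hc (by rw [← pvqx_F_eq]; exact hC _ huε)
  rwa [← pvqx_F_eq] at h

/-- the grid event fails for SOME colouring: it fails for all of them -/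
theorem pvqa_grid_bad (ε : ℝ) {u : ℝ} (hu : 0 < u) (z : ℂ) :
    pvGeo ε {g | ∃ c : PvColT, pvConf (pvMerge (g, c)) ∉ pvqcG z u} ≤ ENNReal.ofReal (8 * 53 ^ 2 * Real.exp (-(u ^ 2 / (512 * ε ^ 2)))) := by
  have hsub : {g | ∃ c : PvColT, pvConf (pvMerge (g, c)) ∉ pvqcG z u} ⊆ {g | ENNReal.ofReal 1 ≤ pvQc (pvqcG z u)ᶜ g} := by
    rintro g ⟨c, hc⟩
    have hall : {c' : PvColT | pvConf (pvMerge (g, c')) ∈ (pvqcG z u)ᶜ} = univ := by
      refine eq_univ_of_forall fun c' hc' => hc (pvqa_G_blind ?_ hc')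
      rw [pvqu_cfSites, pvqu_cfSites]
    show ENNReal.ofReal 1 ≤ pvQc (pvqcG z u)ᶜ g
    rw [pvqu_Qc_eq, hall, measure_univ, ENNReal.ofReal_one]
  refine (measure_mono hsub).trans ((pvqx_markov ε (pvqc_G_meas z u).compl one_pos).trans ?_)
  rw [ENNReal.ofReal_one, div_one]
  exact pvqc_G_prob hu (pv_isPpp ε) z

/-- the bound at a fixed mesh -/
theorem pvqa_bad_le {c : ℝ} (hc : 0 < c) (hC : ∀ u : ℝ, 0 < u → c ≤ pvqmE (pvqcO 0 u) (pvqcF 0 u)) {ε u : ℝ} (hε : 0 < ε) (hu : 0 < u) (z : ℂ) :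
    pvGeo ε {g | ¬ PvqaGood (c / 2) g z u} ≤
      ENNReal.ofReal (4 * pvqmV (pvqcO 0 (u / ε)) (pvqcF 0 (u / ε)) 1 / c ^ 2) + ENNReal.ofReal (8 * 53 ^ 2 * Real.exp (-(u ^ 2 / (512 * ε ^ 2)))) := by
  have hsub : {g | ¬ PvqaGood (c / 2) g z u} ⊆
      {g | ¬ PvgOk g} ∪ ({g | pvQc (pvqxBlk z u) g < ENNReal.ofReal (c / 2)} ∪ {g | ∃ c : PvColT, pvConf (pvMerge (g, c)) ∉ pvqcG z u}) := by
    intro g hg
    by_contra hcon
    simp only [mem_union, mem_ofPred_eq, not_or, not_not, not_lt, not_exists] at hcon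
    exact hg ⟨hcon.1, hcon.2.2, fun b => by rw [pvqa_Qc_flip]; exact hcon.2.1⟩
  have h0 : pvGeo ε {g | ¬ PvgOk g} = 0 := ae_iff.1 (pvqu_ok_ae ε)
  refine (measure_mono hsub).trans ((measure_union_le _ _).trans ?_)
  rw [h0, zero_add]
  exact (measure_union_le _ _).trans (add_le_add (pvqa_cheb hc hC hε hu z) (pvqa_grid_bad ε hu z))

/-- **(A4) THE EXIT OF QBX IN LOCAL FORM**, uniform in the centre and in the scale -/
theorem pvqa_good_unif (h1 : PvqxS1) : ∃ q : ℝ, 0 < q ∧ ∀ δ : ℝ, 0 < δ → ∃ U : ℝ, 0 < U ∧ ∀ ε : ℝ, 0 < ε → ∀ u : ℝ, U * ε ≤ u → ∀ z : ℂ,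
    pvGeo ε {g | ¬ PvqaGood q g z u} ≤ ENNReal.ofReal δ := by
  obtain ⟨c, hC⟩ := pvqc_C0
  obtain ⟨hc, hC⟩ := hC 0
  refine ⟨c / 2, by positivity, fun δ hδ => ?_⟩
  obtain ⟨u1, hu1⟩ := h1 (δ * c ^ 2 / 8) (by positivity)
  have hexp : Tendsto (fun R : ℝ => Real.exp (-(R ^ 2 / 512))) atTop (𝓝 0) := by
    refine Real.tendsto_exp_neg_atTop_nhds_zero.comp ?_
    exact (tendsto_pow_atTop two_ne_zero).atTop_div_const (by norm_num)
  obtain ⟨u2, hu2⟩ := eventually_atTop.1 ((tendsto_order.1 hexp).2 (δ / (2 * (8 * 53 ^ 2))) (by positivity))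
  refine ⟨max 1 (max u1 u2), lt_of_lt_of_le one_pos (le_max_left _ _), fun ε hε u hu z => ?_⟩
  have hR : max 1 (max u1 u2) ≤ u / ε := by rwa [le_div_iff₀ hε]
  have hR1 : u1 ≤ u / ε := ((le_max_left _ _).trans (le_max_right _ _)).trans hR
  have hR2 : u2 ≤ u / ε := ((le_max_right _ _).trans (le_max_right _ _)).trans hR
  have hu0 : 0 < u := by
    have : 0 < u / ε := lt_of_lt_of_le one_pos ((le_max_left _ _).trans hR)
    have h2 := mul_pos this hε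
    rwa [div_mul_cancel₀ _ hε.ne'] at h2
  refine (pvqa_bad_le hc hC hε hu0 z).trans ?_
  have a1 : 4 * pvqmV (pvqcO 0 (u / ε)) (pvqcF 0 (u / ε)) 1 / c ^ 2 ≤ δ / 2 := by
    rw [div_le_iff₀ (by positivity)]
    have := hu1 _ hR1
    linarith
  have a2 : 8 * 53 ^ 2 * Real.exp (-(u ^ 2 / (512 * ε ^ 2))) ≤ δ / 2 := by
    have e2 := hu2 _ hR2
    have e3 : (u / ε) ^ 2 / 512 = u ^ 2 / (512 * ε ^ 2) := by
      rw [div_pow, div_div, mul_comm]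
    rw [e3] at e2
    rw [lt_div_iff₀ (by positivity)] at e2
    linarith
  calc ENNReal.ofReal (4 * pvqmV (pvqcO 0 (u / ε)) (pvqcF 0 (u / ε)) 1 / c ^ 2) + ENNReal.ofReal (8 * 53 ^ 2 * Real.exp (-(u ^ 2 / (512 * ε ^ 2))))
      ≤ ENNReal.ofReal (δ / 2) + ENNReal.ofReal (δ / 2) := add_le_add (ENNReal.ofReal_le_ofReal a1) (ENNReal.ofReal_le_ofReal a2)
    _ = ENNReal.ofReal δ := by
        rw [← ENNReal.ofReal_add (by positivity) (by positivity)]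
        congr 1
        ring

/-! ## 5. finite families, mesh `→ 0` -/

/-- one pair `(z, u)`, mesh `→ 0` -/
theorem pvqa_good_lim (h1 : PvqxS1) : ∃ q : ℝ, 0 < q ∧ ∀ (z : ℂ) (u : ℝ), 0 < u → Tendsto (fun ε : ℝ => pvGeo ε {g | ¬ PvqaGood q g z u}) (𝓝[>] 0) (𝓝 0) := by
  obtain ⟨q, hq, H⟩ := pvqa_good_unif h1
  refine ⟨q, hq, fun z u hu => pvqy_tendsto_of_unif hu fun δ hδ => ?_⟩
  obtain ⟨U, hU, H⟩ := H δ hδ
  exact ⟨U, hU, fun ε hε hs => H ε hε u hs z⟩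

/-- **(A7) a FIXED FINITE FAMILY of centres and scales**: all the pairs are good off a set of geometries whose probability tends to `0` -/
theorem pvqa_good_family (h1 : PvqxS1) : ∃ q : ℝ, 0 < q ∧ ∀ F : Finset (ℂ × ℝ), (∀ p ∈ F, 0 < p.2) →
    Tendsto (fun ε : ℝ => pvGeo ε {g | ¬ ∀ p ∈ F, PvqaGood q g p.1 p.2}) (𝓝[>] 0) (𝓝 0) := by
  obtain ⟨q, hq, H⟩ := pvqa_good_lim h1
  refine ⟨q, hq, fun F hF => ?_⟩
  have hsum : Tendsto (fun ε : ℝ => ∑ p ∈ F, pvGeo ε {g | ¬ PvqaGood q g p.1 p.2}) (𝓝[>] 0) (𝓝 0) := by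
    simpa using tendsto_finsetSum F fun p hp => H p.1 p.2 (hF p hp)
  refine tendsto_of_tendsto_of_tendsto_of_le_of_le tendsto_const_nhds hsum (fun _ => zero_le) fun ε => ?_
  have e : {g | ¬ ∀ p ∈ F, PvqaGood q g p.1 p.2} = ⋃ p ∈ F, {g | ¬ PvqaGood q g p.1 p.2} := by
    ext g
    simp only [mem_ofPred_eq, not_forall, mem_iUnion, exists_prop]
  show pvGeo ε {g | ¬ ∀ p ∈ F, PvqaGood q g p.1 p.2} ≤ _
  rw [e]
  exact measure_biUnion_finset_le _ _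

/-- **TOWERS**: `m` annuli of scales `16^j u`, `j < m`, round every centre of a finite set `Z` -/
def PvqaTower (q : ℝ) (g : PvGeoT) (Z : Finset ℂ) (u : ℝ) (m : ℕ) : Prop := ∀ z ∈ Z, ∀ j < m, PvqaGood q g z (16 ^ j * u)

theorem pvqa_eqns_cite4 : True := by
  have := @PvqaTower.eq_1
  trivial

theorem pvqa_tower_lim (h1 : PvqxS1) : ∃ q : ℝ, 0 < q ∧ ∀ (Z : Finset ℂ) (u : ℝ) (m : ℕ), 0 < u →
    Tendsto (fun ε : ℝ => pvGeo ε {g | ¬ PvqaTower q g Z u m}) (𝓝[>] 0) (𝓝 0) := by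
  classical
  obtain ⟨q, hq, H⟩ := pvqa_good_family h1
  refine ⟨q, hq, fun Z u m hu => ?_⟩
  have h := H ((Z ×ˢ Finset.range m).image fun p => (p.1, 16 ^ p.2 * u)) (by
    intro p hp
    obtain ⟨p', -, rfl⟩ := Finset.mem_image.1 hp
    show 0 < 16 ^ p'.2 * u
    positivity)
  refine h.congr fun ε => ?_
  congr 1
  ext g
  simp only [mem_ofPred_eq, PvqaTower]
  refine not_congr ⟨fun h z hz j hj => ?_, fun h p hp => ?_⟩
  · exact h (z, 16 ^ j * u) (Finset.mem_image.2 ⟨(z, j), Finset.mem_product.2 ⟨hz, Finset.mem_range.2 hj⟩, rfl⟩)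
  · obtain ⟨p', hp', rfl⟩ := Finset.mem_image.1 hp
    obtain ⟨h1, h2⟩ := Finset.mem_product.1 hp'
    exact h p'.1 h1 p'.2 (Finset.mem_range.1 h2)

/-- the index sets of a tower are pairwise disjoint -/
theorem pvqa_tower_disj {g : PvGeoT} (hg : PvgOk g) (z : ℂ) {u : ℝ} (hu : 0 < u) {i j : ℕ} (hij : i ≠ j) : Disjoint (pvqaIx g z (16 ^ i * u)) (pvqaIx g z (16 ^ j * u)) := by
  have key : ∀ i j : ℕ, i < j → Disjoint (pvqaIx g z (16 ^ i * u)) (pvqaIx g z (16 ^ j * u)) := by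
    intro i j h
    refine pvqa_Ix_disj_scale hg z ?_
    obtain ⟨d, rfl⟩ := Nat.exists_eq_add_of_lt h
    have e : (16 : ℝ) ^ (i + d + 1) = 16 * 16 ^ i * 16 ^ d := by rw [pow_succ, pow_add]; ring
    rw [e]
    have h1 : (1 : ℝ) ≤ 16 ^ d := one_le_pow₀ (by norm_num)
    have h2 : 0 < 16 * (16 ^ i * u) := by positivity
    nlinarith
  rcases lt_or_gt_of_ne hij with h | h
  · exact key i j h
  · exact (key j i h).symm

/-- all the indices read by a tower -/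
noncomputable def pvqaI (g : PvGeoT) (Z : Finset ℂ) (u : ℝ) (m : ℕ) : Finset PvIx := by
  classical
  exact Z.biUnion fun z => (Finset.range m).biUnion fun j => pvqaIx g z (16 ^ j * u)

theorem pvqa_eqns_cite5 : True := by
  have := @pvqaI.eq_1
  trivial

theorem pvqa_Ix_sub_I (g : PvGeoT) {Z : Finset ℂ} (u : ℝ) {m : ℕ} {z : ℂ} (hz : z ∈ Z) {j : ℕ} (hj : j < m) : pvqaIx g z (16 ^ j * u) ⊆ pvqaI g Z u m := by
  classical
  intro i hi
  unfold pvqaI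
  exact Finset.mem_biUnion.2 ⟨z, hz, Finset.mem_biUnion.2 ⟨j, Finset.mem_range.2 hj, hi⟩⟩

/-- **THE FIELDS OF `PvxcPlan`** (100, `Exit/ExtCut`) at one centre of a tower, colour `b` : `R j = pvqaIx g z (16^j u)`, `C j c₂ = (the colouring c₂ of g is in pvqaEv b z (16^j u))` -/
theorem PvqaTower.fields {q : ℝ} {g : PvGeoT} {Z : Finset ℂ} {u : ℝ} {m : ℕ} (h : PvqaTower q g Z u m) (hu : 0 < u) (hg : PvgOk g) {z : ℂ} (hz : z ∈ Z) (b : Bool)
    {I : Finset PvIx} (hI : pvqaI g Z u m ⊆ I) :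
    (∀ j ∈ Finset.range m, pvqaIx g z (16 ^ j * u) ⊆ I) ∧
    (∀ i ∈ Finset.range m, ∀ j ∈ Finset.range m, i ≠ j → Disjoint (pvqaIx g z (16 ^ i * u)) (pvqaIx g z (16 ^ j * u))) ∧
    (∀ j ∈ Finset.range m, ∀ ξ : PvColT, PvaDep I (pvqaIx g z (16 ^ j * u)) ξ (fun c : PvColT => pvConf (pvMerge (g, c)) ∈ pvqaEv b z (16 ^ j * u))) ∧
    (∀ j ∈ Finset.range m, ∀ ξ : PvColT, q ≤ pvaP I ξ (fun c : PvColT => pvConf (pvMerge (g, c)) ∈ pvqaEv b z (16 ^ j * u))) ∧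
    (∀ j ∈ Finset.range m, ∀ c : PvColT, pvConf (pvMerge (g, c)) ∈ pvqaEv b z (16 ^ j * u) →
      ¬ (rswArm z.re z.im (16 ^ j * u / 2) (5 * (16 ^ j * u) / 2)).Holds (if b then cfB (pvConf (pvMerge (g, c))) else cfW (pvConf (pvMerge (g, c))))) := by
  refine ⟨fun j hj => (pvqa_Ix_sub_I g u hz (Finset.mem_range.1 hj)).trans hI, fun i _ j _ hij => pvqa_tower_disj hg z hu hij,
    fun j _ ξ => pvqa_dep hg b z _ I ξ, fun j hj ξ => (h z hz j (Finset.mem_range.1 hj)).le_P b ((pvqa_Ix_sub_I g u hz (Finset.mem_range.1 hj)).trans hI) ξ,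
    fun j hj c hc => (h z hz j (Finset.mem_range.1 hj)).blocks (by positivity) hc⟩

/-! ## 6. UNCONDITIONAL FORMS      (`exit_pv_qbx_s1 : PvqxS1`, `Exit/Qbx.lean`) -/

/-- **QARM, uniform** -/
theorem pvqa_unif : ∃ q : ℝ, 0 < q ∧ ∀ δ : ℝ, 0 < δ → ∃ U : ℝ, 0 < U ∧ ∀ ε : ℝ, 0 < ε → ∀ u : ℝ, U * ε ≤ u → ∀ z : ℂ,
    pvGeo ε {g | ¬ PvqaGood q g z u} ≤ ENNReal.ofReal δ := pvqa_good_unif exit_pv_qbx_s1

/-- **QARM, fixed finite family** -/
theorem pvqa_family : ∃ q : ℝ, 0 < q ∧ ∀ F : Finset (ℂ × ℝ), (∀ p ∈ F, 0 < p.2) →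
    Tendsto (fun ε : ℝ => pvGeo ε {g | ¬ ∀ p ∈ F, PvqaGood q g p.1 p.2}) (𝓝[>] 0) (𝓝 0) := pvqa_good_family exit_pv_qbx_s1

/-- **QARM, towers** -/
theorem pvqa_tower : ∃ q : ℝ, 0 < q ∧ ∀ (Z : Finset ℂ) (u : ℝ) (m : ℕ), 0 < u →
    Tendsto (fun ε : ℝ => pvGeo ε {g | ¬ PvqaTower q g Z u m}) (𝓝[>] 0) (𝓝 0) := pvqa_tower_lim exit_pv_qbx_s1

/-- **quenched box crossings**, unconditional (`pvqy_rect`) -/
theorem pvqa_rect (ρ : ℝ) : ∃ q : ℝ, 0 < q ∧ ∀ δ : ℝ, 0 < δ → ∃ U : ℝ, 0 < U ∧ ∀ ε : ℝ, 0 < ε → ∀ x0 x1 y0 y1 : ℝ,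
    (x0 ≤ x1 → U * ε ≤ y1 - y0 → x1 - x0 ≤ ρ * (y1 - y0) →
      pvGeo ε {g | pvQc (pvrEv (rswLR x0 x1 y0 y1)) g < ENNReal.ofReal q} ≤ ENNReal.ofReal δ ∧
      pvGeo ε {g | pvQc (pvrEvW (rswLR x0 x1 y0 y1)) g < ENNReal.ofReal q} ≤ ENNReal.ofReal δ) ∧
    (y0 ≤ y1 → U * ε ≤ x1 - x0 → y1 - y0 ≤ ρ * (x1 - x0) →
      pvGeo ε {g | pvQc (pvrEv (rswTB x0 x1 y0 y1)) g < ENNReal.ofReal q} ≤ ENNReal.ofReal δ ∧
      pvGeo ε {g | pvQc (pvrEvW (rswTB x0 x1 y0 y1)) g < ENNReal.ofReal q} ≤ ENNReal.ofReal δ) := pvqy_rect exit_pv_qbx_s1 ρ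

/-- **quenched circuits**, unconditional (`pvqy_circ`) -/
theorem pvqa_circ : ∃ q : ℝ, 0 < q ∧ ∀ δ : ℝ, 0 < δ → ∃ U : ℝ, 0 < U ∧ ∀ ε : ℝ, 0 < ε → ∀ t : ℝ, U * ε ≤ t → ∀ cx cy : ℝ,
    pvGeo ε {g | pvQc {η | ∀ e ∈ pvreAnn cx cy t, e.Holds (cfB η)} g < ENNReal.ofReal q} ≤ ENNReal.ofReal δ ∧
    pvGeo ε {g | pvQc {η | ∀ e ∈ pvreAnn cx cy t, e.Holds (cfW η)} g < ENNReal.ofReal q} ≤ ENNReal.ofReal δ := pvqy_circ exit_pv_qbx_s1

/-- fixed rectangles, mesh `→ 0`, unconditional (`pvqy_rect_lim`) -/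
theorem pvqa_rect_lim (ρ : ℝ) : ∃ q : ℝ, 0 < q ∧ ∀ x0 x1 y0 y1 : ℝ,
    (x0 ≤ x1 → y0 < y1 → x1 - x0 ≤ ρ * (y1 - y0) →
      Tendsto (fun ε : ℝ => pvGeo ε {g | pvQc (pvrEv (rswLR x0 x1 y0 y1)) g < ENNReal.ofReal q}) (𝓝[>] 0) (𝓝 0) ∧
      Tendsto (fun ε : ℝ => pvGeo ε {g | pvQc (pvrEvW (rswLR x0 x1 y0 y1)) g < ENNReal.ofReal q}) (𝓝[>] 0) (𝓝 0)) ∧
    (y0 ≤ y1 → x0 < x1 → y1 - y0 ≤ ρ * (x1 - x0) →
      Tendsto (fun ε : ℝ => pvGeo ε {g | pvQc (pvrEv (rswTB x0 x1 y0 y1)) g < ENNReal.ofReal q}) (𝓝[>] 0) (𝓝 0) ∧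
      Tendsto (fun ε : ℝ => pvGeo ε {g | pvQc (pvrEvW (rswTB x0 x1 y0 y1)) g < ENNReal.ofReal q}) (𝓝[>] 0) (𝓝 0)) := pvqy_rect_lim exit_pv_qbx_s1 ρ

/-- fixed annulus, mesh `→ 0`, unconditional (`pvqy_circ_lim`) -/
theorem pvqa_circ_lim : ∃ q : ℝ, 0 < q ∧ ∀ t : ℝ, 0 < t → ∀ cx cy : ℝ,
    Tendsto (fun ε : ℝ => pvGeo ε {g | pvQc {η | ∀ e ∈ pvreAnn cx cy t, e.Holds (cfB η)} g < ENNReal.ofReal q}) (𝓝[>] 0) (𝓝 0) ∧
    Tendsto (fun ε : ℝ => pvGeo ε {g | pvQc {η | ∀ e ∈ pvreAnn cx cy t, e.Holds (cfW η)} g < ENNReal.ofReal q}) (𝓝[>] 0) (𝓝 0) := pvqy_circ_lim exit_pv_qbx_s1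

end Claimed.Agent.R289
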