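import Claimed.Agent.R289.Qbx.Link
import Claimed.Agent.R289.Qbx.Ss1
import Claimed.Agent.R289.Qbx.RevP

/-!
# Row 289 (S0537), box QBX (quenched box crossing), file Qbx/DomA : THE MODEL FREE HALF OF [DOM]      (owner helper96; prefix `pvqda`)

SS1 of 103 (`pvqk_ss1_prod`) in the vocabulary of `Qbx/Main`, with the reveal sets as HYPOTHESES.
* `pvqdaU u` : the law of the random level, uniform on `[u, 2u]`; `pvqda_U_lt`, `pvqda_U_le` : `P(|a - l| < r) ≤ P(|a - l| ≤ r) ≤ 2 r / u`.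
* `pvqda_gen` : THE GENERIC LEMMA (ruling 30, 09:15Z), bad levels `Bad x` measurable of mass `≤ α`: `∑_{x ∈ S} C(t,S,x)^2 ≤ α + Y(Vd)(t,S) + M`.
* `pvqda_main` : its form for `Bad x = {|a x - l| < rmax}`: (E1) `PvqkRev` for every finite hidden configuration and every level, (E3) the pointwise bound of the indicator of the reveal set
  `Ind ≤ 1{|a x - l| < rmax} + Vd conf + Q x conf`   ⟹   `∑_{x ∈ S} C(t,S,x)^2 ≤ 2 rmax / u + Y(Vd)(t,S) + M` if `Y(Q x)(t,S) ≤ M` for all `x ∈ S`.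
* `pvqdaG` : the dominating function `c + Y(Vd) + max_b Y(P b)`, measurable, integrable, `pvqda_G_ex`, `pvqda_dom` : `PvqmDom W F t (pvqdaG ..)`.
-/

set_option autoImplicit false
set_option linter.unusedSectionVars false

namespace Claimed.Agent.R289

open MeasureTheory ProbabilityTheory Set Filter
open scoped ENNReal NNReal

/-! ## 1. the random level -/

/-- the law of the random level: uniform on `[u, 2u]` -/
noncomputable def pvqdaU (u : ℝ) : Measure ℝ := ENNReal.ofReal u⁻¹ • (volume : Measure ℝ).restrict (Icc u (2 * u))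

theorem pvqda_eqns_cite : True := by
  have := @pvqdaU.eq_1
  trivial

theorem pvqda_U_prob {u : ℝ} (hu : 0 < u) : IsProbabilityMeasure (pvqdaU u) := by
  refine ⟨?_⟩
  unfold pvqdaU
  rw [Measure.smul_apply, Measure.restrict_apply_univ, Real.volume_Icc, smul_eq_mul, ← ENNReal.ofReal_mul (by positivity)]
  have : u⁻¹ * (2 * u - u) = 1 := by field_simp; ring
  rw [this, ENNReal.ofReal_one]

theorem pvqda_U_ae (u : ℝ) : ∀ᵐ l ∂(pvqdaU u), l ∈ Icc u (2 * u) := by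
  unfold pvqdaU
  refine Measure.ae_smul_measure ?_ _
  exact ae_restrict_mem measurableSet_Icc

theorem pvqda_lt_meas (a r : ℝ) : MeasurableSet {l : ℝ | |a - l| < r} :=
  measurableSet_lt (measurable_const.sub measurable_id).abs measurable_const

theorem pvqda_le_meas (a r : ℝ) : MeasurableSet {l : ℝ | |a - l| ≤ r} :=
  measurableSet_le (measurable_const.sub measurable_id).abs measurable_const

/-- the level is close to `a` with probability `≤ 2 r / u` -/
theorem pvqda_U_le {u : ℝ} (hu : 0 < u) (a : ℝ) {r : ℝ} (hr : 0 ≤ r) : (pvqdaU u {l : ℝ | |a - l| ≤ r}).toReal ≤ 2 * r / u := by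
  have h1 : pvqdaU u {l : ℝ | |a - l| ≤ r} ≤ ENNReal.ofReal (2 * r / u) := by
    unfold pvqdaU
    rw [Measure.smul_apply, smul_eq_mul]
    have h2 : (volume : Measure ℝ).restrict (Icc u (2 * u)) {l : ℝ | |a - l| ≤ r} ≤ ENNReal.ofReal (2 * r) := by
      refine (Measure.restrict_apply_le _ _).trans ?_
      have h3 : {l : ℝ | |a - l| ≤ r} ⊆ Icc (a - r) (a + r) := by
        intro l hl
        have := abs_le.1 (show |a - l| ≤ r from hl)
        exact ⟨by linarith [this.2], by linarith [this.1]⟩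
      refine (measure_mono h3).trans ?_
      rw [Real.volume_Icc]
      exact ENNReal.ofReal_le_ofReal (by linarith)
    calc ENNReal.ofReal u⁻¹ * (volume : Measure ℝ).restrict (Icc u (2 * u)) {l : ℝ | |a - l| ≤ r}
        ≤ ENNReal.ofReal u⁻¹ * ENNReal.ofReal (2 * r) := by gcongr
      _ = ENNReal.ofReal (2 * r / u) := by
        rw [← ENNReal.ofReal_mul (by positivity)]
        congr 1
        field_simp
  exact ENNReal.toReal_le_of_le_ofReal (by positivity) h1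

theorem pvqda_U_lt {u : ℝ} (hu : 0 < u) (a : ℝ) {r : ℝ} (hr : 0 ≤ r) : (pvqdaU u {l : ℝ | |a - l| < r}).toReal ≤ 2 * r / u := by
  have := pvqda_U_prob hu
  refine le_trans ?_ (pvqda_U_le hu a hr)
  exact ENNReal.toReal_mono (measure_ne_top _ _) (measure_mono fun l hl => le_of_lt (show |a - l| < r from hl))

theorem pvqda_ind_B {s : Set ℝ} (hs : MeasurableSet s) : PvqlB (s.indicator fun _ => (1 : ℝ)) := by
  refine ⟨measurable_const.indicator hs, 1, fun l => ?_⟩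
  by_cases h : l ∈ s
  · rw [indicator_of_mem h]; simp
  · rw [indicator_of_notMem h]; simp

/-! ## 2. averages over the colours -/

theorem pvqda_Av_integrable {F : Conf PvPt → ℝ} (hF : PvqmBd F) (μ : Measure (Conf PvPt)) [IsFiniteMeasure μ] (S : Finset ℂ) :
    Integrable (fun ζ => pvqkAv S fun T => F (Conf.union (pvqmCol S T) ζ)) μ := by
  unfold pvqkAv
  exact (integrable_finsetSum _ fun T _ => pvqi_bd_integrable hF μ _).const_mul _

theorem pvqda_Y_eq {W : Set ℂ} (hW : PvqmWin W) {F : Conf PvPt → ℝ} (hF : PvqmBd F) (t : ℝ) (S : Finset ℂ) :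
    ∫ ζ, (pvqkAv S fun T => F (Conf.union (pvqmCol S T) ζ)) ∂pppFin (pvqmI W (1 - t)) = pvqmY W F t S := by
  have := pvqi_I_prob hW (1 - t)
  unfold pvqkAv pvqmY pvqmAv
  rw [integral_const_mul, integral_finsetSum _ fun T _ => pvqi_bd_integrable hF _ _]

theorem pvqda_C_eq (W : Set ℂ) (F : Conf PvPt → ℝ) (t : ℝ) (S : Finset ℂ) (x : ℂ) :
    pvqmC W F t S x = pvqkAv S fun T => ∫ ζ, pvqkChi x T * F (Conf.union (pvqmCol S T) ζ) ∂pppFin (pvqmI W (1 - t)) := rfl

/-! ## 3. the model free half of [DOM] -/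

/-- **[DOM], model free** : `Bad x` = the bad levels of the point `x` -/
theorem pvqda_gen {W : Set ℂ} (hW : PvqmWin W) {F : Conf PvPt → ℝ} (hF : PvqmBd F) (t : ℝ) {u : ℝ} (hu : 0 < u)
    (S : Finset ℂ) (J : Conf PvPt × ℝ → Finset ℂ → Set ℂ) {Vd : Conf PvPt → ℝ} (hVd : PvqmBd Vd) {Q : ℂ → Conf PvPt → ℝ} (hQ : ∀ x ∈ S, PvqmBd (Q x))
    {Bad : ℂ → Set ℝ} (hBad : ∀ x ∈ S, MeasurableSet (Bad x)) {α : ℝ} (hα0 : 0 ≤ α) (hα : ∀ x ∈ S, (pvqdaU u (Bad x)).toReal ≤ α) {M : ℝ} (hM0 : 0 ≤ M)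
    (hE1 : ∀ ζ : Conf PvPt, ζ.pts.Finite → ∀ l : ℝ, PvqkRev S (fun T => F (Conf.union (pvqmCol S T) ζ)) (J (ζ, l)))
    (hE3 : ∀ x ∈ S, ∀ ζ : Conf PvPt, ζ.pts.Finite → ∀ l ∈ Icc u (2 * u), ∀ T ⊆ S,
      pvqkInd (J (ζ, l)) x T ≤ (Bad x).indicator (fun _ => (1 : ℝ)) l + Vd (Conf.union (pvqmCol S T) ζ) + Q x (Conf.union (pvqmCol S T) ζ))
    (hM : ∀ x ∈ S, pvqmY W (Q x) t S ≤ M) :
    ∑ x ∈ S, pvqmC W F t S x ^ 2 ≤ α + pvqmY W Vd t S + M := by
  have hp1 := pvqi_I_prob hW (1 - t)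
  have hp2 := pvqda_U_prob hu
  have hfin : ∀ᵐ ζ ∂pppFin (pvqmI W (1 - t)), ζ.pts.Finite := by
    have hf := pvqi_I_fin hW (1 - t)
    have := (pvqi_I_ppp hW (1 - t)).ae_finite MeasurableSet.univ (measure_ne_top _ _)
    simpa only [inter_univ] using this
  have hfin' : ∀ᵐ z ∂(pppFin (pvqmI W (1 - t))).prod (pvqdaU u), z.1.pts.Finite := Measure.quasiMeasurePreserving_fst.ae hfin
  have hlev' : ∀ᵐ z ∂(pppFin (pvqmI W (1 - t))).prod (pvqdaU u), z.2 ∈ Icc u (2 * u) := Measure.quasiMeasurePreserving_snd.ae (pvqda_U_ae u)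
  simp only [pvqda_C_eq]
  have i1 : ∀ x ∈ S, Integrable (fun z : Conf PvPt × ℝ => (Bad x).indicator (fun _ => (1 : ℝ)) z.2) ((pppFin (pvqmI W (1 - t))).prod (pvqdaU u)) :=
    fun x hx => ((pvqda_ind_B (hBad x hx)).comp measurable_snd).integrable
  have i2 : ∀ {H : Conf PvPt → ℝ}, PvqmBd H →
      Integrable (fun z : Conf PvPt × ℝ => pvqkAv S fun T => H (Conf.union (pvqmCol S T) z.1)) ((pppFin (pvqmI W (1 - t))).prod (pvqdaU u)) :=
    fun hH => (pvqda_Av_integrable hH (pppFin (pvqmI W (1 - t))) S).comp_fst _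
  refine pvqk_ss1_prod (pppFin (pvqmI W (1 - t))) (pvqdaU u) S (fun ζ T => F (Conf.union (pvqmCol S T) ζ)) J
    (fun x z => (Bad x).indicator (fun _ => (1 : ℝ)) z.2 + (pvqkAv S fun T => Vd (Conf.union (pvqmCol S T) z.1))
      + pvqkAv S fun T => Q x (Conf.union (pvqmCol S T) z.1)) _ ?_ ?_ ?_ ?_ ?_ ?_ ?_
  · exact fun T _ => (pvqi_bd_integrable hF _ _).aestronglyMeasurable
  · exact Eventually.of_forall fun ζ T _ => abs_le.2 ⟨by linarith [hF.nonneg (Conf.union (pvqmCol S T) ζ)], hF.le_one _⟩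
  · filter_upwards [hfin'] with z hz
    exact hE1 z.1 hz z.2
  · exact fun x hx => ((i1 x hx).add (i2 hVd)).add (i2 (hQ x hx))
  · filter_upwards [hfin', hlev'] with z hz hl x hx
    rw [← pvqkAv_const S ((Bad x).indicator (fun _ => (1 : ℝ)) z.2), ← pvqkAv_add, ← pvqkAv_add]
    exact pvqkAv_mono fun T hT => hE3 x hx z.1 hz z.2 hl T hT
  · intro x hx
    have i12 : Integrable (fun z : Conf PvPt × ℝ => (Bad x).indicator (fun _ => (1 : ℝ)) z.2 + pvqkAv S fun T => Vd (Conf.union (pvqmCol S T) z.1))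
        ((pppFin (pvqmI W (1 - t))).prod (pvqdaU u)) := (i1 x hx).add (i2 hVd)
    rw [integral_add i12 (i2 (hQ x hx))]
    rw [integral_add (i1 x hx) (i2 hVd),
      integral_fun_snd ((Bad x).indicator fun _ => (1 : ℝ)),
      integral_fun_fst (fun ζ : Conf PvPt => pvqkAv S fun T => Vd (Conf.union (pvqmCol S T) ζ)),
      integral_fun_fst (fun ζ : Conf PvPt => pvqkAv S fun T => Q x (Conf.union (pvqmCol S T) ζ)),
      pvqda_Y_eq hW hVd, pvqda_Y_eq hW (hQ x hx), integral_indicator_const _ (hBad x hx)]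
    simp only [probReal_univ, smul_eq_mul, mul_one, one_mul]
    have := hα x hx
    have := hM x hx
    unfold Measure.real
    linarith
  · have := pvqi_Y_nonneg (W := W) hVd t S
    positivity

/-- the bad levels are `|a x - l| < rmax` -/
theorem pvqda_main {W : Set ℂ} (hW : PvqmWin W) {F : Conf PvPt → ℝ} (hF : PvqmBd F) (t : ℝ) {u : ℝ} (hu : 0 < u) {rmax : ℝ} (hr : 0 ≤ rmax)
    (S : Finset ℂ) (J : Conf PvPt × ℝ → Finset ℂ → Set ℂ) {Vd : Conf PvPt → ℝ} (hVd : PvqmBd Vd) {Q : ℂ → Conf PvPt → ℝ} (hQ : ∀ x ∈ S, PvqmBd (Q x))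
    (a : ℂ → ℝ) {M : ℝ} (hM0 : 0 ≤ M)
    (hE1 : ∀ ζ : Conf PvPt, ζ.pts.Finite → ∀ l : ℝ, PvqkRev S (fun T => F (Conf.union (pvqmCol S T) ζ)) (J (ζ, l)))
    (hE3 : ∀ x ∈ S, ∀ ζ : Conf PvPt, ζ.pts.Finite → ∀ l ∈ Icc u (2 * u), ∀ T ⊆ S,
      pvqkInd (J (ζ, l)) x T ≤ (if |a x - l| < rmax then 1 else 0) + Vd (Conf.union (pvqmCol S T) ζ) + Q x (Conf.union (pvqmCol S T) ζ))
    (hM : ∀ x ∈ S, pvqmY W (Q x) t S ≤ M) :
    ∑ x ∈ S, pvqmC W F t S x ^ 2 ≤ 2 * rmax / u + pvqmY W Vd t S + M := by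
  refine pvqda_gen hW hF t hu S J hVd hQ (Bad := fun x => {l : ℝ | |a x - l| < rmax}) (fun x _ => pvqda_lt_meas _ _) (by positivity)
    (fun x _ => pvqda_U_lt hu _ hr) hM0 hE1 (fun x hx ζ hζ l hl T hT => ?_) hM
  refine (hE3 x hx ζ hζ l hl T hT).trans (le_of_eq ?_)
  have e : (if |a x - l| < rmax then (1 : ℝ) else 0) = {l : ℝ | |a x - l| < rmax}.indicator (fun _ => (1 : ℝ)) l := by
    by_cases h : |a x - l| < rmax
    · rw [if_pos h, indicator_of_mem (show l ∈ {l : ℝ | |a x - l| < rmax} from h)]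
    · rw [if_neg h, indicator_of_notMem (show l ∉ {l : ℝ | |a x - l| < rmax} from h)]
  rw [e]

/-! ## 4. the dominating function -/

/-- the dominating function `c + Y(Vd) + max_b Y(P b)` -/
noncomputable def pvqdaG (W : Set ℂ) (t c : ℝ) (Vd : Conf PvPt → ℝ) {B : Type} [Fintype B] [Nonempty B] (P : B → Conf PvPt → ℝ) (η : Conf ℂ) : ℝ :=
  c + pvqmY W Vd t (pvqmFs η) + Finset.univ.sup' Finset.univ_nonempty fun b => pvqmY W (P b) t (pvqmFs η)

theorem pvqda_eqns_cite2 : True := by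
  have := @pvqdaG.eq_1
  trivial

section G

variable {W : Set ℂ} (hW : PvqmWin W) (t c : ℝ) {Vd : Conf PvPt → ℝ} (hVd : PvqmBd Vd) {B : Type} [Fintype B] [Nonempty B] {P : B → Conf PvPt → ℝ}
  (hP : ∀ b, PvqmBd (P b))

include hW hVd hP

theorem pvqda_G_meas : Measurable (pvqdaG W t c Vd P) := by
  unfold pvqdaG
  refine (measurable_const.add (pvqn_Y_meas hW hVd t)).add ?_
  have := Finset.measurable_sup' (Finset.univ_nonempty (α := B)) (f := fun b (η : Conf ℂ) => pvqmY W (P b) t (pvqmFs η))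
    fun b _ => pvqn_Y_meas hW (hP b) t
  convert this using 1
  funext η
  rw [Finset.sup'_apply]

omit hW hVd hP in
theorem pvqda_G_ex (η : Conf ℂ) : ∃ b, pvqdaG W t c Vd P η = c + pvqmY W Vd t (pvqmFs η) + pvqmY W (P b) t (pvqmFs η) := by
  obtain ⟨b, -, hb⟩ := Finset.exists_mem_eq_sup' (Finset.univ_nonempty (α := B)) fun b => pvqmY W (P b) t (pvqmFs η)
  exact ⟨b, by unfold pvqdaG; rw [hb]⟩

theorem pvqda_G_abs_le (η : Conf ℂ) : |pvqdaG W t c Vd P η| ≤ |c| + 2 := by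
  obtain ⟨b, hb⟩ := pvqda_G_ex (W := W) t c (Vd := Vd) (P := P) η
  rw [hb]
  have h1 := pvqi_Y_nonneg (W := W) hVd t (pvqmFs η)
  have h2 := pvqi_Y_le_one hW hVd t (pvqmFs η)
  have h3 := pvqi_Y_nonneg (W := W) (hP b) t (pvqmFs η)
  have h4 := pvqi_Y_le_one hW (hP b) t (pvqmFs η)
  rw [abs_le]
  constructor
  · linarith [neg_abs_le c]
  · linarith [le_abs_self c]

theorem pvqda_G_integrable : Integrable (pvqdaG W t c Vd P) (pppFin (pvqmIp W t)) := by
  have := pvqi_Ip_prob hW t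
  exact PvqlB.integrable ⟨pvqda_G_meas hW t c hVd hP, _, pvqda_G_abs_le hW t c hVd hP⟩

omit hW hVd hP in
theorem pvqda_le_G (η : Conf ℂ) (b : B) : c + pvqmY W Vd t (pvqmFs η) + pvqmY W (P b) t (pvqmFs η) ≤ pvqdaG W t c Vd P η := by
  unfold pvqdaG
  have := Finset.le_sup' (fun b => pvqmY W (P b) t (pvqmFs η)) (Finset.mem_univ b)
  linarith

/-- **[DOM], model free, in the form of the contract** : for every finite `S ⊆ W` a reveal family `J`, levels `a`, blocks `b` (`none` = far from the annulus) -/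
theorem pvqda_dom {F : Conf PvPt → ℝ} (hF : PvqmBd F) {u : ℝ} (hu : 0 < u) {rmax : ℝ} (hr : 0 ≤ rmax)
    (h : ∀ S : Finset ℂ, (S : Set ℂ) ⊆ W → ∃ (J : Conf PvPt × ℝ → Finset ℂ → Set ℂ) (a : ℂ → ℝ) (b : ℂ → Option B),
      (∀ ζ : Conf PvPt, ζ.pts.Finite → ∀ l : ℝ, PvqkRev S (fun T => F (Conf.union (pvqmCol S T) ζ)) (J (ζ, l))) ∧
      ∀ x ∈ S, ∀ ζ : Conf PvPt, ζ.pts.Finite → ∀ l ∈ Icc u (2 * u), ∀ T ⊆ S,
        pvqkInd (J (ζ, l)) x T ≤ (if |a x - l| < rmax then 1 else 0) + Vd (Conf.union (pvqmCol S T) ζ)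
          + (match b x with | some k => P k (Conf.union (pvqmCol S T) ζ) | none => 0)) :
    PvqmDom W F t (pvqdaG W t (2 * rmax / u) Vd P) := by
  refine ⟨pvqda_G_meas hW t _ hVd hP, pvqda_G_integrable hW t _ hVd hP, fun S hS => ?_⟩
  obtain ⟨J, a, b, hE1, hE3⟩ := h S hS
  have hQ : ∀ x ∈ S, PvqmBd (fun ξ => match b x with | some k => P k ξ | none => 0) := by
    intro x _
    cases b x with
    | none => exact ⟨measurable_const, fun _ => le_rfl, fun _ => zero_le_one⟩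
    | some k => exact hP k
  have hM0 : 0 ≤ Finset.univ.sup' Finset.univ_nonempty fun k => pvqmY W (P k) t S := by
    obtain ⟨k⟩ := (inferInstance : Nonempty B)
    exact (pvqi_Y_nonneg (hP k) t S).trans (Finset.le_sup' (fun k => pvqmY W (P k) t S) (Finset.mem_univ k))
  have key := pvqda_main hW hF t hu hr S J hVd (Q := fun x ξ => match b x with | some k => P k ξ | none => 0) hQ a hM0 hE1 hE3 ?_
  · unfold pvqdaG
    rw [pvqn_Fs_coe]
    exact key
  · intro x _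
    cases hb : b x with
    | none =>
      refine le_trans (le_of_eq ?_) hM0
      unfold pvqmY pvqmAv
      simp
    | some k => exact Finset.le_sup' (fun k => pvqmY W (P k) t S) (Finset.mem_univ k)

end G

end Claimed.Agent.R289
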