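import Claimed.Agent.R289.Fkg

/-!
# Row 289 (S0537), box QBX, file Qbx/Kit : THE ABSTRACT KIT OF THE QUENCHED BOX      (owner helper77; prefixes `pvqb_` `pvqs_` `pvqe_` `pvqf_`)

Model free tools of the thinning bootstrap (design: 144, box_agmt_144.md; re-cut by 77, 30).  0 sorry.
* A. `pvqb_boot`      BOOT : the bootstrap on scales x time grid (pure real analysis).
* B. SS1 = Schramm-Steif level 1 by colour flips on a finite set `X` of fair bits (finite sums over the colourings `X → Bool`, no measure theory):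
     `pvqs_core`   rank form (`PvqsRank rk` : the colour of `y` is not read before the round `rk s y`), with weights `w`;
     `pvqsU seed step k s`, `pvqsJ seed step s` : LAYERED LOCAL exploration `U 0 = seed`, `U (k+1) = U k ∪ step (U k) s`, `PvqsLocal step`;
     `pvqsJ_seed`, `pvqsJ_closed`, `pvqsU_subset_J` (what the geometry needs about `J`);   `pvqs_layer` : SS1 for it;
     `pvqs_core_av`, `pvqs_aux_gen` (rank form / abstract revealment indicator), `pvqs_rank_frozen` (exploration on bits ⊕ hidden sites of frozen colours);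
     `pvqs_aux`    auxiliary randomness `a` : function, seed, step depend on `a` in ANY way (no measurability of the exploration);
                   only integrable upper bounds `π x a ≥ P_s(x ∈ J_a s)` : `∑ x, (∫ a, Av_s (F a s * χ_x s)) ^ 2 ≤ max_x ∫ π x`.
-/

set_option autoImplicit false
set_option linter.unusedSectionVars false
set_option linter.unusedVariables false
set_option linter.style.haveILetI false

namespace Claimed.Agent.R289

open MeasureTheory ProbabilityTheory Set Filter Topology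
open scoped ENNReal NNReal

/-! ## A. BOOT -/

/-- **BOOT**.  `v R j` = variance at scale `R` and time `j / n0`.  (H1) one time step costs `≤ vbar / 2`; (H2) if all the scales `ρ ∈ [kap R, th R]` are fine at time `j`
then the scale `R` is very fine at time `j`.  Then all large scales are very fine at the final time. -/
theorem pvqb_boot {v : ℝ → ℕ → ℝ} {n0 : ℕ} {vbar e0 R0 kap th : ℝ} (hR0 : 0 < R0) (hk0 : 0 < kap) (hk1 : kap ≤ 1) (he : e0 ≤ vbar / 2)
    (h0 : ∀ R, v R 0 ≤ vbar)
    (H1 : ∀ R j, j < n0 → v R (j + 1) ≤ v R j + vbar / 2)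
    (H2 : ∀ R j, R0 ≤ R → j ≤ n0 → (∀ ρ, kap * R ≤ ρ → ρ ≤ th * R → v ρ j ≤ vbar) → v R j ≤ e0) :
    ∀ R, R0 * kap⁻¹ ^ (n0 + 1) ≤ R → v R n0 ≤ e0 := by
  have hki : 1 ≤ kap⁻¹ := (one_le_inv₀ hk0).2 hk1
  have hQ : ∀ j, j ≤ n0 → ∀ R, R0 * kap⁻¹ ^ j ≤ R → v R j ≤ vbar := by
    intro j
    induction j with
    | zero => intro _ R _; exact h0 R
    | succ j ih =>
      intro hj R hR
      have hR0' : R0 ≤ R := by
        refine le_trans ?_ hR
        exact le_mul_of_one_le_right hR0.le (one_le_pow₀ hki)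
      have h2 := H2 R j hR0' (by omega) (fun ρ hρ _ => ih (by omega) ρ (by
        refine le_trans ?_ hρ
        have : kap * (R0 * kap⁻¹ ^ (j + 1)) ≤ kap * R := mul_le_mul_of_nonneg_left hR hk0.le
        refine le_trans (le_of_eq ?_) this
        rw [pow_succ]; field_simp))
      have h1 := H1 R j (by omega)
      linarith
  intro R hR
  have hR0' : R0 ≤ R := le_trans (le_mul_of_one_le_right hR0.le (one_le_pow₀ hki)) hR
  refine H2 R n0 hR0' le_rfl (fun ρ hρ _ => hQ n0 le_rfl ρ ?_)
  refine le_trans ?_ hρ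
  have : kap * (R0 * kap⁻¹ ^ (n0 + 1)) ≤ kap * R := mul_le_mul_of_nonneg_left hR hk0.le
  refine le_trans (le_of_eq ?_) this
  rw [pow_succ]; field_simp

/-! ## B. SS1 : Schramm-Steif, level 1 -/

section ss1

variable {X : Type*} [Fintype X] [DecidableEq X]

/-- flip of the colour of `y` -/
def pvqsFlip (y : X) (s : X → Bool) : X → Bool := Function.update s y (!s y)

/-- the sign of the colour of `x` -/
def pvqsChi (x : X) (s : X → Bool) : ℝ := if s x then 1 else -1

theorem pvqsFlip_flip (y : X) (s : X → Bool) : pvqsFlip y (pvqsFlip y s) = s := by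
  funext z
  by_cases h : z = y
  · subst h; simp [pvqsFlip]
  · simp [pvqsFlip, Function.update_of_ne h]

theorem pvqsFlip_ne {y z : X} (h : z ≠ y) (s : X → Bool) : pvqsFlip y s z = s z := by
  simp [pvqsFlip, Function.update_of_ne h]

theorem pvqsFlip_self (y : X) (s : X → Bool) : pvqsFlip y s y = !s y := by
  simp [pvqsFlip]

/-- the flip as a permutation of the colourings -/
def pvqsFlipE (y : X) : (X → Bool) ≃ (X → Bool) := ⟨pvqsFlip y, pvqsFlip y, pvqsFlip_flip y, pvqsFlip_flip y⟩

theorem pvqsChi_flip_self (y : X) (s : X → Bool) : pvqsChi y (pvqsFlip y s) = -pvqsChi y s := by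
  unfold pvqsChi
  rw [pvqsFlip_self]
  cases s y <;> simp

theorem pvqsChi_flip_ne {x y : X} (h : x ≠ y) (s : X → Bool) : pvqsChi x (pvqsFlip y s) = pvqsChi x s := by
  unfold pvqsChi
  rw [pvqsFlip_ne h]

theorem pvqsChi_sq (x : X) (s : X → Bool) : pvqsChi x s * pvqsChi x s = 1 := by
  unfold pvqsChi
  split_ifs <;> norm_num

theorem pvqsChi_abs (x : X) (s : X → Bool) : |pvqsChi x s| = 1 := by
  unfold pvqsChi
  split_ifs <;> norm_num

/-- a sum which changes sign under a flip vanishes -/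
theorem pvqs_sum_zero (y : X) (g : (X → Bool) → ℝ) (h : ∀ s, g (pvqsFlip y s) = -g s) : ∑ s, g s = 0 := by
  have h1 : ∑ s, g (pvqsFlip y s) = ∑ s, g s := Equiv.sum_comp (pvqsFlipE y) g
  have h2 : ∑ s, g (pvqsFlip y s) = -∑ s, g s := by
    rw [← Finset.sum_neg_distrib]; exact Finset.sum_congr rfl fun s _ => h s
  linarith

/-- the rank hypothesis: the colour of `y` is not read before the round `rk s y` -/
def PvqsRank (rk : (X → Bool) → X → ℕ) : Prop :=
  ∀ s y z j, j ≤ rk s y → (rk (pvqsFlip y s) z ≤ j ↔ rk s z ≤ j)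

theorem PvqsRank.self {rk : (X → Bool) → X → ℕ} (h : PvqsRank rk) (s : X → Bool) (y : X) : rk (pvqsFlip y s) y = rk s y := by
  apply le_antisymm
  · exact (h s y y _ le_rfl).2 le_rfl
  · by_contra hc
    push Not at hc
    have := (h s y y (rk (pvqsFlip y s) y) hc.le).1 le_rfl
    omega

theorem PvqsRank.le_iff {rk : (X → Bool) → X → ℕ} (h : PvqsRank rk) (s : X → Bool) (x y : X) :
    rk (pvqsFlip y s) x ≤ rk (pvqsFlip y s) y ↔ rk s x ≤ rk s y := by
  rw [h.self]; exact h s y x _ le_rfl

theorem PvqsRank.lt_iff {rk : (X → Bool) → X → ℕ} (h : PvqsRank rk) (s : X → Bool) (x y : X) :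
    rk (pvqsFlip x s) y < rk (pvqsFlip x s) x ↔ rk s y < rk s x := by
  rw [h.self]
  rcases Nat.eq_zero_or_pos (rk s x) with h0 | h0
  · simp [h0]
  · have := h s x y (rk s x - 1) (by omega)
    omega

/-- off-diagonal terms vanish -/
theorem pvqs_cross {rk : (X → Bool) → X → ℕ} (h : PvqsRank rk) (N : ℕ) {x y : X} (hxy : x ≠ y) :
    ∑ s, (if rk s x ≤ N then pvqsChi x s else 0) * (if rk s y ≤ N then pvqsChi y s else 0) = 0 := by
  have h1 : ∑ s, (if rk s x ≤ rk s y ∧ rk s y ≤ N then pvqsChi x s * pvqsChi y s else 0) = 0 := by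
    refine pvqs_sum_zero y _ fun s => ?_
    have e : (rk (pvqsFlip y s) x ≤ rk (pvqsFlip y s) y ∧ rk (pvqsFlip y s) y ≤ N) ↔ (rk s x ≤ rk s y ∧ rk s y ≤ N) := by
      rw [h.le_iff, h.self]
    by_cases c : rk s x ≤ rk s y ∧ rk s y ≤ N
    · rw [if_pos c, if_pos (e.2 c), pvqsChi_flip_self, pvqsChi_flip_ne hxy]; ring
    · rw [if_neg c, if_neg (fun c' => c (e.1 c'))]; simp
  have h2 : ∑ s, (if rk s y < rk s x ∧ rk s x ≤ N then pvqsChi x s * pvqsChi y s else 0) = 0 := by
    refine pvqs_sum_zero x _ fun s => ?_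
    have e : (rk (pvqsFlip x s) y < rk (pvqsFlip x s) x ∧ rk (pvqsFlip x s) x ≤ N) ↔ (rk s y < rk s x ∧ rk s x ≤ N) := by
      rw [h.lt_iff, h.self]
    by_cases c : rk s y < rk s x ∧ rk s x ≤ N
    · rw [if_pos c, if_pos (e.2 c), pvqsChi_flip_self, pvqsChi_flip_ne hxy.symm]; ring
    · rw [if_neg c, if_neg (fun c' => c (e.1 c'))]; simp
  have h3 : ∀ s, (if rk s x ≤ N then pvqsChi x s else 0) * (if rk s y ≤ N then pvqsChi y s else 0)
      = (if rk s x ≤ rk s y ∧ rk s y ≤ N then pvqsChi x s * pvqsChi y s else 0)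
        + (if rk s y < rk s x ∧ rk s x ≤ N then pvqsChi x s * pvqsChi y s else 0) := by
    intro s
    split_ifs <;> first | (exfalso; omega) | simp
  rw [Finset.sum_congr rfl fun s _ => h3 s, Finset.sum_add_distrib, h1, h2, add_zero]

/-- unrevealed bits do not correlate with `F` -/
theorem pvqs_unrev {rk : (X → Bool) → X → ℕ} (h : PvqsRank rk) (N : ℕ) {F : (X → Bool) → ℝ}
    (hF : ∀ s y, N < rk s y → F (pvqsFlip y s) = F s) (x : X) :
    ∑ s, F s * pvqsChi x s = ∑ s, F s * (if rk s x ≤ N then pvqsChi x s else 0) := by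
  have h1 : ∑ s, (if rk s x ≤ N then 0 else F s * pvqsChi x s) = 0 := by
    refine pvqs_sum_zero x _ fun s => ?_
    rw [h.self]
    by_cases c : rk s x ≤ N
    · simp [c]
    · rw [if_neg c, if_neg c, hF s x (not_le.1 c), pvqsChi_flip_self]; ring
  have h2 : ∀ s, F s * pvqsChi x s = F s * (if rk s x ≤ N then pvqsChi x s else 0) + (if rk s x ≤ N then 0 else F s * pvqsChi x s) := by
    intro s
    by_cases c : rk s x ≤ N <;> simp [c]
  rw [Finset.sum_congr rfl fun s _ => h2 s, Finset.sum_add_distrib, h1, add_zero]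

/-- **SS1, rank form, with weights** -/
theorem pvqs_core {rk : (X → Bool) → X → ℕ} (h : PvqsRank rk) (N : ℕ) {F : (X → Bool) → ℝ}
    (hF : ∀ s y, N < rk s y → F (pvqsFlip y s) = F s) (w : X → ℝ) :
    (∑ s, F s * ∑ x, w x * pvqsChi x s) ^ 2
      ≤ (∑ s, F s ^ 2) * ∑ x, w x ^ 2 * ((Finset.univ.filter fun s => rk s x ≤ N).card : ℝ) := by
  have e1 : ∑ s, F s * ∑ x, w x * pvqsChi x s = ∑ s, F s * ∑ x, w x * (if rk s x ≤ N then pvqsChi x s else 0) := by
    have a : ∀ (c : X → (X → Bool) → ℝ), ∑ s, F s * ∑ x, w x * c x s = ∑ x, w x * ∑ s, F s * c x s := by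
      intro c
      simp_rw [Finset.mul_sum]
      rw [Finset.sum_comm]
      refine Finset.sum_congr rfl fun x _ => Finset.sum_congr rfl fun s _ => by ring
    rw [a, a]
    exact Finset.sum_congr rfl fun x _ => by rw [pvqs_unrev h N hF x]
  have e2 : ∑ s, (∑ x, w x * (if rk s x ≤ N then pvqsChi x s else 0)) ^ 2
      = ∑ x, w x ^ 2 * ((Finset.univ.filter fun s => rk s x ≤ N).card : ℝ) := by
    have a : ∀ s, (∑ x, w x * (if rk s x ≤ N then pvqsChi x s else 0)) ^ 2
        = ∑ x, ∑ y, (w x * w y) * ((if rk s x ≤ N then pvqsChi x s else 0) * (if rk s y ≤ N then pvqsChi y s else 0)) := by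
      intro s
      rw [sq, Finset.sum_mul_sum]
      refine Finset.sum_congr rfl fun x _ => Finset.sum_congr rfl fun y _ => by ring
    rw [Finset.sum_congr rfl fun s _ => a s, Finset.sum_comm]
    refine Finset.sum_congr rfl fun x _ => ?_
    rw [Finset.sum_comm]
    rw [Finset.sum_eq_single x]
    · rw [← Finset.mul_sum, Finset.card_filter]
      push_cast
      rw [sq]
      congr 1
      refine Finset.sum_congr rfl fun s _ => ?_
      by_cases c : rk s x ≤ N
      · simp [c, pvqsChi_sq]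
      · simp [c]
    · intro y _ hy
      rw [← Finset.mul_sum, pvqs_cross h N (Ne.symm hy), mul_zero]
    · intro hx; exact absurd (Finset.mem_univ x) hx
  rw [e1, ← e2]
  exact Finset.sum_mul_sq_le_sq_mul_sq _ _ _

/-! ### layered explorations -/

/-- the set revealed after `k` rounds: `U 0 = seed`, `U (k+1) = U k ∪ step (U k) s` -/
def pvqsU (seed : Finset X) (step : Finset X → (X → Bool) → Finset X) : ℕ → (X → Bool) → Finset X
  | 0, _ => seed
  | k + 1, s => pvqsU seed step k s ∪ step (pvqsU seed step k s) s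

/-- a step reads only the colours of the revealed set -/
def PvqsLocal (step : Finset X → (X → Bool) → Finset X) : Prop :=
  ∀ V s s', (∀ x ∈ V, s x = s' x) → step V s = step V s'

/-- the final revealed set -/
def pvqsJ (seed : Finset X) (step : Finset X → (X → Bool) → Finset X) (s : X → Bool) : Finset X :=
  pvqsU seed step (Fintype.card X) s

variable {seed : Finset X} {step : Finset X → (X → Bool) → Finset X}

theorem pvqsU_zero (s : X → Bool) : pvqsU seed step 0 s = seed := rfl

theorem pvqsU_succ (k : ℕ) (s : X → Bool) : pvqsU seed step (k + 1) s = pvqsU seed step k s ∪ step (pvqsU seed step k s) s := rfl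

theorem pvqsU_mono (s : X → Bool) : Monotone fun k => pvqsU seed step k s :=
  monotone_nat_of_le_succ fun k => by rw [pvqsU_succ]; exact Finset.subset_union_left

/-- KEY LEMMA: the colour of `y` is not read before `y` is revealed -/
theorem pvqsU_flip (hl : PvqsLocal step) (s : X → Bool) (y : X) (j : ℕ) (h : ∀ i < j, y ∉ pvqsU seed step i s) :
    pvqsU seed step j (pvqsFlip y s) = pvqsU seed step j s := by
  induction j with
  | zero => rfl
  | succ j ih =>
    have e := ih fun i hi => h i (by omega)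
    rw [pvqsU_succ, pvqsU_succ, e]
    congr 1
    refine hl _ _ _ fun x hx => pvqsFlip_ne ?_ s
    rintro rfl
    exact h j (by omega) hx

theorem pvqsU_stable (s : X → Bool) {k : ℕ} (h : pvqsU seed step (k + 1) s = pvqsU seed step k s) (l : ℕ) :
    pvqsU seed step (k + l) s = pvqsU seed step k s := by
  induction l with
  | zero => rfl
  | succ l ih =>
    have e : pvqsU seed step (k + l + 1) s = pvqsU seed step (k + l) s ∪ step (pvqsU seed step (k + l) s) s := rfl
    have e' : pvqsU seed step (k + 1) s = pvqsU seed step k s ∪ step (pvqsU seed step k s) s := rfl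
    rw [← add_assoc, e, ih, ← e', h]

theorem pvqsU_card (s : X → Bool) (k : ℕ) :
    k ≤ (pvqsU seed step k s).card ∨ ∃ i < k, pvqsU seed step (i + 1) s = pvqsU seed step i s := by
  induction k with
  | zero => left; exact Nat.zero_le _
  | succ k ih =>
    rcases ih with h | ⟨i, hi, h⟩
    · by_cases e : pvqsU seed step (k + 1) s = pvqsU seed step k s
      · right; exact ⟨k, by omega, e⟩
      · left
        have hss : pvqsU seed step k s ⊂ pvqsU seed step (k + 1) s :=
          lt_of_le_of_ne (pvqsU_mono s (Nat.le_succ k)) (Ne.symm e)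
        have := Finset.card_lt_card hss
        omega
    · right; exact ⟨i, by omega, h⟩

/-- the final set is closed under the step -/
theorem pvqsJ_closed (s : X → Bool) : step (pvqsJ seed step s) s ⊆ pvqsJ seed step s := by
  have key : pvqsU seed step (Fintype.card X + 1) s = pvqsU seed step (Fintype.card X) s := by
    rcases pvqsU_card (seed := seed) (step := step) s (Fintype.card X + 1) with h | ⟨i, hi, h⟩
    · have := Finset.card_le_univ (pvqsU seed step (Fintype.card X + 1) s)
      omega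
    · have h1 := pvqsU_stable s h (Fintype.card X + 1 - i)
      have h2 := pvqsU_stable s h (Fintype.card X - i)
      rw [show i + (Fintype.card X + 1 - i) = Fintype.card X + 1 by omega] at h1
      rw [show i + (Fintype.card X - i) = Fintype.card X by omega] at h2
      rw [h1, h2]
  unfold pvqsJ
  have e : pvqsU seed step (Fintype.card X + 1) s
      = pvqsU seed step (Fintype.card X) s ∪ step (pvqsU seed step (Fintype.card X) s) s := rfl
  intro x hx
  have hx' : x ∈ pvqsU seed step (Fintype.card X + 1) s := by rw [e]; exact Finset.mem_union_right _ hx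
  rwa [key] at hx'

theorem pvqsJ_seed (s : X → Bool) : seed ⊆ pvqsJ seed step s := pvqsU_mono (seed := seed) (step := step) s (Nat.zero_le _)

theorem pvqsU_subset_J (s : X → Bool) (k : ℕ) : pvqsU seed step k s ⊆ pvqsJ seed step s := by
  induction k with
  | zero => exact pvqsJ_seed s
  | succ k ih =>
    rcases le_total (k + 1) (Fintype.card X) with h | h
    · exact pvqsU_mono (seed := seed) (step := step) s h
    · -- beyond the cardinality nothing is added
      have key : pvqsU seed step (Fintype.card X + 1) s = pvqsU seed step (Fintype.card X) s := by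
        apply le_antisymm
        · rw [pvqsU_succ]; exact Finset.union_subset subset_rfl (pvqsJ_closed s)
        · exact pvqsU_mono (seed := seed) (step := step) s (Nat.le_succ _)
      have := pvqsU_stable s key (k + 1 - Fintype.card X)
      rw [show Fintype.card X + (k + 1 - Fintype.card X) = k + 1 by omega] at this
      rw [this]; exact subset_rfl

/-- the round in which `x` is revealed (`card X + 1` if never) -/
def pvqsRk (seed : Finset X) (step : Finset X → (X → Bool) → Finset X) (s : X → Bool) (x : X) : ℕ :=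
  Nat.find (p := fun k => x ∈ pvqsU seed step k s ∨ k = Fintype.card X + 1) ⟨Fintype.card X + 1, Or.inr rfl⟩

theorem pvqsRk_le_iff (s : X → Bool) (x : X) (j : ℕ) :
    pvqsRk seed step s x ≤ j ↔ x ∈ pvqsU seed step j s ∨ Fintype.card X + 1 ≤ j := by
  unfold pvqsRk
  rw [Nat.find_le_iff]
  constructor
  · rintro ⟨k, hk, h | h⟩
    · exact Or.inl (pvqsU_mono (seed := seed) (step := step) s hk h)
    · exact Or.inr (h ▸ hk)
  · rintro (h | h)
    · exact ⟨j, le_rfl, Or.inl h⟩
    · exact ⟨_, h, Or.inr rfl⟩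

theorem pvqsRk_rank (hl : PvqsLocal step) : PvqsRank (pvqsRk seed step) := by
  intro s y z j hj
  rw [pvqsRk_le_iff, pvqsRk_le_iff, pvqsU_flip hl s y j]
  intro i hi hy
  have := (pvqsRk_le_iff (seed := seed) (step := step) s y i).2 (Or.inl hy)
  omega

theorem pvqsRk_le_card (s : X → Bool) (x : X) : pvqsRk seed step s x ≤ Fintype.card X ↔ x ∈ pvqsJ seed step s := by
  rw [pvqsRk_le_iff]
  constructor
  · rintro (h | h)
    · exact h
    · omega
  · exact Or.inl

/-- normalised average over the colourings -/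
noncomputable def pvqsAv (g : (X → Bool) → ℝ) : ℝ := (∑ s, g s) / (2 : ℝ) ^ Fintype.card X

theorem pvqsAv_const (c : ℝ) : pvqsAv (fun _ : X → Bool => c) = c := by
  unfold pvqsAv
  rw [Finset.sum_const, Finset.card_univ, Fintype.card_fun, Fintype.card_bool, nsmul_eq_mul]
  push_cast
  field_simp

theorem pvqsAv_mono {g g' : (X → Bool) → ℝ} (h : ∀ s, g s ≤ g' s) : pvqsAv g ≤ pvqsAv g' := by
  unfold pvqsAv
  exact div_le_div_of_nonneg_right (Finset.sum_le_sum fun s _ => h s) (by positivity)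

theorem pvqsAv_nonneg {g : (X → Bool) → ℝ} (h : ∀ s, 0 ≤ g s) : 0 ≤ pvqsAv g := by
  unfold pvqsAv
  exact div_nonneg (Finset.sum_nonneg fun s _ => h s) (by positivity)

theorem pvqsAv_sum {ι : Type*} (t : Finset ι) (g : ι → (X → Bool) → ℝ) : pvqsAv (fun s => ∑ i ∈ t, g i s) = ∑ i ∈ t, pvqsAv (g i) := by
  unfold pvqsAv
  rw [Finset.sum_comm, Finset.sum_div]

theorem pvqsAv_mul_left (c : ℝ) (g : (X → Bool) → ℝ) : pvqsAv (fun s => c * g s) = c * pvqsAv g := by
  unfold pvqsAv
  rw [← Finset.mul_sum, mul_div_assoc]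

theorem pvqsAv_abs_le {g : (X → Bool) → ℝ} {C : ℝ} (h : ∀ s, |g s| ≤ C) : |pvqsAv g| ≤ C := by
  rw [abs_le]
  constructor
  · have := pvqsAv_mono (g := fun _ => -C) (g' := g) fun s => (abs_le.1 (h s)).1
    rwa [pvqsAv_const] at this
  · have := pvqsAv_mono (g := g) (g' := fun _ => C) fun s => (abs_le.1 (h s)).2
    rwa [pvqsAv_const] at this

/-- **SS1 for a layered exploration, with weights** -/
theorem pvqs_layer (hl : PvqsLocal step) {F : (X → Bool) → ℝ}
    (hF : ∀ s y, y ∉ pvqsJ seed step s → F (pvqsFlip y s) = F s) (w : X → ℝ) :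
    (pvqsAv fun s => F s * ∑ x, w x * pvqsChi x s) ^ 2
      ≤ (pvqsAv fun s => F s ^ 2) * ∑ x, w x ^ 2 * pvqsAv fun s => if x ∈ pvqsJ seed step s then 1 else 0 := by
  have h := pvqs_core (pvqsRk_rank (seed := seed) hl) (Fintype.card X) (F := F)
    (fun s y hy => hF s y fun hc => by have := (pvqsRk_le_card (seed := seed) (step := step) s y).2 hc; omega) w
  have e : ∀ x, ((Finset.univ.filter fun s => pvqsRk seed step s x ≤ Fintype.card X).card : ℝ)
      = ∑ s, if x ∈ pvqsJ seed step s then (1 : ℝ) else 0 := by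
    intro x
    rw [Finset.card_filter]
    push_cast
    exact Finset.sum_congr rfl fun s _ => by simp only [pvqsRk_le_card]
  simp only [e] at h
  unfold pvqsAv
  have hZ : (0 : ℝ) < (2 : ℝ) ^ Fintype.card X := by positivity
  rw [div_pow, div_le_iff₀ (by positivity)]
  calc _ ≤ _ := h
    _ = _ := by
      have : ∑ x, w x ^ 2 * ((∑ s, if x ∈ pvqsJ seed step s then (1 : ℝ) else 0) / (2 : ℝ) ^ Fintype.card X)
          = (∑ x, w x ^ 2 * ∑ s, if x ∈ pvqsJ seed step s then (1 : ℝ) else 0) / (2 : ℝ) ^ Fintype.card X := by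
        rw [Finset.sum_div]; exact Finset.sum_congr rfl fun x _ => by ring
      rw [this]; field_simp

/-- `(E g)^2 ≤ E g^2` -/
theorem pvq_sq_integral_le {A : Type*} [MeasurableSpace A] (α : Measure A) [IsProbabilityMeasure α] {g : A → ℝ}
    (hg : Integrable g α) (hg2 : Integrable (fun a => g a ^ 2) α) : (∫ a, g a ∂α) ^ 2 ≤ ∫ a, g a ^ 2 ∂α := by
  set m := ∫ a, g a ∂α with hm
  have h0 : 0 ≤ ∫ a, (g a - m) ^ 2 ∂α := integral_nonneg fun a => sq_nonneg _
  have e : ∫ a, (g a - m) ^ 2 ∂α = ∫ a, g a ^ 2 ∂α - 2 * m * m + m ^ 2 := by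
    have e1 : ∀ a, (g a - m) ^ 2 = g a ^ 2 - 2 * m * g a + m ^ 2 := fun a => by ring
    simp_rw [e1]
    have i1 : Integrable (fun a => 2 * m * g a) α := hg.const_mul _
    have i2 : Integrable (fun a => g a ^ 2 - 2 * m * g a) α := hg2.sub i1
    have a1 : ∫ a, (g a ^ 2 - 2 * m * g a + m ^ 2) ∂α = ∫ a, (g a ^ 2 - 2 * m * g a) ∂α + ∫ _a, m ^ 2 ∂α :=
      integral_add i2 (integrable_const _)
    have a2 : ∫ a, (g a ^ 2 - 2 * m * g a) ∂α = ∫ a, g a ^ 2 ∂α - ∫ a, 2 * m * g a ∂α := integral_sub hg2 i1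
    rw [a1, a2, integral_const_mul, integral_const]
    simp [← hm]
  nlinarith

/-- **SS1, rank form, averages** -/
theorem pvqs_core_av {rk : (X → Bool) → X → ℕ} (h : PvqsRank rk) (N : ℕ) {F : (X → Bool) → ℝ}
    (hF : ∀ s y, N < rk s y → F (pvqsFlip y s) = F s) (w : X → ℝ) :
    (pvqsAv fun s => F s * ∑ x, w x * pvqsChi x s) ^ 2
      ≤ (pvqsAv fun s => F s ^ 2) * ∑ x, w x ^ 2 * pvqsAv fun s => if rk s x ≤ N then 1 else 0 := by
  have h := pvqs_core h N hF w
  have e : ∀ x, ((Finset.univ.filter fun s => rk s x ≤ N).card : ℝ) = ∑ s, if rk s x ≤ N then (1 : ℝ) else 0 := by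
    intro x
    rw [Finset.card_filter]
    push_cast
    rfl
  simp only [e] at h
  unfold pvqsAv
  have hZ : (0 : ℝ) < (2 : ℝ) ^ Fintype.card X := by positivity
  rw [div_pow, div_le_iff₀ (by positivity)]
  calc _ ≤ _ := h
    _ = _ := by
      have : ∑ x, w x ^ 2 * ((∑ s, if rk s x ≤ N then (1 : ℝ) else 0) / (2 : ℝ) ^ Fintype.card X)
          = (∑ x, w x ^ 2 * ∑ s, if rk s x ≤ N then (1 : ℝ) else 0) / (2 : ℝ) ^ Fintype.card X := by
        rw [Finset.sum_div]; exact Finset.sum_congr rfl fun x _ => by ring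
      rw [this]; field_simp

/-- **SS1 with auxiliary randomness, general form**: `R a s x ≥ 0` = indicator of "`x` is revealed"; the level-1 inequality is asked at a.e. fixed `a`. -/
theorem pvqs_aux_gen {A : Type*} [MeasurableSpace A] (α : Measure A) [IsProbabilityMeasure α]
    (F : A → (X → Bool) → ℝ) (hFm : ∀ s, Measurable fun a => F a s) (hF1 : ∀ a s, |F a s| ≤ 1)
    (R : A → (X → Bool) → X → ℝ) (hR0 : ∀ a s x, 0 ≤ R a s x)
    (hss : ∀ᵐ a ∂α, ∀ w : X → ℝ, (pvqsAv fun s => F a s * ∑ x, w x * pvqsChi x s) ^ 2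
      ≤ (pvqsAv fun s => F a s ^ 2) * ∑ x, w x ^ 2 * pvqsAv fun s => R a s x)
    (π : X → A → ℝ) (hπi : ∀ x, Integrable (π x) α)
    (hπ : ∀ᵐ a ∂α, ∀ x, (pvqsAv fun s => R a s x) ≤ π x a)
    {δ : ℝ} (hδ0 : 0 ≤ δ) (hδ : ∀ x, ∫ a, π x a ∂α ≤ δ) :
    ∑ x, (∫ a, pvqsAv (fun s => F a s * pvqsChi x s) ∂α) ^ 2 ≤ δ := by
  set c : X → ℝ := fun x => ∫ a, pvqsAv (fun s => F a s * pvqsChi x s) ∂α with hc
  set S : ℝ := ∑ x, c x ^ 2 with hS
  have hS0 : 0 ≤ S := Finset.sum_nonneg fun x _ => sq_nonneg _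
  -- measurability and bounds
  have hAm : ∀ x, Measurable fun a => pvqsAv (fun s => F a s * pvqsChi x s) := by
    intro x
    unfold pvqsAv
    exact (Finset.measurable_sum _ fun s _ => (hFm s).mul_const _).div_const _
  have hAb : ∀ x a, |pvqsAv (fun s => F a s * pvqsChi x s)| ≤ 1 := by
    intro x a
    refine pvqsAv_abs_le fun s => ?_
    rw [abs_mul, pvqsChi_abs, mul_one]; exact hF1 a s
  have hAi : ∀ x, Integrable (fun a => pvqsAv (fun s => F a s * pvqsChi x s)) α := fun x =>
    Integrable.of_bound (hAm x).aestronglyMeasurable 1 (ae_of_all _ fun a => by rw [Real.norm_eq_abs]; exact hAb x a)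
  set g : A → ℝ := fun a => ∑ x, c x * pvqsAv (fun s => F a s * pvqsChi x s) with hg
  have hgm : Measurable g := Finset.measurable_sum _ fun x _ => (hAm x).const_mul _
  have hgb : ∀ a, |g a| ≤ ∑ x, |c x| := by
    intro a
    refine (Finset.abs_sum_le_sum_abs _ _).trans (Finset.sum_le_sum fun x _ => ?_)
    rw [abs_mul]
    exact mul_le_of_le_one_right (abs_nonneg _) (hAb x a)
  have hgi : Integrable g α :=
    Integrable.of_bound hgm.aestronglyMeasurable _ (ae_of_all _ fun a => by rw [Real.norm_eq_abs]; exact hgb a)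
  have hg2i : Integrable (fun a => g a ^ 2) α :=
    Integrable.of_bound (hgm.pow_const 2).aestronglyMeasurable ((∑ x, |c x|) ^ 2) (ae_of_all _ fun a => by
      rw [Real.norm_eq_abs, abs_pow]
      exact pow_le_pow_left₀ (abs_nonneg _) (hgb a) 2)
  have e1 : ∫ a, g a ∂α = S := by
    rw [hg, integral_finsetSum _ fun x _ => (hAi x).const_mul _]
    refine Finset.sum_congr rfl fun x _ => ?_
    rw [integral_const_mul, sq]
  have e2 : ∀ a, g a = pvqsAv fun s => F a s * ∑ x, c x * pvqsChi x s := by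
    intro a
    rw [hg]
    simp only
    simp_rw [← pvqsAv_mul_left]
    rw [← pvqsAv_sum]
    congr 1
    funext s
    rw [Finset.mul_sum]
    exact Finset.sum_congr rfl fun x _ => by ring
  have h3 : ∀ᵐ a ∂α, g a ^ 2 ≤ ∑ x, c x ^ 2 * π x a := by
    filter_upwards [hss, hπ] with a ha hpa
    have h := ha c
    rw [← e2] at h
    have hF2 : (pvqsAv fun s => F a s ^ 2) ≤ 1 := by
      have := pvqsAv_mono (g := fun s => F a s ^ 2) (g' := fun _ => 1) fun s => by
        have := hF1 a s
        rw [← sq_abs]; exact pow_le_one₀ (abs_nonneg _) this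
      rwa [pvqsAv_const] at this
    have hsum0 : 0 ≤ ∑ x, c x ^ 2 * pvqsAv fun s => R a s x :=
      Finset.sum_nonneg fun x _ => mul_nonneg (sq_nonneg _) (pvqsAv_nonneg fun s => hR0 a s x)
    calc g a ^ 2 ≤ _ := h
      _ ≤ 1 * ∑ x, c x ^ 2 * pvqsAv fun s => R a s x := mul_le_mul_of_nonneg_right hF2 hsum0
      _ ≤ _ := by
          rw [one_mul]
          exact Finset.sum_le_sum fun x _ => mul_le_mul_of_nonneg_left (hpa x) (sq_nonneg _)
  have h4 : ∫ a, g a ^ 2 ∂α ≤ δ * S := by
    calc ∫ a, g a ^ 2 ∂α ≤ ∫ a, ∑ x, c x ^ 2 * π x a ∂α :=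
          integral_mono_ae hg2i (integrable_finsetSum _ fun x _ => (hπi x).const_mul _) h3
      _ = ∑ x, c x ^ 2 * ∫ a, π x a ∂α := by
          rw [integral_finsetSum _ fun x _ => (hπi x).const_mul _]
          exact Finset.sum_congr rfl fun x _ => integral_const_mul _ _
      _ ≤ ∑ x, c x ^ 2 * δ := Finset.sum_le_sum fun x _ => mul_le_mul_of_nonneg_left (hδ x) (sq_nonneg _)
      _ = δ * S := by rw [← Finset.sum_mul, mul_comm]
  have h5 := pvq_sq_integral_le α hgi hg2i
  rw [e1] at h5
  rcases hS0.eq_or_lt with h | h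
  · rw [← h]; exact hδ0
  · nlinarith

/-- **SS1 with auxiliary randomness** `a`: the exploration, the function and the bounds `π x a` of the revealment depend on `a`; NO measurability of the exploration is asked. -/
theorem pvqs_aux {A : Type*} [MeasurableSpace A] (α : Measure A) [IsProbabilityMeasure α]
    (F : A → (X → Bool) → ℝ) (hFm : ∀ s, Measurable fun a => F a s) (hF1 : ∀ a s, |F a s| ≤ 1)
    (seed : A → Finset X) (step : A → Finset X → (X → Bool) → Finset X) (hloc : ∀ a, PvqsLocal (step a))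
    (hdet : ∀ᵐ a ∂α, ∀ s y, y ∉ pvqsJ (seed a) (step a) s → F a (pvqsFlip y s) = F a s)
    (π : X → A → ℝ) (hπi : ∀ x, Integrable (π x) α)
    (hπ : ∀ᵐ a ∂α, ∀ x, (pvqsAv fun s => if x ∈ pvqsJ (seed a) (step a) s then (1 : ℝ) else 0) ≤ π x a)
    {δ : ℝ} (hδ0 : 0 ≤ δ) (hδ : ∀ x, ∫ a, π x a ∂α ≤ δ) :
    ∑ x, (∫ a, pvqsAv (fun s => F a s * pvqsChi x s) ∂α) ^ 2 ≤ δ := by
  refine pvqs_aux_gen α F hFm hF1 (fun a s x => if x ∈ pvqsJ (seed a) (step a) s then (1 : ℝ) else 0)
    (fun a s x => by split_ifs <;> norm_num) ?_ π hπi hπ hδ0 hδ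
  filter_upwards [hdet] with a ha w
  exact pvqs_layer (hloc a) ha w

/-- FROZEN SITES: the exploration runs on `X ⊕ H` (bits + hidden sites of fixed colours `h`); it induces a rank on the bits. -/
theorem pvqs_rank_frozen {H : Type*} [Fintype H] [DecidableEq H] (h : H → Bool) {seed : Finset (X ⊕ H)}
    {step : Finset (X ⊕ H) → (X ⊕ H → Bool) → Finset (X ⊕ H)} (hl : PvqsLocal step) :
    PvqsRank fun (s : X → Bool) (x : X) => pvqsRk seed step (Sum.elim s h) (Sum.inl x) := by
  intro s y z j hj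
  have e : Sum.elim (pvqsFlip y s) h = pvqsFlip (Sum.inl y) (Sum.elim s h) := by
    funext q
    rcases q with q | q
    · by_cases c : q = y
      · subst c; simp [pvqsFlip]
      · have c' : (Sum.inl q : X ⊕ H) ≠ Sum.inl y := fun hh => c (Sum.inl.inj hh)
        rw [pvqsFlip_ne c']; simp [pvqsFlip_ne c]
    · have c' : (Sum.inr q : X ⊕ H) ≠ Sum.inl y := by simp
      rw [pvqsFlip_ne c']; simp
  simp only [e]
  exact pvqsRk_rank hl (Sum.elim s h) (Sum.inl y) (Sum.inl z) j hj

theorem pvqs_eqns_cite : True := by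
  have := @pvqsFlip.eq_1.{0}; have := @pvqsChi.eq_1.{0}; have := @pvqsFlipE.eq_1.{0}; have := @PvqsRank.eq_1.{0}
  have := @pvqsU.eq_1.{0}; have := @pvqsU.eq_2.{0}; have := @PvqsLocal.eq_1.{0}; have := @pvqsJ.eq_1.{0}; have := @pvqsRk.eq_1.{0}
  have := @pvqsAv.eq_1.{0}
  trivial

end ss1

end Claimed.Agent.R289
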